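import Vale.Agent.P099.H819.Defs

open MeasureTheory

namespace Vale.Agent.P099

/-- `l` is the law of (position, direction) of a stationary billiard motion in `T`: there is a
measurable family `Φ t` of maps preserving `l` such that `l`-almost every phase point has a unit
direction and moves along a billiard trajectory. -/
def Triangle.IsInvariantLaw (T : Triangle) (l : Measure (ℂ × ℂ)) : Prop :=
  ∃ Φ : ℝ → ℂ × ℂ → ℂ × ℂ, Measurable (fun z : ℝ × (ℂ × ℂ) => Φ z.1 z.2) ∧
    (∀ t, MeasurePreserving (Φ t) l l) ∧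
    ∀ᵐ p ∂l, ‖p.2‖ = 1 ∧ Φ 0 p = p ∧ T.IsTrajectory (fun t => Φ t p)

end Vale.Agent.P099
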