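import Vale.Agent.P099.H819.Rational
import Vale.Agent.N099X.Defs

/-!
# P099x: common definitions of the proof files
-/

set_option linter.all false

open MeasureTheory Set Filter Topology
open scoped ComplexConjugate NNReal ENNReal

namespace Vale.Agent.P099

namespace Triangle

variable (T : Triangle)

/-- `refl i u = om i * conj u` -/
noncomputable def om (i : Fin 3) : ℂ := T.d i / conj (T.d i)

lemma refl_om (i : Fin 3) (u : ℂ) : T.refl i u = T.om i * conj u := T.refl_eq i u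

lemma norm_om (i : Fin 3) : ‖T.om i‖ = 1 := by
  rw [om, norm_div, RCLike.norm_conj, div_self (norm_ne_zero_iff.2 (T.d_ne i))]

lemma om_ne (i : Fin 3) : T.om i ≠ 0 := by
  rw [← norm_ne_zero_iff, norm_om]
  exact one_ne_zero

lemma conj_om (i : Fin 3) : conj (T.om i) = (T.om i)⁻¹ :=
  (Complex.inv_eq_conj (T.norm_om i)).symm

/-- for an irrational triangle the numbers `om i ^ n` are not all equal -/
lemma exists_om_ne (hT : T.IsIrrational) {n : ℤ} (hn : n ≠ 0) :
    ∃ i j, T.om i ^ n ≠ T.om j ^ n := by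
  obtain ⟨i, hi⟩ := hT
  refine ⟨i + 2, i + 1, fun h => T.rot_pow_ne_one hi hn ?_⟩
  have h2 : T.rot i = T.om (i + 2) / T.om (i + 1) := by
    simp only [om, rot]
    have h1 := T.d_ne (i + 1)
    have h3 : conj (T.d (i + 1)) ≠ 0 := by simpa using T.d_ne (i + 1)
    have h4 : conj (T.d (i + 2)) ≠ 0 := by simpa using T.d_ne (i + 2)
    field_simp
  rw [h2, div_zpow, h, div_self (zpow_ne_zero _ (T.om_ne _))]

/-- boundary condition: on the closed side `i` the values of `φ` lie in the line `z = c i * conj z` -/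
def Bc (c : Fin 3 → ℂ) (φ : ℂ → ℂ) : Prop :=
  ∀ i, ∀ y ∈ segment ℝ (T.P (i + 1)) (T.P (i + 2)), φ y = c i * conj (φ y)

/-- test functions -/
def Test (c : Fin 3 → ℂ) (φ : ℂ → ℂ) : Prop := ContDiff ℝ 1 φ ∧ T.Bc c φ

/-- an ensemble of billiard trajectories with bounded position densities -/
structure Ens {Z : Type} [MeasurableSpace Z] (P : Measure Z) (γ : ℝ → Z → ℂ × ℂ) : Prop where
  meas : Measurable (fun q : ℝ × Z => γ q.1 q.2)
  traj : ∀ᵐ z ∂P, T.IsTrajectory (fun s => γ s z)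
  unit : ∀ s, ∀ᵐ z ∂P, ‖(γ s z).2‖ = 1
  pos : ∃ C : ℝ≥0, ∀ s, P.map (fun z => (γ s z).1) ≤ C • volume.restrict T.table

end Triangle

/-- bounded measurable functions of the position -/
def BddM (ψ : ℂ → ℂ) : Prop := Measurable ψ ∧ ∃ K, ∀ x, ‖ψ x‖ ≤ K

/-- the `k`-th mode of an ensemble with weight `H` at time `s`, tested against `ψ` -/
noncomputable def Nm {Z : Type} [MeasurableSpace Z] (P : Measure Z) (γ : ℝ → Z → ℂ × ℂ)
    (H : Z → ℝ) (k : ℤ) (s : ℝ) (ψ : ℂ → ℂ) : ℂ :=
  ∫ z, (H z : ℂ) * (ψ (γ s z).1 * (γ s z).2 ^ k) ∂P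

/-- the `k`-th mode vanishes at time `s` -/
def Van {Z : Type} [MeasurableSpace Z] (P : Measure Z) (γ : ℝ → Z → ℂ × ℂ)
    (H : Z → ℝ) (k : ℤ) (s : ℝ) : Prop :=
  ∀ ψ, BddM ψ → Nm P γ H k s ψ = 0

lemma continuous_dz {φ : ℂ → ℂ} (hφ : ContDiff ℝ 1 φ) : Continuous (dz φ) := by
  have hfd : Continuous (fderiv ℝ φ) := hφ.continuous_fderiv one_ne_zero
  unfold dz
  exact (((hfd.clm_apply continuous_const)).sub
    (continuous_const.mul (hfd.clm_apply continuous_const))).div_const _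

lemma continuous_dzb {φ : ℂ → ℂ} (hφ : ContDiff ℝ 1 φ) : Continuous (dzb φ) := by
  have hfd : Continuous (fderiv ℝ φ) := hφ.continuous_fderiv one_ne_zero
  unfold dzb
  exact (((hfd.clm_apply continuous_const)).add
    (continuous_const.mul (hfd.clm_apply continuous_const))).div_const _

lemma fderiv_eq_dz (φ : ℂ → ℂ) (x u : ℂ) :
    fderiv ℝ φ x u = dz φ x * u + dzb φ x * conj u := by
  rw [fderiv_complex_eq φ x u, dz, dzb]
  have h1 : u = u.re + u.im * Complex.I := (Complex.re_add_im u).symm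
  have h2 : conj u = u.re - u.im * Complex.I := by
    apply Complex.ext <;> simp
  rw [h2]
  generalize fderiv ℝ φ x 1 = A
  generalize fderiv ℝ φ x Complex.I = B
  generalize (u.re : ℂ) = a at h1 ⊢
  generalize (u.im : ℂ) = b at h1 ⊢
  rw [h1]
  linear_combination (B * b) * Complex.I_mul_I

end Vale.Agent.P099
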