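import Vale.Agent.N099X.Stmt
import Vale.Agent.N099X.Base
import Mathlib.Topology.TietzeExtension

/-!
# P099x: from the phase space `ℂ × ℝ / ℤ` to the phase space `ℂ × ℂ`
-/

set_option linter.all false

open MeasureTheory ProbabilityTheory Set Filter Topology
open scoped ComplexConjugate NNReal ENNReal

namespace Vale.Agent.N099X

open Vale.Agent.P099

lemma norm_vel (θ : UnitAddCircle) : ‖vel θ‖ = 1 := Circle.norm_coe _

lemma continuous_vel : Continuous vel :=
  continuous_subtype_val.comp AddCircle.continuous_toCircle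

lemma vel_coe (x : ℝ) : vel (x : UnitAddCircle) = Complex.exp ((2 * Real.pi * x : ℝ) * Complex.I) := by
  rw [vel, AddCircle.toCircle_apply_mk, Circle.coe_exp, div_one]

lemma vel_injective : Function.Injective vel := fun a b h =>
  AddCircle.injective_toCircle one_ne_zero (Subtype.ext h)

/-- the angle of a direction -/
noncomputable def ang (u : ℂ) : UnitAddCircle := ((u.arg / (2 * Real.pi) : ℝ) : UnitAddCircle)

lemma measurable_ang : Measurable ang :=
  AddCircle.measurable_mk'.comp (Complex.measurable_arg.div_const _)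

lemma vel_ang {u : ℂ} (hu : ‖u‖ = 1) : vel (ang u) = u := by
  rw [ang, vel_coe, mul_div_cancel₀ _ (by positivity : (2 * Real.pi) ≠ 0)]
  have h := Complex.norm_mul_exp_arg_mul_I u
  rw [hu] at h
  simpa using h

lemma ang_vel (θ : UnitAddCircle) : ang (vel θ) = θ := vel_injective (vel_ang (norm_vel θ))

lemma map_vel : (volume : Measure UnitAddCircle).map vel = nu := by
  have h1 := (AddCircle.measurePreserving_mk 1 (-(1 / 2))).map_eq
  have hπ : (0 : ℝ) < 2 * Real.pi := by positivity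
  have h2 : (volume.restrict (Ioc (-(1 / 2) : ℝ) (-(1 / 2) + 1))).map (fun x => 2 * Real.pi * x) =
      ProbabilityTheory.cond volume (Ioc (-Real.pi) Real.pi) := by
    have h3 : Ioc (-(1 / 2) : ℝ) (-(1 / 2) + 1) =
        (fun x => 2 * Real.pi * x) ⁻¹' Ioc (-Real.pi) Real.pi := by
      ext x
      have := Real.pi_pos
      simp only [mem_Ioc, mem_preimage]
      constructor
      · rintro ⟨a, b⟩
        constructor <;> nlinarith
      · rintro ⟨a, b⟩
        constructor <;> nlinarith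
    rw [h3, ← Measure.restrict_map (by fun_prop) measurableSet_Ioc,
      Real.map_volume_mul_left hπ.ne', Measure.restrict_smul, ProbabilityTheory.cond,
      volume_Ioc_pi, abs_of_pos (inv_pos.2 hπ), ENNReal.ofReal_inv_of_pos hπ]
  rw [← h1, nu, ← h2, Measure.map_map continuous_vel.measurable AddCircle.measurable_mk',
    Measure.map_map measurable_expI (by fun_prop)]
  congr 1
  funext x
  exact vel_coe x

/-- the inclusion of the phase space -/
noncomputable def up (p : Phase) : ℂ × ℂ := (p.1, vel p.2)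

/-- the retraction onto the phase space -/
noncomputable def dn (q : ℂ × ℂ) : Phase := (q.1, ang q.2)

lemma dn_up (p : Phase) : dn (up p) = p := Prod.ext rfl (ang_vel p.2)

lemma up_dn {q : ℂ × ℂ} (h : ‖q.2‖ = 1) : up (dn q) = q := Prod.ext rfl (vel_ang h)

lemma continuous_up : Continuous up := continuous_fst.prodMk (continuous_vel.comp continuous_snd)

lemma measurable_dn : Measurable dn := measurable_fst.prodMk (measurable_ang.comp measurable_snd)

lemma isClosedEmbedding_up : IsClosedEmbedding up := by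
  have h1 : IsClosedEmbedding vel := continuous_vel.isClosedEmbedding vel_injective
  have h2 : up = Prod.map id vel := rfl
  rw [h2]
  refine ⟨IsEmbedding.id.prodMap h1.isEmbedding, ?_⟩
  rw [range_prodMap, range_id]
  exact isClosed_univ.prod h1.isClosed_range

lemma measurableEmbedding_up : MeasurableEmbedding up := isClosedEmbedding_up.measurableEmbedding

lemma preimage_up_dn (S : Set Phase) : up ⁻¹' (dn ⁻¹' S) = S := by
  ext p
  simp only [mem_preimage, dn_up]

variable (T : Triangle)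

lemma Q_eq : Q T.P = T.table := rfl

lemma map_up : (mu T.P).map up = T.mu := by
  have h : IsProbabilityMeasure (cond (volume : Measure ℂ) T.table) :=
    cond_isProbabilityMeasure_of_finite T.volume_table_pos.ne' T.volume_table_lt_top.ne
  have h2 : up = Prod.map id vel := rfl
  rw [mu, Q_eq, h2, ← Measure.map_prod_map _ _ measurable_id continuous_vel.measurable,
    Measure.map_id, map_vel]
  rfl

lemma mp_up : MeasurePreserving up (mu T.P) T.mu := ⟨continuous_up.measurable, map_up T⟩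

lemma map_dn_map_up (l : Measure Phase) : (l.map up).map dn = l := by
  rw [Measure.map_map measurable_dn continuous_up.measurable]
  have : dn ∘ up = id := funext dn_up
  rw [this, Measure.map_id]

lemma map_up_map_dn {l : Measure (ℂ × ℂ)} (h : ∀ᵐ q ∂l, ‖q.2‖ = 1) : (l.map dn).map up = l := by
  rw [Measure.map_map continuous_up.measurable measurable_dn]
  have : up ∘ dn =ᵐ[l] id := h.mono fun q hq => up_dn hq
  rw [Measure.map_congr this, Measure.map_id]

lemma mp_dn : MeasurePreserving dn T.mu (mu T.P) :=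
  ⟨measurable_dn, by rw [← map_up, map_dn_map_up]⟩

lemma prob_mu : IsProbabilityMeasure (mu T.P) := by
  have := T.isProbabilityMeasure_mu
  rw [← (mp_dn T).map_eq]
  exact Measure.isProbabilityMeasure_map measurable_dn.aemeasurable

lemma mu_apply (S : Set (ℂ × ℂ)) : T.mu S = mu T.P (up ⁻¹' S) := by
  rw [← map_up, measurableEmbedding_up.map_apply]

lemma inner_eq_dt (a b : ℂ) : inner ℝ a b = dt a b := by
  rw [Complex.inner, dt]
  simp only [Complex.mul_re, Complex.conj_re, Complex.conj_im]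
  ring

lemma inner_eq_cr (a b : ℂ) : inner ℝ a (Complex.I * b) = cr b a := by
  rw [inner_eq_dt, dt, cr]
  simp only [Complex.mul_re, Complex.mul_im, Complex.I_re, Complex.I_im]
  ring

lemma specular_iff (i : Fin 3) (θ θ' : UnitAddCircle) :
    Specular (T.P (i + 2) - T.P (i + 1)) θ θ' ↔ vel θ' = T.refl i (vel θ) := by
  have h1 := T.dt_refl i (vel θ) (T.d i)
  have h2 := T.cr_refl i (T.d i) (vel θ)
  rw [T.refl_d] at h1 h2
  have e : T.P (i + 2) - T.P (i + 1) = T.d i := rfl
  rw [Specular, e, inner_eq_cr, inner_eq_cr, inner_eq_dt, inner_eq_dt, ← h1, ← h2]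
  constructor
  · rintro ⟨a, b⟩
    have hd := T.d_ne i
    generalize T.refl i (vel θ) = w at a b ⊢
    generalize vel θ' = v at a b ⊢
    have h3 : conj (T.d i) * (v - w) = 0 := by
      unfold dt at a
      unfold cr at b
      apply Complex.ext
      · simp only [Complex.mul_re, Complex.conj_re, Complex.conj_im, Complex.sub_re,
          Complex.sub_im, Complex.zero_re]
        linarith
      · simp only [Complex.mul_im, Complex.conj_re, Complex.conj_im, Complex.sub_re,
          Complex.sub_im, Complex.zero_im]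
        linarith
    rcases mul_eq_zero.1 h3 with h | h
    · exact absurd (by simpa using h) hd
    · exact sub_eq_zero.1 h
  · intro h
    rw [h]
    exact ⟨rfl, rfl⟩

variable {T}

lemma traj_of_orbit {γ : ℝ → Phase} (h : IsOrbit T.P γ) : T.IsTrajectory fun t => up (γ t) := by
  intro t
  obtain ⟨θ, θ', h1, h2, h3⟩ := h t
  rcases h3 with ⟨a, b, c⟩ | ⟨i, a, b⟩
  · left
    refine ⟨a, ?_⟩
    rw [← nhdsNE_sup_pure t, ← nhdsLT_sup_nhdsGT, eventually_sup, eventually_sup, eventually_pure]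
    rw [b] at h1
    rw [c] at h2
    refine ⟨⟨h1.mono fun s hs => ?_, h2.mono fun s hs => ?_⟩, ?_⟩
    · simp only [up, hs]
    · simp only [up, hs]
    · simp only [up, sub_self, zero_smul, add_zero]
  · right
    refine ⟨i, vel θ, a, h1.mono fun s hs => ?_, h2.mono fun s hs => ?_⟩
    · simp only [up, hs]
    · rw [← (specular_iff T i θ θ').1 b]
      simp only [up, hs]

lemma punct {p : ℝ → Prop} {t : ℝ} (h : ∀ᶠ s in 𝓝[≠] t, p s) :
    ∀ᶠ s in 𝓝 t, ∀ᶠ r in 𝓝[≠] s, p r := by
  have h1 := (eventually_nhdsWithin_iff.1 h).eventually_nhds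
  filter_upwards [h1] with s hs
  by_cases hst : s = t
  · rw [hst]
    exact h
  · refine mem_nhdsWithin_of_mem_nhds ?_
    filter_upwards [hs, eventually_ne_nhds hst] with r h2 h3 using h2 h3

lemma unit_of_traj {δ : ℝ → ℂ × ℂ} (h : T.IsTrajectory δ) (h0 : (δ 0).1 ∈ T.table)
    (h1 : ‖(δ 0).2‖ = 1) (t : ℝ) : ∀ᶠ s in 𝓝[≠] t, ‖(δ s).2‖ = 1 := by
  have hc : ∀ t, ∃ c, ∀ᶠ s in 𝓝[≠] t, ‖(δ s).2‖ = c := by
    intro t
    rcases h t with ⟨-, a⟩ | ⟨i, u, -, a, b⟩
    · exact ⟨‖(δ t).2‖, mem_nhdsWithin_of_mem_nhds (a.mono fun s hs => by rw [hs])⟩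
    · refine ⟨‖u‖, ?_⟩
      rw [← nhdsLT_sup_nhdsGT, eventually_sup]
      exact ⟨a.mono fun s hs => by rw [hs], b.mono fun s hs => by rw [hs, T.norm_refl]⟩
  have hS : IsClopen {t : ℝ | ∀ᶠ s in 𝓝[≠] t, ‖(δ s).2‖ = 1} := by
    refine ⟨isOpen_compl_iff.1 (isOpen_iff_mem_nhds.2 fun t ht => ?_),
      isOpen_iff_mem_nhds.2 fun t ht => punct ht⟩
    obtain ⟨c, hc⟩ := hc t
    have hc1 : c ≠ 1 := by
      rintro rfl
      exact ht hc
    filter_upwards [punct hc] with s hs hs'
    obtain ⟨r, a, b⟩ := (hs.and hs').exists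
    exact hc1 (a.symm.trans b)
  have h2 : (0 : ℝ) ∈ {t : ℝ | ∀ᶠ s in 𝓝[≠] t, ‖(δ s).2‖ = 1} := by
    rcases h 0 with ⟨-, a⟩ | ⟨i, u, a, -⟩
    · exact mem_nhdsWithin_of_mem_nhds (a.mono fun s hs => by rw [hs]; exact h1)
    · exact absurd a (T.not_mem_side_of_mem_table h0 i)
  have h3 := (isClopen_iff.1 hS).resolve_left (Set.Nonempty.ne_empty ⟨0, h2⟩)
  exact (h3.symm ▸ mem_univ t : t ∈ {t : ℝ | ∀ᶠ s in 𝓝[≠] t, ‖(δ s).2‖ = 1})

lemma orbit_of_traj {δ : ℝ → ℂ × ℂ} (h : T.IsTrajectory δ) (h0 : (δ 0).1 ∈ T.table)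
    (h1 : ‖(δ 0).2‖ = 1) : IsOrbit T.P fun t => dn (δ t) := by
  intro t
  have hu := unit_of_traj h h0 h1 t
  rcases h t with ⟨a, b⟩ | ⟨i, u, a, b, c⟩
  · have h2 : ‖(δ t).2‖ = 1 := by
      obtain ⟨s, s1, s2⟩ := (hu.and (mem_nhdsWithin_of_mem_nhds b)).exists
      rw [s2] at s1
      exact s1
    refine ⟨ang (δ t).2, ang (δ t).2, mem_nhdsWithin_of_mem_nhds (b.mono fun s hs => ?_),
      mem_nhdsWithin_of_mem_nhds (b.mono fun s hs => ?_), Or.inl ⟨a, rfl, rfl⟩⟩
    · simp only [dn, hs, vel_ang h2]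
    · simp only [dn, hs, vel_ang h2]
  · have h2 : ‖u‖ = 1 := by
      obtain ⟨s, s1, s2⟩ := ((hu.filter_mono (nhdsLT_le_nhdsNE t)).and b).exists
      rw [s2] at s1
      exact s1
    have h3 : ‖T.refl i u‖ = 1 := by rw [T.norm_refl, h2]
    refine ⟨ang u, ang (T.refl i u), b.mono fun s hs => ?_, c.mono fun s hs => ?_,
      Or.inr ⟨i, a, (specular_iff T i _ _).2 ?_⟩⟩
    · simp only [dn, hs, vel_ang h2]
    · simp only [dn, hs, vel_ang h3]
    · rw [vel_ang h2, vel_ang h3]

/-- a family of maps of the phase space as a family of maps of `ℂ × ℂ` -/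
noncomputable def lift (Φ : ℝ → Phase → Phase) (t : ℝ) (q : ℂ × ℂ) : ℂ × ℂ := up (Φ t (dn q))

/-- a family of maps of `ℂ × ℂ` as a family of maps of the phase space -/
noncomputable def lower (Ψ : ℝ → ℂ × ℂ → ℂ × ℂ) (t : ℝ) (p : Phase) : Phase := dn (Ψ t (up p))

lemma lift_up (Φ : ℝ → Phase → Phase) (t : ℝ) (p : Phase) : lift Φ t (up p) = up (Φ t p) := by
  rw [lift, dn_up]

lemma ae_lift {l : Measure Phase} {Φ : ℝ → Phase → Phase} (h : Moves T.P l Φ) :
    ∀ᵐ q ∂(l.map up), ‖q.2‖ = 1 ∧ lift Φ 0 q = q ∧ T.IsTrajectory fun t => lift Φ t q := by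
  rw [measurableEmbedding_up.ae_map_iff]
  filter_upwards [h] with p hp
  simp only [lift_up, hp.1]
  exact ⟨norm_vel _, trivial, traj_of_orbit hp.2⟩

lemma billiard_lift {Φ : ℝ → Phase → Phase} (h : Moves T.P (mu T.P) Φ) :
    T.IsBilliardFlow (lift Φ) := by
  have h1 := ae_lift h
  rw [map_up] at h1
  exact h1.mono fun q hq => hq.2

lemma law_lift {l : Measure Phase} {Φ : ℝ → Phase → Phase} (h1 : Preserves l Φ)
    (h2 : Moves T.P l Φ) : T.IsInvariantLaw (l.map up) := by
  refine ⟨lift Φ, continuous_up.measurable.comp (h1.1.comp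
    (measurable_fst.prodMk (measurable_dn.comp measurable_snd))), fun t => ?_, ae_lift h2⟩
  have a : MeasurePreserving up l (l.map up) := ⟨continuous_up.measurable, rfl⟩
  have b : MeasurePreserving dn (l.map up) l := ⟨measurable_dn, map_dn_map_up l⟩
  exact a.comp ((h1.2 t).comp b)

lemma law_lower {l : Measure (ℂ × ℂ)} {Ψ : ℝ → ℂ × ℂ → ℂ × ℂ}
    (hm : Measurable fun z : ℝ × (ℂ × ℂ) => Ψ z.1 z.2) (hp : ∀ t, MeasurePreserving (Ψ t) l l)
    (h : ∀ᵐ q ∂l, ‖q.2‖ = 1 ∧ Ψ 0 q = q ∧ T.IsTrajectory fun t => Ψ t q)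
    (ht : ∀ᵐ q ∂l, q.1 ∈ T.table) :
    Preserves (l.map dn) (lower Ψ) ∧ Moves T.P (l.map dn) (lower Ψ) := by
  have a : MeasurePreserving up (l.map dn) l :=
    ⟨continuous_up.measurable, map_up_map_dn (h.mono fun q hq => hq.1)⟩
  have b : MeasurePreserving dn l (l.map dn) := ⟨measurable_dn, rfl⟩
  refine ⟨⟨measurable_dn.comp (hm.comp (measurable_fst.prodMk
    (continuous_up.measurable.comp measurable_snd))), fun t => b.comp ((hp t).comp a)⟩, ?_⟩
  filter_upwards [a.quasiMeasurePreserving.ae h, a.quasiMeasurePreserving.ae ht] with p h1 h2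
  refine ⟨by rw [lower, h1.2.1, dn_up], orbit_of_traj h1.2.2 ?_ ?_⟩
  · rw [h1.2.1]
    exact h2
  · rw [h1.2.1]
    exact h1.1

lemma ae_unit (T : Triangle) : ∀ᵐ q ∂T.mu, ‖q.2‖ = 1 := by
  rw [T.ae_mu_iff]
  exact Measure.quasiMeasurePreserving_snd.ae ae_norm

theorem exists_flow (T : Triangle) : ∃ Ψ, Moves T.P (mu T.P) Ψ ∧ Preserves (mu T.P) Ψ ∧
    (∀ s t, Ψ (s + t) =ᵐ[mu T.P] Ψ s ∘ Ψ t) ∧
    ∀ Φ, Moves T.P (mu T.P) Φ → ∀ t, Φ t =ᵐ[mu T.P] Ψ t := by
  obtain ⟨Ψ, hΨ, hb, hu⟩ := T.exists_good_flow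
  have h1 := law_lower (T := T) hΨ.meas hΨ.mp ((ae_unit T).and hb) T.ae_mem_table
  rw [(mp_dn T).map_eq] at h1
  have hq := (mp_up T).quasiMeasurePreserving
  refine ⟨lower Ψ, h1.2, h1.1, fun s t => ?_, fun Φ hΦ t => ?_⟩
  · filter_upwards [hq.ae (hΨ.add s t),
      hq.ae ((hΨ.mp t).quasiMeasurePreserving.ae (ae_unit T))] with p a b
    simp only [lower, Function.comp_apply, a, up_dn b]
  · filter_upwards [hq.ae (hu _ (billiard_lift hΦ) t)] with p a
    rw [lower, ← a, lift_up, dn_up]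

lemma preimage_lift (Φ : ℝ → Phase → Phase) (t : ℝ) (A : Set (ℂ × ℂ)) :
    up ⁻¹' (lift Φ t ⁻¹' A) = Φ t ⁻¹' (up ⁻¹' A) := by
  ext p
  simp only [mem_preimage, lift_up]

theorem erg_of {Φ : ℝ → Phase → Phase} (h : FlowErgodic T.mu (lift Φ)) : Erg (mu T.P) Φ := by
  intro A hA hinv
  have h1 := h (dn ⁻¹' A) (measurable_dn hA) fun t => by
    rw [mu_apply, preimage_symmDiff, preimage_lift, preimage_up_dn]
    exact hinv t
  rwa [mu_apply, preimage_up_dn] at h1

theorem wm_of {Φ : ℝ → Phase → Phase} (h : FlowWeakMixing T.mu (lift Φ)) :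
    Erg ((mu T.P).prod (mu T.P)) fun t => Prod.map (Φ t) (Φ t) := by
  intro A hA hinv
  have := prob_mu T
  have := T.isProbabilityMeasure_mu
  have he : MeasurableEmbedding (Prod.map up up) :=
    measurableEmbedding_up.prodMap measurableEmbedding_up
  have hm : ∀ S, (T.mu.prod T.mu) S = ((mu T.P).prod (mu T.P)) (Prod.map up up ⁻¹' S) := by
    intro S
    rw [← ((mp_up T).prod (mp_up T)).map_eq, he.map_apply]
  have e1 : Prod.map up up ⁻¹' (Prod.map dn dn ⁻¹' A) = A := by
    ext p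
    simp only [mem_preimage, Prod.map, dn_up]
  have h1 := h (Prod.map dn dn ⁻¹' A) ((measurable_dn.prodMap measurable_dn) hA) fun t => by
    rw [hm, preimage_symmDiff, e1]
    convert hinv t using 3
    ext p
    simp only [mem_preimage, Prod.map, lift_up, dn_up]
  rwa [hm, e1] at h1

theorem mix_iff {Φ : ℝ → Phase → Phase} (l : Filter ℝ) : Mix (mu T.P) Φ l ↔
    ∀ A B, MeasurableSet A → MeasurableSet B → Tendsto
      (fun t => T.mu.real (lift Φ t ⁻¹' A ∩ B)) l (𝓝 (T.mu.real A * T.mu.real B)) := by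
  have := prob_mu T
  have key : ∀ A B : Set Phase, Tendsto (fun t => mu T.P (Φ t ⁻¹' A ∩ B)) l
      (𝓝 (mu T.P A * mu T.P B)) ↔ Tendsto (fun t => (mu T.P).real (Φ t ⁻¹' A ∩ B)) l
      (𝓝 ((mu T.P).real A * (mu T.P).real B)) := by
    intro A B
    simp only [measureReal_def]
    rw [← ENNReal.toReal_mul, ENNReal.tendsto_toReal_iff (fun t => measure_ne_top _ _)
      (ENNReal.mul_ne_top (measure_ne_top _ _) (measure_ne_top _ _))]
  constructor
  · intro h A B hA hB
    have h1 := (key _ _).1 (h _ _ (continuous_up.measurable hA) (continuous_up.measurable hB))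
    simpa only [measureReal_def, mu_apply, preimage_inter, preimage_lift] using h1
  · intro h A B hA hB
    have h1 := h _ _ (measurable_dn hA) (measurable_dn hB)
    rw [key]
    simpa only [measureReal_def, mu_apply, preimage_inter, preimage_lift, preimage_up_dn] using h1

lemma setIntegral_mu {E : Type} [NormedAddCommGroup E] [NormedSpace ℝ E] (S : Set (ℂ × ℂ))
    (F : ℂ × ℂ → E) : ∫ q in S, F q ∂T.mu = ∫ p in up ⁻¹' S, F (up p) ∂(mu T.P) := by
  rw [← map_up, measurableEmbedding_up.setIntegral_map]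

end Vale.Agent.N099X
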