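import Vale.Agent.N099X.Base
import Mathlib.Analysis.Calculus.BumpFunction.FiniteDimension
import Mathlib.MeasureTheory.Measure.Haar.NormedSpace

set_option linter.all false

open MeasureTheory Set Filter Topology
open scoped ComplexConjugate NNReal ENNReal

namespace Vale.Agent.P099

lemma Cut_supp {β : ℂ → ℝ} (h : ContDiff ℝ 1 β) {δ : ℝ} (h0 : ∀ x, δ ≤ ‖x‖ → β x = 0) :
    (∃ L, ∀ x, ‖fderiv ℝ β x‖ ≤ L) ∧ Integrable (fun x => ‖fderiv ℝ β x‖ ^ 2) := by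
  have hc : HasCompactSupport β :=
    HasCompactSupport.intro (isCompact_closedBall (0 : ℂ) δ) fun x hx =>
      h0 x (le_of_lt (by simpa using hx))
  have hf : Continuous (fderiv ℝ β) := h.continuous_fderiv one_ne_zero
  have hs : HasCompactSupport (fderiv ℝ β) := hc.fderiv ℝ
  have h1 : Continuous fun x => ‖fderiv ℝ β x‖ ^ 2 := hf.norm.pow 2
  have h2 : HasCompactSupport fun x => ‖fderiv ℝ β x‖ ^ 2 :=
    hs.mono fun x hx h0 => hx (by simp only [h0, norm_zero, ne_eq, OfNat.ofNat_ne_zero,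
      not_false_eq_true, zero_pow])
  exact ⟨hf.bounded_above_of_compact_support hs, h1.integrable_of_hasCompactSupport h2⟩

lemma Cut_bump : ∃ K : ℝ, 0 ≤ K ∧ ∀ s : ℝ, 0 < s → ∃ b : ℂ → ℝ, ContDiff ℝ 1 b ∧
    (∀ x, ‖x‖ < s → b x = 1) ∧ (∀ x, 2 * s ≤ ‖x‖ → b x = 0) ∧ (∀ x, 0 ≤ b x ∧ b x ≤ 1) ∧
    ∫ x, ‖fderiv ℝ b x‖ ^ 2 = K := by
  let c : ContDiffBump (0 : ℂ) := ⟨1, 2, one_pos, one_lt_two⟩
  have hc : ContDiff ℝ 1 c := c.contDiff
  refine ⟨∫ x, ‖fderiv ℝ c x‖ ^ 2, integral_nonneg fun x => by positivity, fun s hs =>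
    ⟨fun x => c (s⁻¹ • x), hc.comp (contDiff_const_smul _), fun x hx => ?_, fun x hx => ?_,
      fun x => ⟨c.nonneg, c.le_one⟩, ?_⟩⟩
  · refine c.one_of_mem_closedBall ?_
    rw [mem_closedBall_zero_iff, norm_smul, norm_inv, Real.norm_of_nonneg hs.le,
      inv_mul_le_iff₀ hs]
    change _ ≤ s * 1
    linarith
  · refine c.zero_of_le_dist ?_
    rw [dist_zero_right, norm_smul, norm_inv, Real.norm_of_nonneg hs.le, le_inv_mul_iff₀ hs]
    change s * 2 ≤ _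
    linarith
  · have h1 : ∀ x : ℂ, ‖fderiv ℝ (fun x : ℂ => c (s⁻¹ • x)) x‖ ^ 2 =
        s⁻¹ ^ 2 * ‖fderiv ℝ c (s⁻¹ • x)‖ ^ 2 := by
      intro x
      rw [fderiv_comp_smul, norm_smul, mul_pow, Real.norm_eq_abs, sq_abs]
    simp only [h1]
    rw [integral_const_mul, Measure.integral_comp_inv_smul volume
      (fun x => ‖fderiv ℝ c x‖ ^ 2) s, Complex.finrank_real_complex, abs_of_pos (by positivity),
      smul_eq_mul, ← mul_assoc, ← mul_pow, inv_mul_cancel₀ hs.ne', one_pow, one_mul]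

lemma Cut_tower {δ : ℝ} (hδ : 0 < δ) : ∃ K : ℝ, 0 ≤ K ∧ ∀ N : ℕ, ∃ (β : ℂ → ℝ) (r : ℝ),
    0 < r ∧ r ≤ δ ∧ ContDiff ℝ 1 β ∧ (∀ x, ‖x‖ < r → β x = N) ∧ (∀ x, δ ≤ ‖x‖ → β x = 0) ∧
    (∀ x, 0 ≤ β x ∧ β x ≤ N) ∧ ∫ x, ‖fderiv ℝ β x‖ ^ 2 = N * K := by
  obtain ⟨K, hK, hb⟩ := Cut_bump
  refine ⟨K, hK, fun N => ?_⟩
  induction N with
  | zero =>
    exact ⟨fun _ => 0, δ, hδ, le_rfl, contDiff_const, fun _ _ => by simp, fun _ _ => rfl,
      fun _ => by simp, by simp⟩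
  | succ N ih =>
    obtain ⟨β, r, hr, hrδ, h1, h2, h3, h4, h5⟩ := ih
    obtain ⟨b, g1, g2, g3, g4, g5⟩ := hb (r / 3) (by positivity)
    refine ⟨fun x => β x + b x, r / 3, by positivity, by linarith, h1.add g1, fun x hx => ?_,
      fun x hx => ?_, fun x => ?_, ?_⟩
    · simp only
      rw [h2 x (by linarith), g2 x hx, Nat.cast_succ]
    · simp only
      rw [h3 x hx, g3 x (by linarith), add_zero]
    · rw [Nat.cast_succ]
      exact ⟨add_nonneg (h4 x).1 (g4 x).1, add_le_add (h4 x).2 (g4 x).2⟩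
    · have e : ∀ x, ‖fderiv ℝ (fun x => β x + b x) x‖ ^ 2 =
          ‖fderiv ℝ β x‖ ^ 2 + ‖fderiv ℝ b x‖ ^ 2 := by
        intro x
        rw [fderiv_fun_add (h1.differentiable one_ne_zero x) (g1.differentiable one_ne_zero x)]
        by_cases hx : ‖x‖ < r
        · have : β =ᶠ[𝓝 x] fun _ => (N : ℝ) := by
            filter_upwards [(isOpen_lt continuous_norm continuous_const).mem_nhds hx] with y hy
            exact h2 y hy
          rw [this.fderiv_eq]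
          simp
        · have hx' : 2 * (r / 3) < ‖x‖ := by linarith [not_lt.1 hx]
          have : b =ᶠ[𝓝 x] fun _ => (0 : ℝ) := by
            filter_upwards [(isOpen_lt continuous_const continuous_norm).mem_nhds hx'] with y hy
            exact g3 y (le_of_lt hy)
          rw [this.fderiv_eq]
          simp
      simp only [e]
      rw [integral_add (Cut_supp h1 h3).2 (Cut_supp g1 g3).2, h5, g5, Nat.cast_succ]
      ring

/-- functions bounded by one with small energy -/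
def CutGood (f : ℂ → ℝ) (e : ℝ) : Prop :=
  ContDiff ℝ 1 f ∧ (∀ x, |f x| ≤ 1) ∧ (∃ L, ∀ x, ‖fderiv ℝ f x‖ ≤ L) ∧
    Integrable (fun x => ‖fderiv ℝ f x‖ ^ 2) ∧ ∫ x, ‖fderiv ℝ f x‖ ^ 2 ≤ e

lemma CutGood.mul {f g : ℂ → ℝ} {e e' : ℝ} (hf : CutGood f e) (hg : CutGood g e') :
    CutGood (fun x => f x * g x) (2 * e + 2 * e') := by
  obtain ⟨f1, f2, ⟨L, f3⟩, f4, f5⟩ := hf
  obtain ⟨g1, g2, ⟨M, g3⟩, g4, g5⟩ := hg
  have h1 : ContDiff ℝ 1 fun x => f x * g x := f1.mul g1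
  have h2 : ∀ x, ‖fderiv ℝ (fun x => f x * g x) x‖ ≤ ‖fderiv ℝ f x‖ + ‖fderiv ℝ g x‖ := by
    intro x
    rw [fderiv_fun_mul (f1.differentiable one_ne_zero x) (g1.differentiable one_ne_zero x)]
    refine (norm_add_le _ _).trans ?_
    rw [norm_smul, norm_smul, Real.norm_eq_abs, Real.norm_eq_abs, add_comm]
    exact add_le_add (mul_le_of_le_one_left (norm_nonneg _) (g2 x))
      (mul_le_of_le_one_left (norm_nonneg _) (f2 x))
  have h3 : ∀ x, ‖fderiv ℝ (fun x => f x * g x) x‖ ^ 2 ≤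
      2 * ‖fderiv ℝ f x‖ ^ 2 + 2 * ‖fderiv ℝ g x‖ ^ 2 := by
    intro x
    refine (pow_le_pow_left₀ (norm_nonneg _) (h2 x) 2).trans ?_
    nlinarith [sq_nonneg (‖fderiv ℝ f x‖ - ‖fderiv ℝ g x‖)]
  have h4 : Integrable fun x => 2 * ‖fderiv ℝ f x‖ ^ 2 + 2 * ‖fderiv ℝ g x‖ ^ 2 :=
    (f4.const_mul 2).add (g4.const_mul 2)
  have h5 : Integrable fun x => ‖fderiv ℝ (fun x => f x * g x) x‖ ^ 2 :=
    h4.mono' ((h1.continuous_fderiv one_ne_zero).norm.pow 2).aestronglyMeasurable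
      (Eventually.of_forall fun x => by
        rw [Real.norm_of_nonneg (by positivity)]
        exact h3 x)
  refine ⟨h1, fun x => ?_, ⟨L + M, fun x => (h2 x).trans (add_le_add (f3 x) (g3 x))⟩, h5, ?_⟩
  · rw [abs_mul]
    exact mul_le_one₀ (f2 x) (abs_nonneg _) (g2 x)
  · refine (integral_mono h5 h4 h3).trans ?_
    rw [integral_add (f4.const_mul 2) (g4.const_mul 2), integral_const_mul, integral_const_mul]
    linarith

lemma Cut_one {δ e : ℝ} (hδ : 0 < δ) (he : 0 < e) : ∃ r, 0 < r ∧ ∀ p : ℂ, ∃ f : ℂ → ℝ,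
    CutGood f e ∧ (∀ x, ‖x - p‖ < r → f x = 0) ∧ ∀ x, δ ≤ ‖x - p‖ → f x = 1 := by
  obtain ⟨K, hK, h⟩ := Cut_tower hδ
  obtain ⟨N, hN⟩ := exists_nat_gt (K / e)
  have hN0 : (0 : ℝ) < N := lt_of_le_of_lt (by positivity) hN
  obtain ⟨β, r, hr, -, h1, h2, h3, h4, h5⟩ := h N
  obtain ⟨⟨L, hL⟩, hI⟩ := Cut_supp h1 h3
  refine ⟨r, hr, fun p => ⟨fun x => 1 - (N : ℝ)⁻¹ * β (x - p), ?_, fun x hx => ?_,
    fun x hx => ?_⟩⟩
  · have g1 : ContDiff ℝ 1 fun x => β (x - p) := h1.comp (contDiff_id.sub contDiff_const)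
    have g2 : ∀ x, ‖fderiv ℝ (fun x => 1 - (N : ℝ)⁻¹ * β (x - p)) x‖ =
        (N : ℝ)⁻¹ * ‖fderiv ℝ β (x - p)‖ := by
      intro x
      rw [fderiv_const_sub, norm_neg, fderiv_const_mul (g1.differentiable one_ne_zero x),
        fderiv_comp_sub, norm_smul, Real.norm_of_nonneg (by positivity)]
    refine ⟨contDiff_const.sub (contDiff_const.mul g1), fun x => ?_,
      ⟨(N : ℝ)⁻¹ * L, fun x => ?_⟩, ?_, ?_⟩
    · have a1 : 0 ≤ (N : ℝ)⁻¹ * β (x - p) := mul_nonneg (by positivity) (h4 _).1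
      have a2 : (N : ℝ)⁻¹ * β (x - p) ≤ 1 := by
        rw [inv_mul_le_iff₀ hN0, mul_one]
        exact (h4 _).2
      rw [abs_le]
      constructor <;> linarith
    · rw [g2]
      exact mul_le_mul_of_nonneg_left (hL _) (by positivity)
    · simp only [g2, mul_pow]
      exact (hI.comp_sub_right p).const_mul _
    · simp only [g2, mul_pow]
      rw [integral_const_mul, integral_sub_right_eq_self (fun x => ‖fderiv ℝ β x‖ ^ 2) p, h5]
      rw [div_lt_iff₀ he] at hN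
      have : (N : ℝ)⁻¹ ^ 2 * (N * K) = K / N := by field_simp
      rw [this, div_le_iff₀ hN0]
      linarith
  · simp only
    rw [h2 _ hx, inv_mul_cancel₀ hN0.ne', sub_self]
  · simp only
    rw [h3 _ hx, mul_zero, sub_zero]

/-- points have capacity zero in the plane: a cut-off near the vertices with small energy -/
theorem Triangle.exists_chi (T : Triangle) {δ η : ℝ} (hδ : 0 < δ) (hη : 0 < η) :
    ∃ χ : ℂ → ℝ, ContDiff ℝ 1 χ ∧ (∃ r, 0 < r ∧ ∀ k x, ‖x - T.P k‖ < r → χ x = 0) ∧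
      (∀ x, (∀ k, δ ≤ ‖x - T.P k‖) → χ x = 1) ∧ (∀ x, |χ x| ≤ 1) ∧
      (∃ L, ∀ x, ‖fderiv ℝ χ x‖ ≤ L) ∧ Integrable (fun x => ‖fderiv ℝ χ x‖ ^ 2) ∧
      ∫ x, ‖fderiv ℝ χ x‖ ^ 2 ≤ η := by
  obtain ⟨r, hr, h⟩ := Cut_one hδ (e := η / 10) (by positivity)
  choose f h1 h2 h3 using h
  obtain ⟨g1, g2, g3, g4, g5⟩ := ((h1 (T.P 0)).mul (h1 (T.P 1))).mul (h1 (T.P 2))
  refine ⟨_, g1, ⟨r, hr, fun k x hx => ?_⟩, fun x hx => ?_, g2, g3, g4, g5.trans (by linarith)⟩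
  · have := h2 _ x hx
    fin_cases k
    · simp only [Fin.zero_eta] at this
      simp only [this, zero_mul]
    · simp only [Fin.mk_one] at this
      simp only [this, zero_mul, mul_zero]
    · simp only [Fin.reduceFinMk] at this
      simp only [this, mul_zero]
  · simp only [h3 _ x (hx _), mul_one]

end Vale.Agent.P099
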