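import Vale.Agent.N099X.Base
import Mathlib.MeasureTheory.Measure.Decomposition.RadonNikodym
import Mathlib.MeasureTheory.Measure.Decomposition.IntegralRNDeriv
import Mathlib.Analysis.Distribution.AEEqOfIntegralContDiff

set_option linter.all false

open MeasureTheory Set Filter Topology
open scoped ComplexConjugate NNReal ENNReal

namespace Vale.Agent.P099

theorem Dens_real {Z : Type} [MeasurableSpace Z] (P : Measure Z) [IsFiniteMeasure P]
    (m : Measure ℂ) [IsFiniteMeasure m] {X : Z → ℂ} (hX : Measurable X) {C : ℝ≥0}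
    (hC : P.map X ≤ C • m) {g : Z → ℝ≥0} (hg : Measurable g) {K : ℝ≥0}
    (hK : ∀ᵐ z ∂P, g z ≤ K) :
    ∃ u : ℂ → ℝ, Measurable u ∧ (∀ x, ‖u x‖ ≤ (K * C : ℝ≥0)) ∧ ∀ ψ : ℂ → ℂ, Measurable ψ →
      ∫ z, ((g z : ℝ) : ℂ) * ψ (X z) ∂P = ∫ x, (u x : ℂ) * ψ x ∂m := by
  set ν : Measure ℂ := (P.withDensity fun z => (g z : ℝ≥0∞)).map X with hν
  have h1 : (P.withDensity fun z => (g z : ℝ≥0∞)) ≤ (K : ℝ≥0∞) • P := by
    rw [← withDensity_const]
    exact withDensity_mono (hK.mono fun z hz => ENNReal.coe_le_coe.2 hz)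
  have h2 : ν ≤ ((K * C : ℝ≥0) : ℝ≥0∞) • m := by
    refine (Measure.map_mono h1 hX).trans ?_
    rw [Measure.map_smul]
    refine Measure.le_iff.2 fun s hs => ?_
    have := Measure.le_iff.1 hC s hs
    simp only [Measure.smul_apply, smul_eq_mul, ENNReal.coe_mul, ENNReal.smul_def] at this ⊢
    rw [mul_assoc]
    exact mul_le_mul_right this _
  have hac : ν ≪ m := Measure.absolutelyContinuous_of_le_smul h2
  have hfin : IsFiniteMeasure ν := by
    refine ⟨lt_of_le_of_lt (Measure.le_iff.1 h2 univ MeasurableSet.univ) ?_⟩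
    rw [Measure.smul_apply, smul_eq_mul]
    exact ENNReal.mul_lt_top ENNReal.coe_lt_top (measure_lt_top _ _)
  have h3 : ν.rnDeriv m ≤ᵐ[m] fun _ => ((K * C : ℝ≥0) : ℝ≥0∞) := by
    refine ae_le_of_forall_setLIntegral_le_of_sigmaFinite (Measure.measurable_rnDeriv _ _)
      fun s hs _ => ?_
    rw [Measure.setLIntegral_rnDeriv hac, setLIntegral_const]
    exact Measure.le_iff.1 h2 s hs
  refine ⟨fun x => min (ν.rnDeriv m x).toReal (K * C : ℝ≥0),
    (Measure.measurable_rnDeriv _ _).ennreal_toReal.min measurable_const, fun x => ?_,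
    fun ψ hψ => ?_⟩
  · rw [Real.norm_of_nonneg (le_min ENNReal.toReal_nonneg (NNReal.coe_nonneg _))]
    exact min_le_right _ _
  · have e1 : ∫ z, ((g z : ℝ) : ℂ) * ψ (X z) ∂P =
        ∫ z, ψ (X z) ∂(P.withDensity fun z => (g z : ℝ≥0∞)) := by
      rw [integral_withDensity_eq_integral_smul hg]
      refine integral_congr_ae (Eventually.of_forall fun z => ?_)
      simp [NNReal.smul_def]
    rw [e1, ← integral_map hX.aemeasurable hψ.aestronglyMeasurable, ← hν,
      ← integral_rnDeriv_smul hac]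
    refine integral_congr_ae (h3.mono fun x hx => ?_)
    have : (ν.rnDeriv m x).toReal ≤ (K * C : ℝ≥0) :=
      ENNReal.toReal_le_coe_of_le_coe hx
    simp only [min_eq_left this, Complex.real_smul]

/-- density of a weighted position law -/
theorem exists_density {Z : Type} [MeasurableSpace Z] (P : Measure Z) [IsFiniteMeasure P]
    (m : Measure ℂ) [IsFiniteMeasure m] {X : Z → ℂ} (hX : Measurable X) {C : ℝ≥0}
    (hC : P.map X ≤ C • m) {G : Z → ℂ} (hG : Measurable G) {M : ℝ} (hM : ∀ᵐ z ∂P, ‖G z‖ ≤ M) :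
    ∃ w : ℂ → ℂ, BddM w ∧ ∀ ψ : ℂ → ℂ, Measurable ψ → (∃ K, ∀ᵐ x ∂m, ‖ψ x‖ ≤ K) →
      ∫ z, G z * ψ (X z) ∂P = ∫ x, w x * ψ x ∂m := by
  have key : ∀ f : Z → ℝ, Measurable f → (∀ z, f z ≤ ‖G z‖) → ∃ u : ℂ → ℝ, Measurable u ∧
      (∀ x, ‖u x‖ ≤ (M.toNNReal * C : ℝ≥0)) ∧ ∀ ψ : ℂ → ℂ, Measurable ψ →
      (∃ K, ∀ᵐ x ∂m, ‖ψ x‖ ≤ K) →
      Integrable (fun z => (((f z).toNNReal : ℝ) : ℂ) * ψ (X z)) P ∧
      Integrable (fun x => (u x : ℂ) * ψ x) m ∧
      ∫ z, (((f z).toNNReal : ℝ) : ℂ) * ψ (X z) ∂P = ∫ x, (u x : ℂ) * ψ x ∂m := by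
    intro f hf hfG
    have hK : ∀ᵐ z ∂P, (f z).toNNReal ≤ M.toNNReal :=
      hM.mono fun z hz => Real.toNNReal_le_toNNReal ((hfG z).trans hz)
    obtain ⟨u, h1, h2, h3⟩ := Dens_real P m hX hC hf.real_toNNReal hK
    refine ⟨u, h1, h2, fun ψ hψ ⟨K, hψK⟩ => ⟨?_, ?_, h3 ψ hψ⟩⟩
    · have hac : P.map X ≪ m := by
        refine Measure.absolutelyContinuous_of_le_smul (c := (C : ℝ≥0∞)) ?_
        exact hC
      have h4 : ∀ᵐ z ∂P, ‖ψ (X z)‖ ≤ K := ae_of_ae_map hX.aemeasurable (hac.ae_le hψK)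
      refine Integrable.of_bound ((Complex.measurable_ofReal.comp
        hf.real_toNNReal.coe_nnreal_real).mul (hψ.comp hX)).aestronglyMeasurable
        (M.toNNReal * K) ?_
      filter_upwards [hK, h4] with z a1 a2
      rw [norm_mul, Complex.norm_real, NNReal.norm_eq]
      exact mul_le_mul (by exact_mod_cast a1) a2 (norm_nonneg _) (NNReal.coe_nonneg _)
    · refine Integrable.of_bound ((Complex.measurable_ofReal.comp h1).mul
        hψ).aestronglyMeasurable ((M.toNNReal * C : ℝ≥0) * K) ?_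
      filter_upwards [hψK] with x a2
      rw [norm_mul, Complex.norm_real]
      exact mul_le_mul (h2 x) a2 (norm_nonneg _) (NNReal.coe_nonneg _)
  have hre : Measurable fun z => (G z).re := Complex.measurable_re.comp hG
  have him : Measurable fun z => (G z).im := Complex.measurable_im.comp hG
  obtain ⟨u1, a1, b1, c1⟩ := key _ hre fun z => Complex.re_le_norm _
  obtain ⟨u2, a2, b2, c2⟩ := key _ hre.neg fun z =>
    (neg_le_abs _).trans (Complex.abs_re_le_norm _)
  obtain ⟨u3, a3, b3, c3⟩ := key _ him fun z => Complex.im_le_norm _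
  obtain ⟨u4, a4, b4, c4⟩ := key _ him.neg fun z =>
    (neg_le_abs _).trans (Complex.abs_im_le_norm _)
  have mo : ∀ {u : ℂ → ℝ}, Measurable u → Measurable fun x => (u x : ℂ) := fun h =>
    Complex.measurable_ofReal.comp h
  refine ⟨fun x => (u1 x - u2 x) + Complex.I * (u3 x - u4 x), ⟨((mo a1).sub (mo a2)).add
    (((mo a3).sub (mo a4)).const_mul _), 4 * (M.toNNReal * C : ℝ≥0), fun x => ?_⟩,
    fun ψ hψ hK => ?_⟩
  · refine (norm_add_le _ _).trans ?_
    rw [norm_mul, Complex.norm_I, one_mul]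
    have e1 := norm_sub_le (u1 x : ℂ) (u2 x)
    have e2 := norm_sub_le (u3 x : ℂ) (u4 x)
    simp only [Complex.norm_real] at e1 e2
    linarith [b1 x, b2 x, b3 x, b4 x]
  · obtain ⟨p1, q1, r1⟩ := c1 ψ hψ hK
    obtain ⟨p2, q2, r2⟩ := c2 ψ hψ hK
    obtain ⟨p3, q3, r3⟩ := c3 ψ hψ hK
    obtain ⟨p4, q4, r4⟩ := c4 ψ hψ hK
    have pp : ∀ t : ℝ, (t : ℂ) = ((t.toNNReal : ℝ) : ℂ) - (((-t).toNNReal : ℝ) : ℂ) := by
      intro t
      rw [← Complex.ofReal_sub, Real.coe_toNNReal', Real.coe_toNNReal', max_zero_sub_max_neg_zero_eq_self]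
    have e1 : (fun z => G z * ψ (X z)) = fun z =>
        (((((G z).re.toNNReal : ℝ) : ℂ) * ψ (X z) - (((-(G z).re).toNNReal : ℝ) : ℂ) * ψ (X z))
        + Complex.I * ((((G z).im.toNNReal : ℝ) : ℂ) * ψ (X z)
          - (((-(G z).im).toNNReal : ℝ) : ℂ) * ψ (X z))) := by
      funext z
      rw [← sub_mul, ← sub_mul, ← pp, ← pp, ← mul_assoc, ← add_mul, mul_comm Complex.I,
        Complex.re_add_im]
    have e2 : (fun x => ((u1 x - u2 x) + Complex.I * (u3 x - u4 x) : ℂ) * ψ x) = fun x =>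
        (((u1 x : ℂ) * ψ x - (u2 x : ℂ) * ψ x)
          + Complex.I * ((u3 x : ℂ) * ψ x - (u4 x : ℂ) * ψ x)) := by
      funext x
      ring
    have e3 : ∀ {Y : Type} [MeasurableSpace Y] (μ : Measure Y) (f1 f2 f3 f4 : Y → ℂ),
        Integrable f1 μ → Integrable f2 μ → Integrable f3 μ → Integrable f4 μ →
        ∫ y, ((f1 y - f2 y) + Complex.I * (f3 y - f4 y)) ∂μ = (∫ y, f1 y ∂μ - ∫ y, f2 y ∂μ)
          + Complex.I * (∫ y, f3 y ∂μ - ∫ y, f4 y ∂μ) := by
      intro Y _ μ f1 f2 f3 f4 i1 i2 i3 i4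
      have j1 : Integrable (fun y => f1 y - f2 y) μ := i1.sub i2
      have j2 : Integrable (fun y => Complex.I * (f3 y - f4 y)) μ := (i3.sub i4).const_mul _
      rw [integral_add j1 j2, integral_const_mul, integral_sub i1 i2, integral_sub i3 i4]
    rw [e1, e2]
    refine (e3 P _ _ _ _ p1 p2 p3 p4).trans (Eq.trans ?_ (e3 m _ _ _ _ q1 q2 q3 q4).symm)
    rw [r1, r2, r3, r4]

theorem Dens_loc {w : ℂ → ℂ} (hw : BddM w) : LocallyIntegrable w volume := by
  obtain ⟨h1, K, h2⟩ := hw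
  exact (locallyIntegrable_const K).mono h1.aestronglyMeasurable
    (Eventually.of_forall fun x => (h2 x).trans (le_abs_self K))

/-- a function with zero integral over all discs vanishes -/
theorem ae_zero_of_discs {U : Set ℂ} (hU : IsOpen U) {w : ℂ → ℂ} (hw : BddM w)
    (h : ∀ x r, Metric.closedBall x r ⊆ U → ∫ y in Metric.closedBall x r, w y = 0) :
    ∀ᵐ x ∂(volume.restrict U), w x = 0 := by
  rw [ae_restrict_iff' hU.measurableSet]
  filter_upwards [(Besicovitch.vitaliFamily (volume : Measure ℂ)).ae_tendsto_average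
    (Dens_loc hw)] with x h0 hx
  have hlim := h0.comp (Besicovitch.tendsto_filterAt (volume : Measure ℂ) x)
  obtain ⟨ε, hε, hsub⟩ := Metric.nhds_basis_closedBall.mem_iff.1 (hU.mem_nhds hx)
  refine tendsto_nhds_unique hlim ((tendsto_const_nhds (x := (0 : ℂ))).congr' ?_)
  filter_upwards [Ioo_mem_nhdsGT hε] with r hr
  simp only [Function.comp]
  rw [setAverage_eq, h x r ((Metric.closedBall_subset_closedBall hr.2.le).trans hsub), smul_zero]

/-- a function orthogonal to all real `C¹` functions vanishes -/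
theorem ae_zero_of_real_tests {U : Set ℂ} (hU : IsOpen U) (hU' : volume U < ⊤) {w : ℂ → ℂ}
    (hw : BddM w)
    (h : ∀ φ : ℂ → ℝ, ContDiff ℝ 1 φ → HasCompactSupport φ → ∫ y in U, w y * φ y = 0) :
    ∀ᵐ x ∂(volume.restrict U), w x = 0 := by
  rw [ae_restrict_iff' hU.measurableSet]
  refine hU.ae_eq_zero_of_integral_contDiff_smul_eq_zero
    ((Dens_loc hw).locallyIntegrableOn U) fun g g1 g2 g3 => ?_
  rw [← h g (g1.of_le (by exact_mod_cast le_top)) g2,
    setIntegral_eq_integral_of_forall_compl_eq_zero fun x hx => by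
      rw [image_eq_zero_of_notMem_tsupport fun h' => hx (g3 h')]; simp]
  refine integral_congr_ae (Eventually.of_forall fun x => ?_)
  simp only [Complex.real_smul, mul_comm]

end Vale.Agent.P099
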