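import Vale.Agent.N099X.Traj
import Mathlib.MeasureTheory.Measure.Prokhorov

set_option linter.all false

open MeasureTheory Set Filter Topology
open scoped ComplexConjugate NNReal ENNReal

namespace Vale.Agent.P099

namespace Triangle

variable {T : Triangle} {γ : ℝ → ℂ × ℂ}

lemma Emp_near {t : ℝ} {P : ℝ → Prop} (h : ∀ᶠ s in 𝓝[≠] t, P s) (h0 : P t) :
    ∀ᶠ s in 𝓝 t, P s := by
  rw [← nhdsNE_sup_pure, eventually_sup]
  exact ⟨h, h0⟩

lemma Emp_side (hγ : T.IsTrajectory γ) {t : ℝ} {L : Filter ℝ} (hL : L ≤ 𝓝[≠] t) {i : Fin 3}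
    {x v : ℂ} (hx : x ∈ T.side i) (hv : T.ell i v ≠ 0)
    (h : ∀ᶠ s in L, γ s = (x + (s - t) • v, v)) : ∀ᶠ s in L, (γ s).1 ∈ T.table := by
  have hx' := (T.mem_side_iff' i x).1 hx
  have h1 : ∀ᶠ s in 𝓝 t, ∀ j, j ≠ i → 0 < T.lam j (x + (s - t) • v) := by
    refine eventually_all.2 fun j => ?_
    by_cases hj : j = i
    · exact Eventually.of_forall fun s h => absurd hj h
    · have c : Continuous fun s : ℝ => T.lam j (x + (s - t) • v) :=
        (T.continuous_lam j).comp (by fun_prop)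
      have := continuousAt_const.eventually_lt (c.continuousAt (x := t))
        (show (0 : ℝ) < T.lam j (x + (t - t) • v) by simpa using hx'.2 j hj)
      exact this.mono fun s hs _ => hs
  filter_upwards [h, (hL.trans nhdsWithin_le_nhds) h1, hL self_mem_nhdsWithin] with s hs h2 h3
  rcases hγ s with ⟨h4, -⟩ | ⟨j, -, h4, -⟩
  · exact h4
  · exfalso
    have h5 := ((T.mem_side_iff' j _).1 h4).1
    rw [hs] at h5
    by_cases hj : j = i
    · rw [hj, T.lam_add_smul, hx'.1, zero_add] at h5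
      exact mul_ne_zero (sub_ne_zero.2 h3) hv h5
    · exact (h2 j hj).ne' h5

lemma Emp_table (hγ : T.IsTrajectory γ) {t : ℝ} (ht : (γ t).1 ∈ T.table) : ContinuousAt γ t := by
  rcases hγ t with ⟨-, h⟩ | ⟨i, -, h, -⟩
  · have c : Continuous fun s : ℝ => ((γ t).1 + (s - t) • (γ t).2, (γ t).2) := by fun_prop
    exact c.continuousAt.congr (h.mono fun s hs => hs.symm)
  · exact absurd h (T.not_mem_side_of_mem_table ht i)

lemma Emp_table' (hγ : T.IsTrajectory γ) {t : ℝ} (ht : (γ t).1 ∈ T.table) :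
    ∀ᶠ s in 𝓝 t, (γ s).1 ∈ T.table :=
  (Emp_table hγ ht).fst.eventually (T.isOpen_table.mem_nhds ht)

lemma Emp_cases (hγ : T.IsTrajectory γ) (t : ℝ) : (∀ᶠ s in 𝓝[≠] t, (γ s).1 ∈ T.table) ∨
    ((∀ᶠ s in 𝓝 t, (γ s).1 ∉ T.table) ∧
      ∃ u, ∀ᶠ s in 𝓝[≠] t, γ s = ((γ t).1 + (s - t) • u, u)) := by
  rcases hγ t with ⟨h, -⟩ | ⟨i, u, h1, h2, h3⟩
  · exact Or.inl ((Emp_table' hγ h).filter_mono nhdsWithin_le_nhds)
  by_cases hu : T.ell i u = 0
  · right
    have h0 := ((T.mem_side_iff' i _).1 h1).1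
    have h4 : T.refl i u = u := by
      have a1 := T.R_add i (γ t).1 u
      rw [T.R_of_lam_eq_zero h0, T.R_of_lam_eq_zero (by rw [T.lam_add, h0, hu, add_zero])] at a1
      exact (add_left_cancel a1).symm
    rw [h4] at h3
    have h5 : ∀ᶠ s in 𝓝[≠] t, γ s = ((γ t).1 + (s - t) • u, u) := by
      rw [← nhdsLT_sup_nhdsGT, eventually_sup]
      exact ⟨h2, h3⟩
    refine ⟨Emp_near (h5.mono fun s hs h6 => ?_)
      fun h6 => T.not_mem_side_of_mem_table h6 i h1, u, h5⟩
    have h7 := (T.mem_table_iff _).1 h6 i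
    rw [hs, T.lam_add_smul, h0, hu] at h7
    simp at h7
  · left
    rw [← nhdsLT_sup_nhdsGT, eventually_sup]
    refine ⟨Emp_side hγ ?_ h1 hu h2, Emp_side hγ ?_ h1 ?_ h3⟩
    · exact le_sup_left.trans (nhdsLT_sup_nhdsGT t).le
    · exact le_sup_right.trans (nhdsLT_sup_nhdsGT t).le
    · rw [T.ell_refl]
      exact neg_ne_zero.2 hu

theorem IsTrajectory.mem_closure (hγ : T.IsTrajectory γ) (s : ℝ) :
    (γ s).1 ∈ closure T.table := by
  rcases hγ s with ⟨h, -⟩ | ⟨i, -, h, -⟩
  · exact subset_closure h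
  · have h1 : closure T.table = closure (convexHull ℝ (range T.P)) :=
      (convex_convexHull ℝ _).closure_interior_eq_closure_of_nonempty_interior T.table_nonempty
    rw [h1]
    exact subset_closure (segment_subset_convexHull (mem_range_self _) (mem_range_self _)
      (openSegment_subset_segment ℝ _ _ h))

lemma Emp_not_glide (hγ : T.IsTrajectory γ) (hu : ∀ s, ‖(γ s).2‖ = 1)
    (h : ∀ t, ∃ u, ∀ᶠ s in 𝓝[≠] t, γ s = ((γ t).1 + (s - t) • u, u)) : False := by
  choose u h using h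
  have h1 : IsLocallyConstant fun t => ((γ t).1 - t • u t, u t) := by
    refine (IsLocallyConstant.iff_eventually_eq _).2 fun t => Emp_near ?_ rfl
    filter_upwards [h t, eventually_eventually_nhdsWithin.2 (h t), self_mem_nhdsWithin]
      with s h2 h3 h4
    rw [isOpen_compl_singleton.nhdsWithin_eq h4] at h3
    obtain ⟨r, h5, h6⟩ := ((h3.filter_mono nhdsWithin_le_nhds).and (h s)).exists
    have h7 : u s = u t := congrArg Prod.snd (h6.symm.trans h5)
    rw [h7, h2]
    refine Prod.ext ?_ rfl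
    simp only [sub_smul]
    ring
  obtain ⟨r, hr⟩ := T.isBounded_table.closure.subset_closedBall 0
  have h2 : ∀ t, ‖(γ t).1‖ ≤ r := fun t => mem_closedBall_zero_iff.1 (hr (hγ.mem_closure t))
  have h3 : ‖u 0‖ = 1 := by
    obtain ⟨s, hs⟩ := (h 0).exists
    have := hu s
    rwa [hs] at this
  have h4 := h1.apply_eq_of_preconnectedSpace (2 * r + 1) 0
  have h5 : u (2 * r + 1) = u 0 := congrArg Prod.snd h4
  have h6 : (γ (2 * r + 1)).1 - (2 * r + 1) • u (2 * r + 1) = (γ 0).1 - (0 : ℝ) • u 0 :=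
    congrArg Prod.fst h4
  have h7 : (2 * r + 1) • u 0 = (γ (2 * r + 1)).1 - (γ 0).1 := by
    rw [h5, zero_smul, sub_zero] at h6
    rw [← h6]
    ring
  have h8 := norm_sub_le (γ (2 * r + 1)).1 (γ 0).1
  have h9 := (norm_nonneg _).trans (h2 0)
  rw [← h7, norm_smul, h3, Real.norm_of_nonneg (by linarith)] at h8
  linarith [h2 0, h2 (2 * r + 1)]

theorem IsTrajectory.countable_side (hγ : T.IsTrajectory γ) (hu : ∀ s, ‖(γ s).2‖ = 1) :
    {s | (γ s).1 ∉ T.table}.Countable := by
  set A := {t | ∀ᶠ s in 𝓝[≠] t, (γ s).1 ∈ T.table} with hA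
  have hAo : IsOpen A := by
    refine isOpen_iff_eventually.2 fun t ht => Emp_near (P := fun s => s ∈ A) ?_ ht
    exact Eventually.mono ht fun s hs => (Emp_table' hγ hs).filter_mono nhdsWithin_le_nhds
  have hAc : IsClosed A := by
    refine isOpen_compl_iff.1 (isOpen_iff_eventually.2 fun t ht => ?_)
    have h1 := ((Emp_cases hγ t).resolve_left ht).1
    filter_upwards [eventually_eventually_nhds.2 h1] with s hs h2
    obtain ⟨r, h3, h4⟩ := ((hs.filter_mono nhdsWithin_le_nhds).and h2).exists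
    exact h3 h4
  rcases isClopen_iff.1 ⟨hAc, hAo⟩ with h | h
  · refine (Emp_not_glide hγ hu fun t => ((Emp_cases hγ t).resolve_left fun ht => ?_).2).elim
    exact (h ▸ ht : t ∈ (∅ : Set ℝ))
  · obtain ⟨S, -, h1, h2⟩ := TopologicalSpace.countable_cover_nhdsWithin
      (s := {s | (γ s).1 ∉ T.table}) (f := fun x => {x}) fun t _ => by
        have ht : t ∈ A := h ▸ mem_univ t
        refine eventually_nhdsWithin_iff.2 ((eventually_nhdsWithin_iff.1 ht).mono ?_)
        intro s h3 h4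
        by_contra h5
        exact h4 (h3 h5)
    rw [biUnion_of_singleton] at h2
    exact h1.mono h2

theorem IsTrajectory.measurable (hγ : T.IsTrajectory γ) (hu : ∀ s, ‖(γ s).2‖ = 1) :
    Measurable γ :=
  measurable_of_countable_not_continuousAt
    ((hγ.countable_side hu).mono fun _ hs h => hs (Emp_table hγ h))

/-- limits of the empirical laws of a trajectory along an ultrafilter of times -/
theorem IsTrajectory.exists_limit_law (hγ : T.IsTrajectory γ) (hu : ∀ s, ‖(γ s).2‖ = 1)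
    (U : Ultrafilter ℝ) (hU : (U : Filter ℝ) ≤ atTop) :
    ∃ l : Measure (ℂ × ℂ), IsProbabilityMeasure l ∧
      (∀ᵐ p ∂l, p.1 ∈ closure T.table ∧ ‖p.2‖ = 1) ∧ ∀ F : ℂ × ℂ → ℝ, Continuous F →
        Tendsto (fun t : ℝ => t⁻¹ * ∫ s in (0 : ℝ)..t, F (γ s)) U (𝓝 (∫ p, F p ∂l)) := by
  set K : Set (ℂ × ℂ) := closure T.table ×ˢ Metric.sphere 0 1 with hK
  have hKc : IsCompact K := T.isBounded_table.isCompact_closure.prod (isCompact_sphere 0 1)
  have : CompactSpace K := isCompact_iff_compactSpace.1 hKc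
  let g : ℝ → K := fun s => ⟨γ s, hγ.mem_closure s, mem_sphere_zero_iff_norm.2 (hu s)⟩
  have hg : Measurable g := (hγ.measurable hu).subtype_mk
  have hp : ∀ t : ℝ, IsProbabilityMeasure (ProbabilityTheory.cond volume (Ioc 0 (max t 1))) :=
    fun t => ProbabilityTheory.cond_isProbabilityMeasure_of_finite
      (by simp) (by simp)
  let P : ℝ → ProbabilityMeasure K := fun t =>
    ⟨(ProbabilityTheory.cond volume (Ioc 0 (max t 1))).map g,
      Measure.isProbabilityMeasure_map hg.aemeasurable⟩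
  obtain ⟨Q, -, hQ⟩ := isCompact_univ.ultrafilter_le_nhds (U.map P) (by simp)
  have hQ' : Tendsto P U (𝓝 Q) := hQ
  have hv : MeasurableEmbedding (Subtype.val : K → ℂ × ℂ) :=
    MeasurableEmbedding.subtype_coe hKc.measurableSet
  refine ⟨(Q : Measure K).map Subtype.val,
    Measure.isProbabilityMeasure_map hv.measurable.aemeasurable, ?_, fun F hF => ?_⟩
  · exact hv.ae_map_iff.2 (Eventually.of_forall fun p =>
      ⟨p.2.1, mem_sphere_zero_iff_norm.1 p.2.2⟩)
  · have hc : Continuous fun p : K => F p := hF.comp continuous_subtype_val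
    have h1 := ProbabilityMeasure.tendsto_iff_forall_integral_tendsto.1 hQ'
      (BoundedContinuousFunction.mkOfCompact ⟨_, hc⟩)
    rw [hv.integral_map]
    refine h1.congr' ?_
    filter_upwards [hU (eventually_ge_atTop (1 : ℝ))] with t ht
    have ht' : (1 : ℝ) ≤ t := ht
    change ∫ p : K, F p ∂((ProbabilityTheory.cond volume (Ioc 0 (max t 1))).map g) = _
    rw [integral_map hg.aemeasurable hc.aestronglyMeasurable, max_eq_left ht',
      intervalIntegral.integral_of_le (by linarith), ProbabilityTheory.cond, integral_smul_measure,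
      Real.volume_Ioc, sub_zero, ENNReal.toReal_inv, ENNReal.toReal_ofReal (by linarith),
      smul_eq_mul]

/-- time averages of a derivative along the trajectory tend to zero -/
theorem IsTrajectory.tendsto_transport (hγ : T.IsTrajectory γ) (hu : ∀ s, ‖(γ s).2‖ = 1) (k : ℤ)
    {φ : ℂ → ℂ} (hφ : T.Test (fun i => T.om i ^ (-k)) φ) :
    Tendsto (fun t : ℝ => t⁻¹ * ∫ s in (0 : ℝ)..t,
      (dz φ (γ s).1 * (γ s).2 ^ (k + 1) + dzb φ (γ s).1 * (γ s).2 ^ (k - 1)).re) atTop (𝓝 0) := by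
  set G : ℝ → ℝ := fun s =>
    (dz φ (γ s).1 * (γ s).2 ^ (k + 1) + dzb φ (γ s).1 * (γ s).2 ^ (k - 1)).re with hG
  have hm := hγ.measurable hu
  have hc := hγ.countable_side hu
  have hae : ∀ᵐ s, (γ s).1 ∈ T.table ∧ ‖(γ s).2‖ = 1 := by
    filter_upwards [hc.ae_notMem volume] with s hs
    exact ⟨not_not.1 hs, hu s⟩
  have hGm : Measurable G := by
    have h1 : Measurable fun s => dz φ (γ s).1 := (continuous_dz hφ.1).measurable.comp hm.fst
    have h2 : Measurable fun s => dzb φ (γ s).1 := (continuous_dzb hφ.1).measurable.comp hm.fst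
    exact Complex.measurable_re.comp ((h1.mul (hm.snd.pow_const _)).add
      (h2.mul (hm.snd.pow_const _)))
  have hK := T.isBounded_table.isCompact_closure
  obtain ⟨C0, hC0⟩ := hK.exists_bound_of_continuousOn hφ.1.continuous.continuousOn
  obtain ⟨C1, hC1⟩ := hK.exists_bound_of_continuousOn (continuous_dz hφ.1).continuousOn
  obtain ⟨C2, hC2⟩ := hK.exists_bound_of_continuousOn (continuous_dzb hφ.1).continuousOn
  have hint : ∀ a b, IntervalIntegrable G volume a b := by
    intro a b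
    refine (intervalIntegrable_const (c := C1 + C2)).mono_fun'
      hGm.aestronglyMeasurable (Eventually.of_forall fun s => ?_)
    refine (Complex.abs_re_le_norm _).trans ((norm_add_le _ _).trans ?_)
    rw [norm_mul, norm_mul, norm_zpow, norm_zpow, hu s, one_zpow, one_zpow, mul_one, mul_one]
    exact add_le_add (hC1 _ (hγ.mem_closure s)) (hC2 _ (hγ.mem_closure s))
  have hd : Dense {s | (γ s).1 ∈ T.table} :=
    Measure.dense_of_ae (μ := volume) (hae.mono fun s hs => hs.1)
  obtain ⟨a, ha⟩ := hd.nonempty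
  have hb : ∀ s, |(φ (γ s).1 * (γ s).2 ^ k).re| ≤ C0 := by
    intro s
    refine (Complex.abs_re_le_norm _).trans ?_
    rw [norm_mul, norm_zpow, hu s, one_zpow, mul_one]
    exact hC0 _ (hγ.mem_closure s)
  have h1 : ∀ b, |∫ s in a..b, G s| ≤ C0 + C0 := by
    intro b
    have hcl : IsClosed {b | |∫ s in a..b, G s| ≤ C0 + C0} :=
      isClosed_le (intervalIntegral.continuous_primitive hint a).abs continuous_const
    refine closure_minimal (fun b hb' => ?_) hcl (hd b)
    have h2 := hγ.transport hm hae k hφ ha hb'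
    change |∫ s in a..b, G s| ≤ C0 + C0
    rw [← h2]
    exact (abs_sub _ _).trans (add_le_add (hb b) (hb a))
  have h2 : ∀ t, ‖∫ s in (0 : ℝ)..t, G s‖ ≤ C0 + C0 + (C0 + C0) := by
    intro t
    rw [← intervalIntegral.integral_interval_sub_left (hint a t) (hint a 0)]
    exact (abs_sub _ _).trans (add_le_add (h1 t) (h1 0))
  exact tendsto_inv_atTop_zero.zero_mul_isBoundedUnder_le
    ⟨_, eventually_map.2 (Eventually.of_forall h2)⟩

end Triangle

end Vale.Agent.P099
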