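import Vale.Agent.N099X.Base

set_option linter.all false

open MeasureTheory Set Filter Topology
open scoped ComplexConjugate NNReal ENNReal

namespace Vale.Agent.P099

lemma Traj_dir {T : Triangle} {γ : ℝ → ℂ × ℂ} (hγ : T.IsTrajectory γ) (k : ℤ) {φ : ℂ → ℂ}
    (hφ : T.Bc (fun i => T.om i ^ (-k)) φ) (t : ℝ) :
    ∃ v : ℂ, (∀ᶠ s in 𝓝[>] t, γ s = ((γ t).1 + (s - t) • v, v)) ∧
      ((γ t).1 ∈ T.table → v = (γ t).2) ∧
      ∃ u : ℂ, (∀ᶠ s in 𝓝[<] t, γ s = ((γ t).1 + (s - t) • u, u)) ∧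
        (φ (γ t).1 * u ^ k).re = (φ (γ t).1 * v ^ k).re := by
  rcases hγ t with ⟨-, h⟩ | ⟨i, u, h1, h2, h3⟩
  · exact ⟨(γ t).2, h.filter_mono nhdsWithin_le_nhds, fun _ => rfl, (γ t).2,
      h.filter_mono nhdsWithin_le_nhds, rfl⟩
  · refine ⟨T.refl i u, h3, fun h => absurd h1 (T.not_mem_side_of_mem_table h i), u, h2, ?_⟩
    have h4 := hφ i (γ t).1 (openSegment_subset_segment ℝ _ _ h1)
    have h5 : φ (γ t).1 * T.refl i u ^ k = conj (φ (γ t).1 * u ^ k) := by
      have h6 : T.om i ^ (-k) * T.om i ^ k = 1 := by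
        rw [zpow_neg, inv_mul_cancel₀ (zpow_ne_zero _ (T.om_ne i))]
      rw [T.refl_om, mul_zpow, map_mul, map_zpow₀]
      simp only at h4
      generalize conj u ^ k = A at *
      generalize conj (φ (γ t).1) = B at *
      rw [h4]
      linear_combination (A * B) * h6
    rw [h5, Complex.conj_re]

lemma Traj_deriv {φ : ℂ → ℂ} (hφ : ContDiff ℝ 1 φ) (x v c : ℂ) (t : ℝ) :
    HasDerivAt (fun s : ℝ => (φ (x + (s - t) • v) * c).re) (fderiv ℝ φ x v * c).re t := by
  have h1 : HasDerivAt (fun s : ℝ => x + (s - t) • v) v t := by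
    simpa using (((hasDerivAt_id t).sub_const t).smul_const v).const_add x
  have h2 : HasFDerivAt φ (fderiv ℝ φ x) (x + (t - t) • v) := by
    rw [sub_self, zero_smul, add_zero]
    exact (hφ.differentiable one_ne_zero x).hasFDerivAt
  have h3 := (h2.comp_hasDerivAt t h1).mul_const c
  exact Complex.reCLM.hasFDerivAt.comp_hasDerivAt t h3

/-- the transport identity along one trajectory -/
theorem Triangle.IsTrajectory.transport {T : Triangle} {γ : ℝ → ℂ × ℂ} (hγ : T.IsTrajectory γ)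
    (hm : Measurable γ) (hae : ∀ᵐ s, (γ s).1 ∈ T.table ∧ ‖(γ s).2‖ = 1) (k : ℤ) {φ : ℂ → ℂ}
    (hφ : T.Test (fun i => T.om i ^ (-k)) φ) {a b : ℝ} (ha : (γ a).1 ∈ T.table)
    (hb : (γ b).1 ∈ T.table) :
    (φ (γ b).1 * (γ b).2 ^ k).re - (φ (γ a).1 * (γ a).2 ^ k).re =
      ∫ s in a..b, (dz φ (γ s).1 * (γ s).2 ^ (k + 1) + dzb φ (γ s).1 * (γ s).2 ^ (k - 1)).re := by
  choose dir hR hT hL using Traj_dir hγ k hφ.2
  set F : ℝ → ℝ := fun t => (φ (γ t).1 * dir t ^ k).re with hF
  set G : ℝ → ℝ := fun s =>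
    (dz φ (γ s).1 * (γ s).2 ^ (k + 1) + dzb φ (γ s).1 * (γ s).2 ^ (k - 1)).re with hG
  set D : ℝ → ℝ := fun t => (fderiv ℝ φ (γ t).1 (dir t) * dir t ^ k).re with hD
  have key : ∀ (S : Set ℝ), IsOpen S → ∀ (t : ℝ) (v : ℂ),
      (∀ᶠ s in 𝓝[S] t, γ s = ((γ t).1 + (s - t) • v, v)) →
      (φ (γ t).1 * v ^ k).re = F t →
      HasDerivWithinAt F (fderiv ℝ φ (γ t).1 v * v ^ k).re S t := by
    intro S hS t v h h0
    refine (Traj_deriv hφ.1 (γ t).1 v (v ^ k) t).hasDerivWithinAt.congr_of_eventuallyEq ?_ ?_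
    · filter_upwards [h, eventually_eventually_nhdsWithin.2 h, self_mem_nhdsWithin] with s h1 h2 h3
      rw [hS.nhdsWithin_eq h3] at h2
      obtain ⟨r, h4, h5⟩ := ((h2.filter_mono nhdsWithin_le_nhds).and (hR s)).exists
      have h6 : dir s = v := by
        have := congrArg Prod.snd (h5.symm.trans h4)
        exact this
      simp only [hF]
      rw [h6, h1]
    · rw [sub_self, zero_smul, add_zero, h0]
  have hder : ∀ t, HasDerivWithinAt F (D t) (Ioi t) t := fun t =>
    key _ isOpen_Ioi t (dir t) (hR t) rfl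
  have hcont : Continuous F := by
    refine continuous_iff_continuousAt.2 fun t => continuousAt_iff_continuous_left'_right'.2
      ⟨?_, (hder t).continuousWithinAt⟩
    obtain ⟨u, h1, h2⟩ := hL t
    exact (key _ isOpen_Iio t u h1 h2).continuousWithinAt
  have hDG : D =ᵐ[volume] G := by
    filter_upwards [hae] with s hs
    have h0 : (γ s).2 ≠ 0 := by
      rw [← norm_ne_zero_iff, hs.2]
      exact one_ne_zero
    simp only [hD, hG]
    rw [hT s hs.1, fderiv_eq_dz, ← Complex.inv_eq_conj hs.2, zpow_add_one₀ h0, zpow_sub_one₀ h0]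
    congr 1
    ring
  have hGm : Measurable G := by
    have h1 : Measurable fun s => dz φ (γ s).1 := (continuous_dz hφ.1).measurable.comp hm.fst
    have h2 : Measurable fun s => dzb φ (γ s).1 := (continuous_dzb hφ.1).measurable.comp hm.fst
    exact Complex.measurable_re.comp ((h1.mul (hm.snd.pow_const _)).add
      (h2.mul (hm.snd.pow_const _)))
  obtain ⟨r, hr⟩ := T.isBounded_table.subset_closedBall 0
  obtain ⟨C1, hC1⟩ := (isCompact_closedBall (0 : ℂ) r).exists_bound_of_continuousOn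
    (continuous_dz hφ.1).continuousOn
  obtain ⟨C2, hC2⟩ := (isCompact_closedBall (0 : ℂ) r).exists_bound_of_continuousOn
    (continuous_dzb hφ.1).continuousOn
  have hint : IntervalIntegrable D volume a b := by
    refine (intervalIntegrable_const (c := C1 + C2)).mono_fun'
      (hGm.aestronglyMeasurable.congr hDG.symm).restrict (ae_restrict_of_ae ?_)
    filter_upwards [hae, hDG] with s hs e
    rw [e]
    refine (Complex.abs_re_le_norm _).trans ((norm_add_le _ _).trans ?_)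
    rw [norm_mul, norm_mul, norm_zpow, norm_zpow, hs.2, one_zpow, one_zpow, mul_one, mul_one]
    exact add_le_add (hC1 _ (hr hs.1)) (hC2 _ (hr hs.1))
  have h := intervalIntegral.integral_eq_sub_of_hasDeriv_right hcont.continuousOn
    (fun x _ => hder x) hint
  rw [← hT a ha, ← hT b hb]
  refine h.symm.trans (intervalIntegral.integral_congr_ae ?_)
  filter_upwards [hDG] with s e _
  exact e

end Vale.Agent.P099
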