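import Vale.Agent.N099X.Liou
import Vale.Agent.N099X.Traj
import Vale.Agent.N099X.Dens

set_option linter.all false

open MeasureTheory Set Filter Topology
open scoped ComplexConjugate NNReal ENNReal

namespace Vale.Agent.P099

variable {T : Triangle} {Z : Type} [MeasurableSpace Z] {P : Measure Z} [IsFiniteMeasure P]
  {γ : ℝ → Z → ℂ × ℂ} {H : Z → ℝ}

lemma Triangle.Ens.measAt (hE : T.Ens P γ) (s : ℝ) : Measurable (γ s) :=
  hE.meas.comp (f := fun z : Z => (s, z)) measurable_prodMk_left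

lemma Triangle.Ens.memAt (hE : T.Ens P γ) (s : ℝ) : ∀ᵐ z ∂P, (γ s z).1 ∈ T.table := by
  obtain ⟨C, hC⟩ := hE.pos
  have h1 : P.map (fun z => (γ s z).1) ≪ volume.restrict T.table :=
    Measure.absolutelyContinuous_of_le_smul (c := (C : ℝ≥0∞)) (hC s)
  exact ae_of_ae_map (hE.measAt s).fst.aemeasurable
    (h1.ae_le (ae_restrict_mem T.isOpen_table.measurableSet))

lemma ens_bound (T : Triangle) {ψ : ℂ → ℂ} (hψ : Continuous ψ) :
    ∃ K, ∀ x ∈ T.table, ‖ψ x‖ ≤ K := by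
  obtain ⟨K, hK⟩ := T.isBounded_table.isCompact_closure.exists_bound_of_continuousOn hψ.continuousOn
  exact ⟨K, fun x hx => hK x (subset_closure hx)⟩

lemma ens_norm_le {h M K : ℝ} {v u : ℂ} (k : ℤ) (hh : |h| ≤ M) (hv : ‖v‖ ≤ K) (hu : ‖u‖ = 1) :
    ‖(h : ℂ) * (v * u ^ k)‖ ≤ M * K := by
  rw [norm_mul, norm_mul, norm_zpow, hu, one_zpow, mul_one, Complex.norm_real, Real.norm_eq_abs]
  exact mul_le_mul hh hv (norm_nonneg _) ((abs_nonneg _).trans hh)

lemma Triangle.Ens.measF (hE : T.Ens P γ) (hH : Measurable H) (k : ℤ) {ψ : ℂ → ℂ}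
    (hψ : Measurable ψ) :
    Measurable fun q : ℝ × Z => (H q.2 : ℂ) * (ψ (γ q.1 q.2).1 * (γ q.1 q.2).2 ^ k) :=
  (Complex.measurable_ofReal.comp (hH.comp measurable_snd)).mul
    ((hψ.comp hE.meas.fst).mul (hE.meas.snd.pow_const k))

lemma Triangle.Ens.measFs (hE : T.Ens P γ) (hH : Measurable H) (k : ℤ) {ψ : ℂ → ℂ}
    (hψ : Measurable ψ) (s : ℝ) :
    Measurable fun z : Z => (H z : ℂ) * (ψ (γ s z).1 * (γ s z).2 ^ k) :=
  (hE.measF hH k hψ).comp (f := fun z : Z => (s, z)) measurable_prodMk_left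

lemma Triangle.Ens.intAt (hE : T.Ens P γ) (hH : Measurable H) (hHb : ∃ M, ∀ z, |H z| ≤ M)
    (k : ℤ) {ψ : ℂ → ℂ} (hψ : Continuous ψ) (s : ℝ) :
    Integrable (fun z : Z => (H z : ℂ) * (ψ (γ s z).1 * (γ s z).2 ^ k)) P := by
  obtain ⟨M, hM⟩ := hHb
  obtain ⟨K, hK⟩ := ens_bound T hψ
  refine Integrable.of_bound (hE.measFs hH k hψ.measurable s).aestronglyMeasurable (M * K) ?_
  filter_upwards [hE.memAt s, hE.unit s] with z h1 h2
  exact ens_norm_le k (hM z) (hK _ h1) h2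

lemma Triangle.Ens.measGood (hE : T.Ens P γ) :
    MeasurableSet {q : ℝ × Z | (γ q.1 q.2).1 ∈ T.table ∧ ‖(γ q.1 q.2).2‖ = 1} :=
  (T.isOpen_table.measurableSet.preimage hE.meas.fst).inter
    (hE.meas.snd.norm (measurableSet_singleton 1))

lemma Triangle.Ens.intProd (hE : T.Ens P γ) (hH : Measurable H) (hHb : ∃ M, ∀ z, |H z| ≤ M)
    (k : ℤ) {ψ : ℂ → ℂ} (hψ : Continuous ψ) (a b : ℝ) :
    Integrable (fun q : ℝ × Z => (H q.2 : ℂ) * (ψ (γ q.1 q.2).1 * (γ q.1 q.2).2 ^ k))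
      ((volume.restrict (uIoc a b)).prod P) := by
  obtain ⟨M, hM⟩ := hHb
  obtain ⟨K, hK⟩ := ens_bound T hψ
  haveI : IsFiniteMeasure (volume.restrict (uIoc a b)) :=
    ⟨by rw [Measure.restrict_apply_univ, uIoc]; exact measure_Ioc_lt_top⟩
  refine Integrable.of_bound (hE.measF hH k hψ.measurable).aestronglyMeasurable (M * K) ?_
  have h : ∀ᵐ q ∂((volume.restrict (uIoc a b)).prod P),
      (γ q.1 q.2).1 ∈ T.table ∧ ‖(γ q.1 q.2).2‖ = 1 :=
    (Measure.ae_prod_iff_ae_ae hE.measGood).2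
      (Eventually.of_forall fun s => (hE.memAt s).and (hE.unit s))
  filter_upwards [h] with q hq
  exact ens_norm_le k (hM _) (hK _ hq.1) hq.2

/-- E1: transport identity for the modes -/
theorem Triangle.Ens.transport (hE : T.Ens P γ) (hH : Measurable H) (hHb : ∃ M, ∀ z, |H z| ≤ M)
    (k : ℤ) {φ : ℂ → ℂ} (hφ : T.Test (fun i => T.om i ^ (-k)) φ) (a b : ℝ) :
    (Nm P γ H k b φ).re - (Nm P γ H k a φ).re =
      ∫ s in a..b, (Nm P γ H (k + 1) s (dz φ) + Nm P γ H (k - 1) s (dzb φ)).re := by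
  have hc := hφ.1.continuous
  have hc1 := continuous_dz hφ.1
  have hc2 := continuous_dzb hφ.1
  have e1 : ∀ s, (Nm P γ H (k + 1) s (dz φ) + Nm P γ H (k - 1) s (dzb φ)).re =
      ∫ z, ((H z : ℂ) * (dz φ (γ s z).1 * (γ s z).2 ^ (k + 1)) +
        (H z : ℂ) * (dzb φ (γ s z).1 * (γ s z).2 ^ (k - 1))).re ∂P := by
    intro s
    have i1 := hE.intAt hH hHb (k + 1) hc1 s
    have i2 := hE.intAt hH hHb (k - 1) hc2 s
    rw [Nm, Nm, ← integral_add i1 i2]
    exact (integral_re (i1.add i2)).symm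
  have e2 : (Nm P γ H k b φ).re - (Nm P γ H k a φ).re =
      ∫ z, (((H z : ℂ) * (φ (γ b z).1 * (γ b z).2 ^ k)) -
        (H z : ℂ) * (φ (γ a z).1 * (γ a z).2 ^ k)).re ∂P := by
    have i1 := hE.intAt hH hHb k hc b
    have i2 := hE.intAt hH hHb k hc a
    rw [← Complex.sub_re, Nm, Nm, ← integral_sub i1 i2]
    exact (integral_re (i1.sub i2)).symm
  have i3 := ((hE.intProd hH hHb (k + 1) hc1 a b).add (hE.intProd hH hHb (k - 1) hc2 a b)).re
  simp only [e1]
  rw [e2, intervalIntegral_integral_swap i3]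
  refine integral_congr_ae ?_
  have hg : ∀ᵐ z ∂P, ∀ᵐ s, (γ s z).1 ∈ T.table ∧ ‖(γ s z).2‖ = 1 :=
    (Measure.ae_ae_comm (p := fun s z => (γ s z).1 ∈ T.table ∧ ‖(γ s z).2‖ = 1) hE.measGood).1
      (Eventually.of_forall fun s => (hE.memAt s).and (hE.unit s))
  filter_upwards [hg, hE.traj, hE.memAt a, hE.memAt b] with z h1 h2 h3 h4
  have hm : Measurable fun s => γ s z :=
    hE.meas.comp (f := fun s : ℝ => (s, z)) measurable_prodMk_right
  have h5 := h2.transport hm h1 k hφ h3 h4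
  simp only [← mul_sub, ← mul_add, Complex.re_ofReal_mul]
  rw [intervalIntegral.integral_const_mul, ← h5, Complex.sub_re]

/-- E2: continuity in time -/
theorem Triangle.Ens.continuous (hE : T.Ens P γ) (hH : Measurable H) (hHb : ∃ M, ∀ z, |H z| ≤ M)
    (k : ℤ) {ψ : ℂ → ℂ} (hψ : Continuous ψ) : Continuous fun s => Nm P γ H k s ψ := by
  obtain ⟨M, hM⟩ := hHb
  obtain ⟨K, hK⟩ := ens_bound T hψ
  refine continuous_iff_continuousAt.2 fun t => ?_
  refine continuousAt_of_dominated (bound := fun _ => M * K)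
    (Eventually.of_forall fun s => (hE.measFs hH k hψ.measurable s).aestronglyMeasurable)
    (Eventually.of_forall fun s => ?_) (integrable_const _) ?_
  · filter_upwards [hE.memAt s, hE.unit s] with z h1 h2
    exact ens_norm_le k (hM z) (hK _ h1) h2
  · filter_upwards [hE.memAt t, hE.traj] with z h1 h2
    rcases h2 t with ⟨-, h3⟩ | ⟨i, u, h3, -⟩
    · have h4 : ContinuousAt (fun s : ℝ =>
          (H z : ℂ) * (ψ ((γ t z).1 + (s - t) • (γ t z).2) * (γ t z).2 ^ k)) t :=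
        Continuous.continuousAt (by fun_prop)
      refine h4.congr ?_
      filter_upwards [h3] with s hs
      have hs' : γ s z = ((γ t z).1 + (s - t) • (γ t z).2, (γ t z).2) := hs
      rw [hs']
    · exact absurd h3 (T.not_mem_side_of_mem_table h1 i)

/-- E3: densities of the modes -/
theorem Triangle.Ens.density (hE : T.Ens P γ) (hH : Measurable H) (hHb : ∃ M, ∀ z, |H z| ≤ M)
    (k : ℤ) (s : ℝ) : ∃ w : ℂ → ℂ, BddM w ∧ ∀ ψ : ℂ → ℂ, Measurable ψ →
      (∃ K, ∀ x ∈ T.table, ‖ψ x‖ ≤ K) → Nm P γ H k s ψ = ∫ x in T.table, w x * ψ x := by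
  obtain ⟨M, hM⟩ := hHb
  obtain ⟨C, hC⟩ := hE.pos
  haveI : IsFiniteMeasure (volume.restrict T.table) :=
    ⟨by rw [Measure.restrict_apply_univ]; exact T.volume_table_lt_top⟩
  have hG : Measurable fun z => (H z : ℂ) * (γ s z).2 ^ k :=
    (Complex.measurable_ofReal.comp hH).mul ((hE.measAt s).snd.pow_const k)
  have hb : ∀ᵐ z ∂P, ‖(H z : ℂ) * (γ s z).2 ^ k‖ ≤ M := by
    filter_upwards [hE.unit s] with z hz
    have := ens_norm_le (v := 1) (K := 1) k (hM z) (by simp) hz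
    simpa using this
  obtain ⟨w, hw, h⟩ := exists_density P (volume.restrict T.table) (hE.measAt s).fst (hC s) hG hb
  refine ⟨w, hw, fun ψ hψ ⟨K, hK⟩ => ?_⟩
  rw [← h ψ hψ ⟨K, (ae_restrict_mem T.isOpen_table.measurableSet).mono hK⟩, Nm]
  refine integral_congr_ae (Eventually.of_forall fun z => ?_)
  ring

/-- a vanishing mode also vanishes on continuous functions -/
theorem Triangle.Ens.van_cont (hE : T.Ens P γ) (hH : Measurable H) (hHb : ∃ M, ∀ z, |H z| ≤ M)
    {k : ℤ} {s : ℝ} (h : Van P γ H k s) {ψ : ℂ → ℂ} (hψ : Continuous ψ) :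
    Nm P γ H k s ψ = 0 := by
  obtain ⟨K, hK⟩ := ens_bound T hψ
  have hb : BddM (T.table.indicator ψ) := by
    refine ⟨hψ.measurable.indicator T.isOpen_table.measurableSet, max K 0, fun x => ?_⟩
    by_cases hx : x ∈ T.table
    · rw [indicator_of_mem hx]
      exact (hK x hx).trans (le_max_left _ _)
    · rw [indicator_of_notMem hx, norm_zero]
      exact le_max_right _ _
  rw [← h _ hb, Nm, Nm]
  refine integral_congr_ae ?_
  filter_upwards [hE.memAt s] with z hz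
  rw [indicator_of_mem hz]

/-- E4: the step from the modes `k - 1`, `k` to the mode `k + 1` -/
theorem Triangle.Ens.step (hT : T.IsIrrational) (hE : T.Ens P γ) (hH : Measurable H)
    (hHb : ∃ M, ∀ z, |H z| ≤ M) {k : ℤ} (hk : k + 1 ≠ 0)
    (h1 : ∀ φ, T.Test (fun i => T.om i ^ (-k)) φ → ∀ a b,
      (Nm P γ H k a φ).re = (Nm P γ H k b φ).re)
    (h2 : ∀ φ, T.Test (fun i => T.om i ^ (-k)) φ → ∀ s, (Nm P γ H (k - 1) s (dzb φ)).re = 0)
    (s : ℝ) : Van P γ H (k + 1) s := by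
  obtain ⟨w, hw, hd⟩ := hE.density hH hHb (k + 1) s
  have key : ∀ φ, T.Test (fun i => T.om i ^ (-k)) φ → (∫ x in T.table, w x * dz φ x).re = 0 := by
    intro φ hφ
    have hc1 := continuous_dz hφ.1
    have hc2 := continuous_dzb hφ.1
    have hg : Continuous fun s =>
        (Nm P γ H (k + 1) s (dz φ) + Nm P γ H (k - 1) s (dzb φ)).re :=
      Complex.continuous_re.comp
        ((hE.continuous hH hHb (k + 1) hc1).add (hE.continuous hH hHb (k - 1) hc2))
    have h3 := hg.deriv_integral _ 0 s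
    have h4 : (fun u => ∫ s in (0 : ℝ)..u,
        (Nm P γ H (k + 1) s (dz φ) + Nm P γ H (k - 1) s (dzb φ)).re) = fun _ => 0 := by
      funext u
      rw [← hE.transport hH hHb k hφ 0 u, h1 φ hφ u 0, sub_self]
    rw [h4, deriv_const, Complex.add_re, h2 φ hφ s, add_zero,
      hd _ hc1.measurable (ens_bound T hc1)] at h3
    exact h3.symm
  have e : ∀ i, conj (T.om i ^ (-k)) * T.om i = T.om i ^ (k + 1) := by
    intro i
    rw [map_zpow₀, T.conj_om, inv_zpow', neg_neg, zpow_add_one₀ (T.om_ne i)]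
  have h0 := T.liouville (c := fun i => T.om i ^ (-k))
    (fun i => by rw [norm_zpow, T.norm_om, one_zpow]) (by
      simp only [e]
      exact T.exists_om_ne hT hk) hw key
  intro ψ hψ
  obtain ⟨K, hK⟩ := hψ.2
  rw [hd ψ hψ.1 ⟨K, fun x _ => hK x⟩]
  refine integral_eq_zero_of_ae ?_
  filter_upwards [h0] with x hx
  simp [hx]

/-- E5: opposite modes -/
theorem Triangle.Ens.van_neg (hE : T.Ens P γ) {k : ℤ} {s : ℝ} (h : Van P γ H k s) :
    Van P γ H (-k) s := by
  intro ψ hψ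
  obtain ⟨K, hK⟩ := hψ.2
  have hb : BddM fun x => conj (ψ x) :=
    ⟨Complex.continuous_conj.measurable.comp hψ.1, K, fun x => by simpa using hK x⟩
  have h1 := congrArg conj (h _ hb)
  rw [map_zero, Nm, ← integral_conj] at h1
  rw [← h1, Nm]
  refine integral_congr_ae ?_
  filter_upwards [hE.unit s] with z hz
  rw [map_mul, map_mul, Complex.conj_ofReal, Complex.conj_conj, map_zpow₀,
    ← Complex.inv_eq_conj hz, inv_zpow']

end Vale.Agent.P099
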