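import Vale.Agent.N099X.Base
import Mathlib.MeasureTheory.Function.L2Space
import Mathlib.MeasureTheory.Function.SpecialFunctions.Inner
import Mathlib.MeasureTheory.Measure.Decomposition.IntegralRNDeriv
import Mathlib.Analysis.Normed.Group.Tannery
import Mathlib.Analysis.InnerProductSpace.Projection.Basic

set_option linter.all false

open MeasureTheory Set Filter Topology
open scoped ComplexConjugate NNReal ENNReal

namespace Vale.Agent.P099

variable {Ω : Type} [MeasurableSpace Ω] {m : Measure Ω} [IsProbabilityMeasure m]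
  {Ψ : ℝ → Ω → Ω}

/-- uniformly bounded additive functionals that tend to zero on indicators tend to zero -/
lemma weak_ind {ι : Type} {l : Filter ι} (D : ι → (Ω → ℂ) → ℂ) (K : ℝ) (hK : 0 ≤ K)
    (hadd : ∀ t f g, Integrable f m → Integrable g m → D t (f + g) = D t f + D t g)
    (hbd : ∀ t f, Integrable f m → ‖D t f‖ ≤ K * ∫ p, ‖f p‖ ∂m)
    (hind : ∀ (c : ℂ) s, MeasurableSet s →
      Tendsto (fun t => D t (s.indicator fun _ => c)) l (𝓝 0))
    {f : Ω → ℂ} (hf : Integrable f m) : Tendsto (fun t => D t f) l (𝓝 0) := by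
  have hsub : ∀ t f g, Integrable f m → Integrable g m →
      ‖D t f‖ ≤ ‖D t g‖ + K * ∫ p, ‖f p - g p‖ ∂m := by
    intro t f g hf hg
    have h1 : f = g + (f - g) := by abel
    have h2 := hadd t g (f - g) hg (hf.sub hg)
    rw [← h1] at h2
    rw [h2]
    exact (norm_add_le _ _).trans (by gcongr; exact hbd t _ (hf.sub hg))
  have hcl : ∀ f : Ω → ℂ, Integrable f m → (∀ ε > 0, ∃ g, Integrable g m ∧
      ∫ p, ‖f p - g p‖ ∂m ≤ ε ∧ Tendsto (fun t => D t g) l (𝓝 0)) →
      Tendsto (fun t => D t f) l (𝓝 0) := by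
    intro f hf h
    rw [NormedAddGroup.tendsto_nhds_zero]
    intro ε hε
    obtain ⟨g, hg, hfg, hg0⟩ := h (ε / (2 * (K + 1))) (by positivity)
    rw [NormedAddGroup.tendsto_nhds_zero] at hg0
    filter_upwards [hg0 (ε / 2) (by positivity)] with t ht
    have h1 := hsub t f g hf hg
    have h2 : K * ∫ p, ‖f p - g p‖ ∂m ≤ (K + 1) * (ε / (2 * (K + 1))) := by
      have : 0 ≤ ∫ p, ‖f p - g p‖ ∂m := integral_nonneg fun _ => norm_nonneg _
      gcongr
      linarith
    have h3 : (K + 1) * (ε / (2 * (K + 1))) = ε / 2 := by field_simp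
    linarith
  refine Integrable.induction (μ := m) (fun f => Tendsto (fun t => D t f) l (𝓝 0)) ?_ ?_ ?_ ?_ hf
  · intro c s hs _
    exact hind c s hs
  · intro f g _ hf hg h1 h2
    have := h1.add h2
    rw [add_zero] at this
    exact this.congr fun t => (hadd t f g hf hg).symm
  · refine isClosed_of_closure_subset fun f hf => ?_
    refine hcl f (L1.integrable_coeFn f) fun ε hε => ?_
    obtain ⟨g, hg, hd⟩ := Metric.mem_closure_iff.1 hf ε hε
    refine ⟨g, L1.integrable_coeFn g, ?_, hg⟩
    rw [L1.dist_eq_integral_dist] at hd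
    simpa only [dist_eq_norm] using hd.le
  · intro f g hfg hf h
    refine hcl g (hf.congr hfg) fun ε hε => ⟨f, hf, ?_, h⟩
    have : ∫ p, ‖g p - f p‖ ∂m = 0 := by
      rw [← integral_zero Ω ℝ (μ := m)]
      refine integral_congr_ae ?_
      filter_upwards [hfg] with p hp
      simp [hp]
    rw [this]
    exact hε.le

lemma weak_int {F : Ω → ℂ} (hF : Measurable F) (hK : ∃ K, ∀ᵐ p ∂m, ‖F p‖ ≤ K) :
    Integrable F m := by
  obtain ⟨K, hK⟩ := hK
  exact Integrable.of_bound hF.aestronglyMeasurable K hK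

/-- setwise convergence to a dominated measure gives convergence of the integrals -/
lemma weak_setwise (hΨ : PFlow m Ψ) {l : Filter ℝ} {B : Set Ω} (hB : MeasurableSet B)
    {ν : Measure Ω} (hν : ν ≤ m)
    (h : ∀ A, MeasurableSet A → Tendsto (fun t => m.real (Ψ t ⁻¹' A ∩ B)) l (𝓝 (ν.real A)))
    {F : Ω → ℂ} (hF : Integrable F m) :
    Tendsto (fun t => ∫ p in B, F (Ψ t p) ∂m) l (𝓝 (∫ p, F p ∂ν)) := by
  have hcomp : ∀ t (f : Ω → ℂ), Integrable f m → Integrable (fun p => f (Ψ t p)) m :=
    fun t f hf => (hΨ.mp t).integrable_comp_of_integrable hf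
  rw [← tendsto_sub_nhds_zero_iff]
  refine weak_ind (m := m) (fun t f => ∫ p in B, f (Ψ t p) ∂m - ∫ p, f p ∂ν) 2 (by norm_num)
    ?_ ?_ ?_ hF
  · intro t f g hf hg
    simp only [Pi.add_apply]
    rw [integral_add (hcomp t f hf).integrableOn (hcomp t g hg).integrableOn,
      integral_add (hf.mono_measure hν) (hg.mono_measure hν)]
    ring
  · intro t f hf
    have h1 : ‖∫ p in B, f (Ψ t p) ∂m‖ ≤ ∫ p, ‖f p‖ ∂m := by
      refine (norm_integral_le_integral_norm _).trans ?_
      refine (setIntegral_le_integral (hcomp t f hf).norm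
        (Eventually.of_forall fun _ => norm_nonneg _)).trans (le_of_eq ?_)
      have := integral_map (μ := m) (hΨ.mp t).measurable.aemeasurable
        (f := fun p => ‖f p‖) (by rw [(hΨ.mp t).map_eq]; exact hf.norm.aestronglyMeasurable)
      rw [(hΨ.mp t).map_eq] at this
      exact this.symm
    have h2 : ‖∫ p, f p ∂ν‖ ≤ ∫ p, ‖f p‖ ∂m :=
      (norm_integral_le_integral_norm _).trans
        (integral_mono_measure hν (Eventually.of_forall fun _ => norm_nonneg _) hf.norm)
    have := norm_sub_le (∫ p in B, f (Ψ t p) ∂m) (∫ p, f p ∂ν)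
    linarith
  · intro c s hs
    have h1 : ∀ t, ∫ p in B, (s.indicator fun _ => c) (Ψ t p) ∂m =
        (m.real (Ψ t ⁻¹' s ∩ B) : ℂ) * c := by
      intro t
      have h2 : (fun p => (s.indicator fun _ => c) (Ψ t p)) =
          (Ψ t ⁻¹' s).indicator fun _ => c := by
        funext p
        by_cases hp : Ψ t p ∈ s <;> simp [Set.indicator, hp]
      have hm : MeasurableSet (Ψ t ⁻¹' s) := (hΨ.mp t).measurable hs
      rw [h2, integral_indicator_const _ hm, measureReal_restrict_apply hm, Complex.real_smul]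
    have h3 : ∫ p, (s.indicator fun _ => c) p ∂ν = (ν.real s : ℂ) * c := by
      rw [integral_indicator_const _ hs, Complex.real_smul]
    simp only [h1, h3]
    rw [tendsto_sub_nhds_zero_iff]
    exact ((Complex.continuous_ofReal.tendsto _).comp (h s hs)).mul_const c

/-- W1: weak limits along an ultrafilter of times -/
theorem exists_weak_limit (hΨ : PFlow m Ψ) (U : Ultrafilter ℝ) {B : Set Ω}
    (hB : MeasurableSet B) : ∃ h : Ω → ℝ, Measurable h ∧ (∀ p, |h p| ≤ 1) ∧
      ∀ F : Ω → ℂ, Measurable F → (∃ K, ∀ᵐ p ∂m, ‖F p‖ ≤ K) →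
        Tendsto (fun t => ∫ p in B, F (Ψ t p) ∂m) U (𝓝 (∫ p, (h p : ℂ) * F p ∂m)) := by
  have hex : ∀ A : Set Ω, ∃ a : ℝ, Tendsto (fun t => m.real (Ψ t ⁻¹' A ∩ B)) U (𝓝 a) := by
    intro A
    obtain ⟨a, -, ha⟩ := (isCompact_Icc (a := (0 : ℝ)) (b := 1)).ultrafilter_le_nhds'
      (U.map fun t => m.real (Ψ t ⁻¹' A ∩ B))
      (by
        rw [Ultrafilter.mem_map]
        exact Filter.univ_mem' fun t => ⟨measureReal_nonneg, measureReal_le_one⟩)
    exact ⟨a, ha⟩
  choose a ha using hex
  have hle : ∀ t A, MeasurableSet A → m.real (Ψ t ⁻¹' A ∩ B) ≤ m.real A := by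
    intro t A hA
    refine (measureReal_mono inter_subset_left).trans (le_of_eq ?_)
    exact (hΨ.mp t).measureReal_preimage hA.nullMeasurableSet
  have ha0 : ∀ A, 0 ≤ a A := fun A =>
    ge_of_tendsto' (ha A) fun t => measureReal_nonneg
  have ha1 : ∀ A, MeasurableSet A → a A ≤ m.real A := fun A hA =>
    le_of_tendsto' (ha A) fun t => hle t A hA
  let ν : Measure Ω := Measure.ofMeasurable (fun s _ => ENNReal.ofReal (a s))
    (by
      have h1 := ha1 ∅ MeasurableSet.empty
      simp only [measureReal_empty] at h1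
      simpa using h1)
    (by
      intro f hf hd
      have hs : Summable fun i => m.real (f i) := summable_measure_toReal hf hd
      have h1 : Tendsto (fun t => ∑' i, m.real (Ψ t ⁻¹' f i ∩ B)) U (𝓝 (∑' i, a (f i))) :=
        tendsto_tsum_of_dominated_convergence hs (fun i => ha (f i))
          (Eventually.of_forall fun t i => by
            rw [Real.norm_of_nonneg measureReal_nonneg]
            exact hle t _ (hf i))
      have h2 : ∀ t, ∑' i, m.real (Ψ t ⁻¹' f i ∩ B) = m.real (Ψ t ⁻¹' (⋃ i, f i) ∩ B) := by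
        intro t
        rw [preimage_iUnion, iUnion_inter]
        simp only [Measure.real]
        rw [measure_iUnion, ENNReal.tsum_toReal_eq fun i => measure_ne_top _ _]
        · intro i j hij
          exact ((hd hij).preimage (Ψ t)).mono inter_subset_left inter_subset_left
        · exact fun i => ((hΨ.mp t).measurable (hf i)).inter hB
      simp only [h2] at h1
      rw [tendsto_nhds_unique (ha _) h1]
      exact ENNReal.ofReal_tsum_of_nonneg (fun i => ha0 _)
        (hs.of_nonneg_of_le (fun i => ha0 _) fun i => ha1 _ (hf i)))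
  have hνA : ∀ A, MeasurableSet A → ν A = ENNReal.ofReal (a A) := fun A hA =>
    Measure.ofMeasurable_apply A hA
  have hν : ν ≤ m := Measure.le_iff.2 fun A hA => by
    rw [hνA A hA]
    exact ENNReal.ofReal_le_of_le_toReal (ha1 A hA)
  haveI : IsFiniteMeasure ν := isFiniteMeasure_of_le m hν
  refine ⟨fun p => min (ν.rnDeriv m p).toReal 1,
    (Measure.measurable_rnDeriv ν m).ennreal_toReal.min measurable_const, fun p => ?_,
    fun F hF hK => ?_⟩
  · rw [abs_of_nonneg (le_min ENNReal.toReal_nonneg zero_le_one)]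
    exact min_le_right _ _
  · have h1 : ∫ p, ((min (ν.rnDeriv m p).toReal 1 : ℝ) : ℂ) * F p ∂m = ∫ p, F p ∂ν := by
      rw [← integral_rnDeriv_smul (Measure.absolutelyContinuous_of_le hν)]
      refine integral_congr_ae ?_
      filter_upwards [Measure.rnDeriv_le_one_of_le hν] with p hp
      rw [min_eq_left, Complex.real_smul]
      exact ENNReal.toReal_le_of_le_ofReal zero_le_one (by simpa using hp)
    rw [h1]
    refine weak_setwise hΨ hB hν (fun A hA => ?_) (weak_int hF hK)
    rw [Measure.real, hνA A hA, ENNReal.toReal_ofReal (ha0 A)]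
    exact ha A

/-- a bounded curve in a Hilbert space that is asymptotically orthogonal to each of its points
tends weakly to zero -/
lemma weak_hilbert {E : Type} [NormedAddCommGroup E] [InnerProductSpace ℝ E] [CompleteSpace E]
    {v : ℝ → E} {K : ℝ} (hK : ∀ t, ‖v t‖ ≤ K)
    (h : ∀ s, Tendsto (fun t => inner ℝ (v s) (v t)) atTop (𝓝 0)) (g : E) :
    Tendsto (fun t => inner ℝ g (v t)) atTop (𝓝 0) := by
  have hK0 : 0 ≤ K := (norm_nonneg _).trans (hK 0)
  let S : Submodule ℝ E :=
    { carrier := {g | Tendsto (fun t => inner ℝ g (v t)) atTop (𝓝 0)}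
      add_mem' := fun {a b} ha hb => by
        have := Tendsto.add ha hb
        rw [add_zero] at this
        exact this.congr fun t => (inner_add_left _ _ _).symm
      zero_mem' := by simp
      smul_mem' := fun c a ha => by
        have := Tendsto.const_mul c ha
        rw [mul_zero] at this
        exact this.congr fun t => (real_inner_smul_left _ _ _).symm }
  have hcl : IsClosed (S : Set E) := by
    refine isClosed_of_closure_subset fun f hf => ?_
    show Tendsto (fun t => inner ℝ f (v t)) atTop (𝓝 0)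
    rw [NormedAddGroup.tendsto_nhds_zero]
    intro ε hε
    obtain ⟨g, hg, hd⟩ := Metric.mem_closure_iff.1 hf (ε / (2 * (K + 1))) (by positivity)
    have hg0 : Tendsto (fun t => inner ℝ g (v t)) atTop (𝓝 0) := hg
    rw [NormedAddGroup.tendsto_nhds_zero] at hg0
    filter_upwards [hg0 (ε / 2) (by positivity)] with t ht
    have h1 : inner ℝ f (v t) = inner ℝ g (v t) + inner ℝ (f - g) (v t) := by
      rw [← inner_add_left]
      congr 1
      abel
    have h2 : ‖inner ℝ (f - g) (v t)‖ ≤ (ε / (2 * (K + 1))) * (K + 1) := by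
      refine (norm_inner_le_norm _ _).trans ?_
      rw [dist_eq_norm] at hd
      have := hK t
      gcongr
      linarith
    have h3 : (ε / (2 * (K + 1))) * (K + 1) = ε / 2 := by field_simp
    rw [h1]
    have := norm_add_le (inner ℝ g (v t)) (inner ℝ (f - g) (v t))
    linarith
  haveI : CompleteSpace S := hcl.completeSpace_coe
  obtain ⟨y, hy, z, hz, rfl⟩ := S.exists_add_mem_mem_orthogonal g
  refine S.add_mem hy ?_
  show Tendsto (fun t => inner ℝ z (v t)) atTop (𝓝 0)
  have : ∀ t, inner ℝ z (v t) = (0 : ℝ) := fun t =>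
    Submodule.inner_left_of_mem_orthogonal (h t) hz
  simp only [this]
  exact tendsto_const_nhds

/-- W2: decay of the autocorrelation gives decay of all correlations -/
theorem tendsto_of_autocorr (hΨ : PFlow m Ψ) {F : Ω → ℂ} (hF : Measurable F)
    (hK : ∃ K, ∀ᵐ p ∂m, ‖F p‖ ≤ K)
    (h : Tendsto (fun t => ∫ p, inner ℝ (F p) (F (Ψ t p)) ∂m) atTop (𝓝 0))
    {B : Set Ω} (hB : MeasurableSet B) :
    Tendsto (fun t => ∫ p in B, F (Ψ t p) ∂m) atTop (𝓝 0) := by
  have hFi := weak_int hF hK
  obtain ⟨K, hK⟩ := hK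
  have hF2 : MemLp F 2 m := MemLp.of_bound hF.aestronglyMeasurable K hK
  have hm : ∀ t, MemLp (fun p => F (Ψ t p)) 2 m := fun t =>
    hF2.comp_measurePreserving (hΨ.mp t)
  let v : ℝ → Lp ℂ 2 m := fun t => (hm t).toLp _
  have hv : ∀ t, v t =ᵐ[m] fun p => F (Ψ t p) := fun t => (hm t).coeFn_toLp
  have hn : ∀ t, ‖v t‖ ≤ (eLpNorm F 2 m).toReal := by
    intro t
    refine le_of_eq ?_
    simp only [v]
    rw [Lp.norm_toLp]
    congr 1
    exact eLpNorm_comp_measurePreserving hF.aestronglyMeasurable (hΨ.mp t)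
  have hin : ∀ s t, inner ℝ (v s) (v t) = ∫ p, inner ℝ (F p) (F (Ψ (t - s) p)) ∂m := by
    intro s t
    rw [L2.inner_def]
    have hmeas : Measurable fun p => inner ℝ (F p) (F (Ψ (t - s) p)) :=
      hF.inner (hF.comp (hΨ.mp (t - s)).measurable)
    have h1 := integral_map (μ := m) (hΨ.mp s).measurable.aemeasurable
      (f := fun p => inner ℝ (F p) (F (Ψ (t - s) p))) hmeas.aestronglyMeasurable
    rw [(hΨ.mp s).map_eq] at h1
    rw [h1]
    refine integral_congr_ae ?_
    filter_upwards [hv s, hv t, hΨ.add (t - s) s] with p h1 h2 h3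
    rw [h1, h2, ← h3, sub_add_cancel]
  have hw := weak_hilbert hn (fun s => by
    simp only [hin]
    exact h.comp (tendsto_atTop_add_const_right _ (-s) tendsto_id))
  have hc : ∀ c : ℂ, Tendsto (fun t => inner ℝ c (∫ p in B, F (Ψ t p) ∂m)) atTop (𝓝 0) := by
    intro c
    refine (hw (indicatorConstLp 2 hB (measure_ne_top m B) c)).congr fun t => ?_
    rw [L2.inner_indicatorConstLp_eq_inner_setIntegral]
    congr 1
    exact setIntegral_congr_ae hB ((hv t).mono fun p hp _ => hp)
  have h1 := hc 1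
  have h2 := hc Complex.I
  simp only [Complex.inner, map_one, mul_one, Complex.conj_I, mul_neg, Complex.neg_re,
    Complex.mul_I_re, neg_neg] at h1 h2
  have h3 := ((Complex.continuous_ofReal.tendsto _).comp h1).add
    (((Complex.continuous_ofReal.tendsto _).comp h2).mul_const Complex.I)
  simp only [Complex.ofReal_zero, zero_mul, add_zero] at h3
  exact h3.congr fun t => Complex.re_add_im _

/-- W3: mixing for sets gives mixing for functions -/
theorem tendsto_of_mixing (hΨ : PFlow m Ψ) {l : Filter ℝ}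
    (h : ∀ A B, MeasurableSet A → MeasurableSet B →
      Tendsto (fun t => m.real (Ψ t ⁻¹' A ∩ B)) l (𝓝 (m.real A * m.real B)))
    {F G : Ω → ℂ} (hF : Measurable F) (hK : ∃ K, ∀ᵐ p ∂m, ‖F p‖ ≤ K)
    (hG : Measurable G) (hK' : ∃ K, ∀ᵐ p ∂m, ‖G p‖ ≤ K) :
    Tendsto (fun t => ∫ p, G p * F (Ψ t p) ∂m) l (𝓝 ((∫ p, G p ∂m) * ∫ p, F p ∂m)) := by
  have hFi := weak_int hF hK
  obtain ⟨K, hK⟩ := hK
  have hK1 : ∀ᵐ p ∂m, ‖F p‖ ≤ |K| := hK.mono fun p hp => hp.trans (le_abs_self K)
  have hKt : ∀ t, ∀ᵐ p ∂m, ‖F (Ψ t p)‖ ≤ |K| := fun t =>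
    (hΨ.mp t).quasiMeasurePreserving.ae hK1
  have hmul : ∀ t (g : Ω → ℂ), Integrable g m → Integrable (fun p => g p * F (Ψ t p)) m :=
    fun t g hg => hg.mul_bdd (hF.comp (hΨ.mp t).measurable).aestronglyMeasurable (hKt t)
  have hset : ∀ B, MeasurableSet B → Tendsto (fun t => ∫ p in B, F (Ψ t p) ∂m) l
      (𝓝 ((m.real B : ℂ) * ∫ p, F p ∂m)) := by
    intro B hB
    have hν : m B • m ≤ m := Measure.le_iff'.2 fun A => by
      rw [Measure.smul_apply, smul_eq_mul]
      exact mul_le_of_le_one_left' prob_le_one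
    have := weak_setwise hΨ hB hν (l := l) (fun A hA => by
      rw [Measure.real, Measure.smul_apply, smul_eq_mul, ENNReal.toReal_mul, mul_comm]
      exact h A B hA hB) hFi
    rwa [integral_smul_measure, Complex.real_smul] at this
  rw [← tendsto_sub_nhds_zero_iff]
  refine weak_ind (m := m)
    (fun t g => ∫ p, g p * F (Ψ t p) ∂m - (∫ p, g p ∂m) * ∫ p, F p ∂m) (2 * |K|) (by positivity)
    ?_ ?_ ?_ (weak_int hG hK')
  · intro t f g hf hg
    simp only [Pi.add_apply, add_mul]
    rw [integral_add (hmul t f hf) (hmul t g hg), integral_add hf hg]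
    ring
  · intro t f hf
    have h1 : ‖∫ p, f p * F (Ψ t p) ∂m‖ ≤ |K| * ∫ p, ‖f p‖ ∂m := by
      rw [← integral_const_mul]
      refine norm_integral_le_of_norm_le (hf.norm.const_mul _) ?_
      filter_upwards [hKt t] with p hp
      rw [norm_mul, mul_comm]
      gcongr
    have h2 : ‖∫ p, F p ∂m‖ ≤ |K| := by
      simpa using norm_integral_le_of_norm_le_const hK1
    have h3 : ‖(∫ p, f p ∂m) * ∫ p, F p ∂m‖ ≤ |K| * ∫ p, ‖f p‖ ∂m := by
      rw [norm_mul, mul_comm]
      gcongr
      exact norm_integral_le_integral_norm _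
    have := norm_sub_le (∫ p, f p * F (Ψ t p) ∂m) ((∫ p, f p ∂m) * ∫ p, F p ∂m)
    linarith
  · intro c s hs
    have h1 : ∀ t, ∫ p, (s.indicator fun _ => c) p * F (Ψ t p) ∂m =
        c * ∫ p in s, F (Ψ t p) ∂m := by
      intro t
      rw [← integral_const_mul, ← integral_indicator hs]
      refine integral_congr_ae (Eventually.of_forall fun p => ?_)
      by_cases hp : p ∈ s <;> simp [Set.indicator, hp]
    have h3 : ∫ p, (s.indicator fun _ => c) p ∂m = (m.real s : ℂ) * c := by
      rw [integral_indicator_const _ hs, Complex.real_smul]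
    simp only [h1, h3]
    rw [tendsto_sub_nhds_zero_iff]
    have := (hset s hs).const_mul c
    convert this using 2
    ring

end Vale.Agent.P099
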