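import Vale.Agent.N099X.Zero
import Vale.Agent.N099X.Weak

set_option linter.all false

open MeasureTheory Set Filter Topology
open scoped ComplexConjugate NNReal ENNReal

namespace Vale.Agent.P099

/-- the velocity, cut off outside a disc -/
noncomputable def mixF (x : ℂ) (r : ℝ) : ℂ × ℂ → ℂ :=
  {p : ℂ × ℂ | p.1 ∈ Metric.closedBall x r}.indicator fun p => p.2

lemma mix_set (x : ℂ) (r : ℝ) : MeasurableSet {p : ℂ × ℂ | p.1 ∈ Metric.closedBall x r} :=
  measurable_fst measurableSet_closedBall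

lemma mixF_meas (x : ℂ) (r : ℝ) : Measurable (mixF x r) :=
  measurable_snd.indicator (mix_set x r)

lemma mixF_of_mem {x : ℂ} {r : ℝ} {p : ℂ × ℂ} (h : p.1 ∈ Metric.closedBall x r) :
    mixF x r p = p.2 :=
  Set.indicator_of_mem (s := {p : ℂ × ℂ | p.1 ∈ Metric.closedBall x r}) h _

lemma mixF_of_not {x : ℂ} {r : ℝ} {p : ℂ × ℂ} (h : p.1 ∉ Metric.closedBall x r) :
    mixF x r p = 0 :=
  Set.indicator_of_notMem (s := {p : ℂ × ℂ | p.1 ∈ Metric.closedBall x r}) h _

namespace Triangle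

variable (T : Triangle)

lemma mixF_bdd (x : ℂ) (r : ℝ) : ∀ᵐ p ∂T.mu, ‖mixF x r p‖ ≤ 1 := by
  have h1 : ∀ᵐ p ∂T.mu, ‖p.2‖ = 1 := Measure.quasiMeasurePreserving_snd.ae ae_norm
  filter_upwards [h1] with p hp
  by_cases h : p.1 ∈ Metric.closedBall x r
  · rw [mixF_of_mem h, hp]
  · rw [mixF_of_not h, norm_zero]
    exact zero_le_one

lemma mixF_int (x : ℂ) (r : ℝ) : ∫ p, mixF x r p ∂T.mu = 0 := by
  have h1 : MeasurePreserving (Prod.map id fun u : ℂ => -u) T.mu T.mu :=
    (MeasurePreserving.id _).prod measurePreserving_neg'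
  have h2 := integral_map (μ := T.mu) h1.measurable.aemeasurable
    (f := mixF x r) (mixF_meas x r).aestronglyMeasurable
  rw [h1.map_eq] at h2
  have h3 : ∀ p : ℂ × ℂ, mixF x r (Prod.map id (fun u : ℂ => -u) p) = -mixF x r p := by
    intro p
    by_cases h : p.1 ∈ Metric.closedBall x r
    · rw [mixF_of_mem h, mixF_of_mem (p := Prod.map id (fun u : ℂ => -u) p) h]
      rfl
    · rw [mixF_of_not h, mixF_of_not (p := Prod.map id (fun u : ℂ => -u) p) h, neg_zero]
  simp only [h3, integral_neg] at h2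
  linear_combination (1 / 2 : ℂ) * h2

variable {T}

lemma mix_core (hT : T.IsIrrational) {Ψ : ℝ → ℂ × ℂ → ℂ × ℂ} (hΨ : PFlow T.mu Ψ)
    (hb : T.IsBilliardFlow Ψ) {l : Filter ℝ}
    (h : ∀ x r, Metric.closedBall x r ⊆ T.table → ∀ B, MeasurableSet B →
      Tendsto (fun t => ∫ p in B, mixF x r (Ψ t p) ∂T.mu) l (𝓝 0))
    {A B : Set (ℂ × ℂ)} (hA : MeasurableSet A) (hB : MeasurableSet B) :
    Tendsto (fun t => T.mu.real (Ψ t ⁻¹' A ∩ B)) l (𝓝 (T.mu.real A * T.mu.real B)) := by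
  rw [Filter.tendsto_iff_ultrafilter]
  intro U hU
  obtain ⟨g, hg, hg1, hlim⟩ := exists_weak_limit hΨ U hB
  have hshift : ∀ s t x r, ∫ p in B, mixF x r (Ψ s (Ψ t p)) ∂T.mu =
      ∫ q in Ψ (-s) ⁻¹' B, mixF x r (Ψ t q) ∂T.mu := by
    intro s t x r
    have hB' : MeasurableSet (Ψ (-s) ⁻¹' B) := (hΨ.mp (-s)).measurable hB
    have hm : Measurable ((Ψ (-s) ⁻¹' B).indicator fun q => mixF x r (Ψ t q)) :=
      ((mixF_meas x r).comp (hΨ.mp t).measurable).indicator hB'
    have h2 := integral_map (μ := T.mu) (hΨ.mp s).measurable.aemeasurable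
      hm.aestronglyMeasurable
    rw [(hΨ.mp s).map_eq] at h2
    rw [← integral_indicator hB, ← integral_indicator hB', h2]
    refine integral_congr_ae ?_
    filter_upwards [hΨ.add s t, hΨ.add t s, hΨ.add (-s) s, hΨ.zero] with p h1 h2 h3 h4
    rw [neg_add_cancel, h4] at h3
    by_cases hp : p ∈ B
    · rw [indicator_of_mem hp, indicator_of_mem (by rw [mem_preimage, ← h3]; exact hp),
        ← h1, ← h2, add_comm]
    · rw [indicator_of_notMem hp, indicator_of_notMem (by rw [mem_preimage, ← h3]; exact hp)]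
  obtain ⟨c, hc⟩ := T.const_of_discs hT hΨ hb hg ⟨1, hg1⟩ (by
    intro s x r hxr
    have h1 := hlim (fun p => mixF x r (Ψ s p)) ((mixF_meas x r).comp (hΨ.mp s).measurable)
      ⟨1, (hΨ.mp s).quasiMeasurePreserving.ae (T.mixF_bdd x r)⟩
    simp only [hshift] at h1
    have h2 := (h x r hxr _ ((hΨ.mp (-s)).measurable hB)).mono_left hU
    rw [← tendsto_nhds_unique h1 h2, ← integral_indicator
      ((hΨ.mp s).measurable (measurableSet_closedBall.prod MeasurableSet.univ))]
    refine integral_congr_ae (Eventually.of_forall fun p => ?_)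
    by_cases hp : (Ψ s p).1 ∈ Metric.closedBall x r
    · simp only [mixF_of_mem hp]
      exact indicator_of_mem (s := Ψ s ⁻¹' (Metric.closedBall x r ×ˢ univ)) ⟨hp, mem_univ _⟩ _
    · simp only [mixF_of_not hp, mul_zero]
      exact indicator_of_notMem (s := Ψ s ⁻¹' (Metric.closedBall x r ×ˢ univ)) (fun h => hp h.1) _)
  have hind : ∀ A : Set (ℂ × ℂ), MeasurableSet A →
      Tendsto (fun t => T.mu.real (Ψ t ⁻¹' A ∩ B)) U (𝓝 (T.mu.real A * c)) := by
    intro A hA
    have h1 := hlim (A.indicator fun _ => 1) (measurable_const.indicator hA)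
      ⟨1, Eventually.of_forall fun p => by
        by_cases hp : p ∈ A <;> simp [indicator, hp]⟩
    have h2 : ∀ t, ∫ p in B, (A.indicator fun _ => (1 : ℂ)) (Ψ t p) ∂T.mu =
        (T.mu.real (Ψ t ⁻¹' A ∩ B) : ℂ) := by
      intro t
      have h3 : (fun p => (A.indicator fun _ => (1 : ℂ)) (Ψ t p)) =
          (Ψ t ⁻¹' A).indicator fun _ => (1 : ℂ) := by
        funext p
        by_cases hp : Ψ t p ∈ A <;> simp [Set.indicator, hp]
      have hm : MeasurableSet (Ψ t ⁻¹' A) := (hΨ.mp t).measurable hA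
      rw [h3, integral_indicator_const _ hm, measureReal_restrict_apply hm, Complex.real_smul,
        mul_one]
    have h4 : ∫ p, (g p : ℂ) * (A.indicator fun _ => (1 : ℂ)) p ∂T.mu =
        ((T.mu.real A * c : ℝ) : ℂ) := by
      have h5 : ∫ p, (g p : ℂ) * (A.indicator fun _ => (1 : ℂ)) p ∂T.mu =
          ∫ p, (A.indicator fun _ => (c : ℂ)) p ∂T.mu := by
        refine integral_congr_ae ?_
        filter_upwards [hc] with p hp
        by_cases hp' : p ∈ A <;> simp [indicator, hp', hp]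
      rw [h5, integral_indicator_const _ hA, Complex.real_smul, Complex.ofReal_mul]
    simp only [h2, h4] at h1
    exact (Complex.continuous_re.tendsto _).comp h1
  have h1 := hind univ MeasurableSet.univ
  simp only [preimage_univ, univ_inter, probReal_univ, one_mul] at h1
  rw [tendsto_nhds_unique tendsto_const_nhds h1]
  exact hind A hA

variable (T)

/-- mixing along a filter of times iff the currents through discs tend to zero -/
theorem mixing_iff_currents (hT : T.IsIrrational) {Φ : ℝ → ℂ × ℂ → ℂ × ℂ}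
    (hΦ : T.IsBilliardFlow Φ) (l : Filter ℝ) :
    (∀ A B, MeasurableSet A → MeasurableSet B → Tendsto
      (fun t => T.mu.real (Φ t ⁻¹' A ∩ B)) l (𝓝 (T.mu.real A * T.mu.real B))) ↔
    ∀ x r, Metric.closedBall x r ⊆ T.table → ∀ B, MeasurableSet B → Tendsto
      (fun t => ∫ p in B ∩ {p | (Φ t p).1 ∈ Metric.closedBall x r}, (Φ t p).2 ∂T.mu) l (𝓝 0) := by
  obtain ⟨Ψ, hΨ, hb, hu⟩ := T.exists_good_flow
  have e1 : ∀ t A B, T.mu.real (Φ t ⁻¹' A ∩ B) = T.mu.real (Ψ t ⁻¹' A ∩ B) := by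
    intro t A B
    refine measureReal_congr ?_
    filter_upwards [hu Φ hΦ t] with p hp
    show (Φ t p ∈ A ∧ p ∈ B) = (Ψ t p ∈ A ∧ p ∈ B)
    rw [hp]
  have e2 : ∀ t x r B, ∫ p in B ∩ {p | (Φ t p).1 ∈ Metric.closedBall x r}, (Φ t p).2 ∂T.mu =
      ∫ p in B, mixF x r (Ψ t p) ∂T.mu := by
    intro t x r B
    have h1 : (B ∩ {p | (Φ t p).1 ∈ Metric.closedBall x r} : Set (ℂ × ℂ)) =ᵐ[T.mu]
        (B ∩ Ψ t ⁻¹' {p | p.1 ∈ Metric.closedBall x r} : Set (ℂ × ℂ)) := by
      filter_upwards [hu Φ hΦ t] with p hp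
      show (p ∈ B ∧ (Φ t p).1 ∈ Metric.closedBall x r) =
        (p ∈ B ∧ (Ψ t p).1 ∈ Metric.closedBall x r)
      rw [hp]
    rw [setIntegral_congr_set h1, ← setIntegral_indicator ((hΨ.mp t).measurable (mix_set x r))]
    refine integral_congr_ae (ae_restrict_of_ae ?_)
    filter_upwards [hu Φ hΦ t] with p hp
    by_cases h : (Ψ t p).1 ∈ Metric.closedBall x r
    · rw [mixF_of_mem h, ← hp]
      exact indicator_of_mem (s := Ψ t ⁻¹' {p | p.1 ∈ Metric.closedBall x r}) h _
    · rw [mixF_of_not h]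
      exact indicator_of_notMem (s := Ψ t ⁻¹' {p | p.1 ∈ Metric.closedBall x r}) h _
  simp only [e1, e2]
  constructor
  · intro h x r _ B hB
    have h1 := tendsto_of_mixing hΨ h (mixF_meas x r) ⟨1, T.mixF_bdd x r⟩
      (G := B.indicator fun _ => 1) (measurable_const.indicator hB)
      ⟨1, Eventually.of_forall fun p => by
        by_cases hp : p ∈ B <;> simp [indicator, hp]⟩
    rw [T.mixF_int, mul_zero] at h1
    refine h1.congr fun t => ?_
    rw [← integral_indicator hB]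
    refine integral_congr_ae (Eventually.of_forall fun p => ?_)
    by_cases hp : p ∈ B <;> simp [indicator, hp]
  · intro h A B hA hB
    exact mix_core hT hΨ hb h hA hB

/-- mixing iff the velocity autocorrelation of every disc tends to zero -/
theorem mixing_iff_autocorr (hT : T.IsIrrational) {Φ : ℝ → ℂ × ℂ → ℂ × ℂ}
    (hΦ : T.IsBilliardFlow Φ) :
    (∀ A B, MeasurableSet A → MeasurableSet B → Tendsto
      (fun t => T.mu.real (Φ t ⁻¹' A ∩ B)) atTop (𝓝 (T.mu.real A * T.mu.real B))) ↔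
    ∀ x r, Metric.closedBall x r ⊆ T.table → Tendsto
      (fun t => ∫ p in {p | p.1 ∈ Metric.closedBall x r ∧ (Φ t p).1 ∈ Metric.closedBall x r},
        inner ℝ p.2 (Φ t p).2 ∂T.mu) atTop (𝓝 0) := by
  obtain ⟨Ψ, hΨ, hb, hu⟩ := T.exists_good_flow
  have e1 : ∀ t A B, T.mu.real (Φ t ⁻¹' A ∩ B) = T.mu.real (Ψ t ⁻¹' A ∩ B) := by
    intro t A B
    refine measureReal_congr ?_
    filter_upwards [hu Φ hΦ t] with p hp
    show (Φ t p ∈ A ∧ p ∈ B) = (Ψ t p ∈ A ∧ p ∈ B)
    rw [hp]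
  have e2 : ∀ t x r,
      ∫ p in {p | p.1 ∈ Metric.closedBall x r ∧ (Φ t p).1 ∈ Metric.closedBall x r},
        inner ℝ p.2 (Φ t p).2 ∂T.mu =
      ∫ p, inner ℝ (mixF x r p) (mixF x r (Ψ t p)) ∂T.mu := by
    intro t x r
    have h1 : ({p | p.1 ∈ Metric.closedBall x r ∧ (Φ t p).1 ∈ Metric.closedBall x r} :
        Set (ℂ × ℂ)) =ᵐ[T.mu] ({p | p.1 ∈ Metric.closedBall x r} ∩
          Ψ t ⁻¹' {p | p.1 ∈ Metric.closedBall x r} : Set (ℂ × ℂ)) := by
      filter_upwards [hu Φ hΦ t] with p hp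
      show (p.1 ∈ Metric.closedBall x r ∧ (Φ t p).1 ∈ Metric.closedBall x r) =
        (p.1 ∈ Metric.closedBall x r ∧ (Ψ t p).1 ∈ Metric.closedBall x r)
      rw [hp]
    rw [setIntegral_congr_set h1, ← integral_indicator
      ((mix_set x r).inter ((hΨ.mp t).measurable (mix_set x r)))]
    refine integral_congr_ae ?_
    filter_upwards [hu Φ hΦ t] with p hp
    by_cases h0 : p.1 ∈ Metric.closedBall x r
    · by_cases h : (Ψ t p).1 ∈ Metric.closedBall x r
      · rw [mixF_of_mem h, mixF_of_mem h0, ← hp]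
        exact indicator_of_mem (s := {p : ℂ × ℂ | p.1 ∈ Metric.closedBall x r} ∩
          Ψ t ⁻¹' {p | p.1 ∈ Metric.closedBall x r}) ⟨h0, h⟩ _
      · rw [mixF_of_not h, inner_zero_right]
        exact indicator_of_notMem (s := {p : ℂ × ℂ | p.1 ∈ Metric.closedBall x r} ∩
          Ψ t ⁻¹' {p | p.1 ∈ Metric.closedBall x r}) (fun h' => h h'.2) _
    · rw [mixF_of_not h0, inner_zero_left]
      exact indicator_of_notMem (s := {p : ℂ × ℂ | p.1 ∈ Metric.closedBall x r} ∩
        Ψ t ⁻¹' {p | p.1 ∈ Metric.closedBall x r}) (fun h' => h0 h'.1) _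
  simp only [e1, e2]
  constructor
  · intro h x r _
    have hc : Measurable fun p => conj (mixF x r p) :=
      Complex.continuous_conj.measurable.comp (mixF_meas x r)
    have hcb : ∀ᵐ p ∂T.mu, ‖conj (mixF x r p)‖ ≤ 1 :=
      (T.mixF_bdd x r).mono fun p hp => by rwa [Complex.norm_conj]
    have h1 := tendsto_of_mixing hΨ h (mixF_meas x r) ⟨1, T.mixF_bdd x r⟩ hc ⟨1, hcb⟩
    rw [T.mixF_int, mul_zero] at h1
    have h2 := (Complex.continuous_re.tendsto _).comp h1
    rw [Complex.zero_re] at h2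
    refine h2.congr fun t => ?_
    have hi : Integrable (fun p => conj (mixF x r p) * mixF x r (Ψ t p)) T.mu :=
      (weak_int hc ⟨1, hcb⟩).mul_bdd
        ((mixF_meas x r).comp (hΨ.mp t).measurable).aestronglyMeasurable
        ((hΨ.mp t).quasiMeasurePreserving.ae (T.mixF_bdd x r))
    have h3 := integral_re hi
    simp only [RCLike.re_to_complex] at h3
    simp only [Function.comp]
    rw [← h3]
    refine integral_congr_ae (Eventually.of_forall fun p => ?_)
    simp only [Complex.inner, mul_comm]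
  · intro h A B hA hB
    exact mix_core hT hΨ hb (fun x r hxr B hB =>
      tendsto_of_autocorr hΨ (mixF_meas x r) ⟨1, T.mixF_bdd x r⟩ (h x r hxr) hB) hA hB

end Triangle

end Vale.Agent.P099
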