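import Vale.Agent.N099X.Base
import Mathlib.Dynamics.Ergodic.RadonNikodym

set_option linter.all false

open MeasureTheory Set Filter Topology
open scoped ComplexConjugate NNReal ENNReal

namespace Vale.Agent.P099

open WM4

namespace Triangle

variable (T : Triangle)

lemma law_prob : IsProbabilityMeasure (ProbabilityTheory.cond (volume : Measure ℂ) T.table) :=
  ProbabilityTheory.cond_isProbabilityMeasure_of_finite T.volume_table_pos.ne'
    T.volume_table_lt_top.ne

lemma law_ae_norm : ∀ᵐ p ∂T.mu, ‖p.2‖ = 1 := by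
  have hp := T.law_prob
  have hdir : MeasurePreserving (fun p : ℂ × ℂ => p.2) T.mu nu := by
    rw [mu]
    exact measurePreserving_snd
  exact hdir.quasiMeasurePreserving.ae ae_norm

/-- an absolutely continuous invariant law is `mu` -/
theorem eq_mu_of_absCont (hT : T.IsIrrational) {l : Measure (ℂ × ℂ)} [IsProbabilityMeasure l]
    (hl : T.IsInvariantLaw l) (hac : l ≪ T.mu) : l = T.mu := by
  classical
  have hprob : IsProbabilityMeasure T.mu := T.isProbabilityMeasure_mu
  obtain ⟨Φ, -, hmp, hΦ⟩ := hl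
  obtain ⟨Ψ, hΨ, hb, hu⟩ := T.exists_good_flow
  have h1 : T.IsBilliardFlow fun t p =>
      if Φ 0 p = p ∧ T.IsTrajectory (fun t => Φ t p) then Φ t p else Ψ t p := by
    filter_upwards [hb] with p hp
    by_cases h : Φ 0 p = p ∧ T.IsTrajectory (fun t => Φ t p)
    · simp only [if_pos h]
      exact h
    · simp only [if_neg h]
      exact hp
  have h2 : ∀ t, MeasurePreserving (Ψ t) l l := by
    intro t
    refine (hmp t).congr (hΨ.mp t).measurable ?_
    filter_upwards [hac.ae_le (hu _ h1 t), hΦ] with p hp hq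
    rw [← hp, if_pos hq.2]
  obtain ⟨c, hc⟩ := T.ergodic_fun hT hb (f := fun p => Real.arctan (l.rnDeriv T.mu p).toReal)
    (Real.continuous_arctan.measurable.comp (Measure.measurable_rnDeriv _ _).ennreal_toReal)
    ⟨Real.pi / 2, fun p => abs_le.2 ⟨(Real.neg_pi_div_two_lt_arctan _).le,
      (Real.arctan_lt_pi_div_two _).le⟩⟩ (fun s => by
        filter_upwards [(h2 s).rnDeriv_comp_aeEq (hΨ.mp s)] with p hp
        exact congrArg (fun x : ℝ≥0∞ => Real.arctan x.toReal) hp)
  have h3 : l.rnDeriv T.mu =ᵐ[T.mu] fun _ => ENNReal.ofReal (Real.tan c) := by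
    filter_upwards [hc, Measure.rnDeriv_lt_top l T.mu] with p hp hq
    rw [← hp, Real.tan_arctan, ENNReal.ofReal_toReal hq.ne]
  have h4 : l = ENNReal.ofReal (Real.tan c) • T.mu := by
    haveI : l.HaveLebesgueDecomposition T.mu := Measure.haveLebesgueDecomposition_of_finiteMeasure
    rw [← withDensity_const, ← withDensity_congr_ae h3, Measure.withDensity_rnDeriv_eq _ _ hac]
  have h5 : ENNReal.ofReal (Real.tan c) = 1 := by
    have := congrArg (fun m : Measure (ℂ × ℂ) => m univ) h4
    simpa using this.symm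
  rw [h4, h5, one_smul]

theorem isInvariantLaw_mu : T.IsInvariantLaw T.mu := by
  obtain ⟨Ψ, hΨ, hb, -⟩ := T.exists_good_flow
  exact ⟨Ψ, hΨ.meas, hΨ.mp, T.law_ae_norm.and hb⟩

theorem map_fst_mu : T.mu.map Prod.fst = ProbabilityTheory.cond volume T.table := by
  have hp := T.law_prob
  rw [mu, Measure.map_fst_prod, measure_univ, one_smul]

lemma law_dir_set (hT : ¬ T.IsIrrational) : ∃ B : Set ℂ, MeasurableSet B ∧ nu B ≠ 0 ∧ nu B ≠ 1 ∧
    ∀ Φ : ℝ → ℂ × ℂ → ℂ × ℂ, T.IsBilliardFlow Φ → ∀ t, ∀ᵐ p ∂T.mu, ((Φ t p).2 ∈ B ↔ p.2 ∈ B) := by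
  have hprob : IsProbabilityMeasure T.mu := T.isProbabilityMeasure_mu
  obtain ⟨N, c, hN, hc, hinv⟩ := T.exists_dir_inv hT
  set g : ℂ → ℝ := fun u => (c * u ^ N).re with hg
  have mg : Measurable g := by
    have : Continuous g := by
      simp only [hg]; fun_prop
    exact this.measurable
  have hgm : MeasurableSet {u : ℂ | 0 < g u} := measurableSet_lt measurable_const mg
  -- rotations
  have hroot : ∀ w : ℂ, ‖w‖ = 1 → ∃ ζ : ℂ, ‖ζ‖ = 1 ∧ ζ ^ N = w := by
    intro w hw
    obtain ⟨ζ, hζ⟩ := IsAlgClosed.exists_pow_nat_eq w (n := N) hN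
    refine ⟨ζ, ?_, hζ⟩
    have h4 : ‖ζ‖ ^ N = 1 := by rw [← norm_pow, hζ, hw]
    exact (pow_eq_one_iff_of_nonneg (norm_nonneg _) hN.ne').1 h4
  have hprobnu : IsProbabilityMeasure nu := inferInstance
  refine ⟨{u : ℂ | 0 < g u}, hgm, ?_, ?_, ?_⟩
  · intro h0
    have h1 : ∀ᵐ u ∂nu, ¬ 0 < g u := by
      rw [ae_iff]
      simpa using h0
    have hrotate : ∀ w : ℂ, ‖w‖ = 1 → ∀ᵐ u ∂nu, ¬ 0 < (c * (w * u ^ N)).re := by
      intro w hw
      obtain ⟨ζ, hζ1, hζ2⟩ := hroot w hw
      have h2 := (measurePreserving_mul hζ1).quasiMeasurePreserving.ae h1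
      filter_upwards [h2] with u hu
      simp only [hg, mul_pow, hζ2] at hu
      exact hu
    have a1 := hrotate (-1) (by simp)
    have a2 := hrotate Complex.I (by simp)
    have a3 := hrotate (-Complex.I) (by simp)
    obtain ⟨u, b0, b1, b2, b3, b4⟩ := (h1.and (a1.and (a2.and (a3.and ae_norm)))).exists
    have hz : c * u ^ N = 0 := by
      apply Complex.ext
      · simp only [hg] at b0
        have e1 : c * (-1 * u ^ N) = -(c * u ^ N) := by ring
        rw [e1, Complex.neg_re] at b1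
        simp only [Complex.zero_re]
        linarith
      · have e2 : c * (Complex.I * u ^ N) = Complex.I * (c * u ^ N) := by ring
        have e3 : c * (-Complex.I * u ^ N) = -(Complex.I * (c * u ^ N)) := by ring
        rw [e2, Complex.I_mul_re] at b2
        rw [e3, Complex.neg_re, Complex.I_mul_re] at b3
        simp only [Complex.zero_im]
        linarith
    have hn : ‖c * u ^ N‖ = 1 := by rw [norm_mul, norm_pow, b4, hc, one_pow, mul_one]
    rw [hz, norm_zero] at hn
    exact zero_ne_one hn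
  · intro h0
    have h1 : ∀ᵐ u ∂nu, 0 < g u := by
      have := (prob_compl_eq_zero_iff hgm).2 h0
      rw [ae_iff]
      exact this
    obtain ⟨ζ, hζ1, hζ2⟩ := hroot (-1) (by simp)
    have h2 := (measurePreserving_mul hζ1).quasiMeasurePreserving.ae h1
    obtain ⟨u, b0, b1⟩ := (h1.and h2).exists
    simp only [hg, mul_pow, hζ2] at b0 b1
    have e1 : c * (-1 * u ^ N) = -(c * u ^ N) := by ring
    rw [e1, Complex.neg_re] at b1
    linarith
  · intro Φ hΦ t
    have h1 := T.invariant_dir hΦ (g := g) (fun i => ae_of_all _ fun u => hinv i u) t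
    filter_upwards [h1] with p hp
    show 0 < g (Φ t p).2 ↔ 0 < g p.2
    rw [hp]

/-- in a rational triangle there is another invariant law with uniform position -/
theorem exists_law_ne (hT : ¬ T.IsIrrational) : ∃ l : Measure (ℂ × ℂ), IsProbabilityMeasure l ∧
    T.IsInvariantLaw l ∧ l.map Prod.fst = ProbabilityTheory.cond volume T.table ∧ l ≠ T.mu := by
  have hprob : IsProbabilityMeasure T.mu := T.isProbabilityMeasure_mu
  have hp := T.law_prob
  obtain ⟨B, hB, h0, h1, hinv⟩ := T.law_dir_set hT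
  obtain ⟨Ψ, hΨ, hb, -⟩ := T.exists_good_flow
  have hA : MeasurableSet ((univ : Set ℂ) ×ˢ B) := MeasurableSet.univ.prod hB
  have hm : T.mu (univ ×ˢ B) = nu B := by rw [mu, Measure.prod_prod, measure_univ, one_mul]
  have hl : IsProbabilityMeasure (ProbabilityTheory.cond T.mu (univ ×ˢ B)) :=
    ProbabilityTheory.cond_isProbabilityMeasure (hm ▸ h0)
  refine ⟨ProbabilityTheory.cond T.mu (univ ×ˢ B), hl, ⟨Ψ, hΨ.meas, fun t => ?_,
    ProbabilityTheory.cond_absolutelyContinuous.ae_le (T.law_ae_norm.and hb)⟩, ?_, fun h => h1 ?_⟩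
  · have h2 := (hΨ.mp t).restrict_preimage hA
    have h3 : (Ψ t ⁻¹' (univ ×ˢ B) : Set (ℂ × ℂ)) =ᵐ[T.mu] (univ ×ˢ B : Set (ℂ × ℂ)) := by
      filter_upwards [hinv Ψ hb t] with p hp
      exact propext (and_congr Iff.rfl hp)
    rw [Measure.restrict_congr_set h3] at h2
    exact h2.smul_measure _
  · rw [ProbabilityTheory.cond, Measure.map_smul, hm, mu, ← Measure.prod_restrict,
      Measure.restrict_univ, Measure.map_fst_prod, Measure.restrict_apply_univ, smul_smul,
      ENNReal.inv_mul_cancel h0 (measure_ne_top _ _), one_smul]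
  · rw [← hm, ← h]
    have h2 := ProbabilityTheory.cond_apply_self (μ := T.mu) (hm ▸ h0) (measure_ne_top _ _)
    exact h2

end Triangle

end Vale.Agent.P099
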