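import Vale.Agent.N099X.Base
import Mathlib.MeasureTheory.Measure.HasOuterApproxClosed
import Mathlib.MeasureTheory.Function.AEEqOfIntegral
import Mathlib.MeasureTheory.Integral.BoundedContinuousFunction

set_option linter.all false

open MeasureTheory Set Filter Topology
open scoped ComplexConjugate NNReal ENNReal

namespace Vale.Agent.P099

lemma four_cont (μ : Measure Cir) [IsFiniteMeasure μ] :
    Continuous fun f : C(Cir, ℂ) => ∫ x, f x ∂μ := by
  have h := (MeasureTheory.continuous_integral (μ := μ) (G := ℂ)).comp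
    (ContinuousMap.toLp 1 μ ℂ : C(Cir, ℂ) →L[ℂ] _).continuous
  refine h.congr fun f => integral_congr_ae ?_
  exact ContinuousMap.coeFn_toLp μ f

lemma four_int (μ : Measure Cir) [IsFiniteMeasure μ] (f : C(Cir, ℂ)) : Integrable f μ :=
  (BoundedContinuousFunction.mkOfCompact f).integrable μ

/-- finite measures on the circle are determined by their Fourier coefficients -/
lemma four_circle {μ ν : Measure Cir} [IsFiniteMeasure μ] [IsFiniteMeasure ν]
    (h : ∀ n : ℤ, ∫ x, fourier n x ∂μ = ∫ x, fourier n x ∂ν) : μ = ν := by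
  have key : ∀ f : C(Cir, ℂ), ∫ x, f x ∂μ = ∫ x, f x ∂ν := by
    intro f
    have hf : f ∈ closure (Submodule.span ℂ (range (@fourier (2 * Real.pi))) : Set C(Cir, ℂ)) := by
      rw [← Submodule.topologicalClosure_coe, span_fourier_closure_eq_top]
      trivial
    refine closure_minimal (t := {f : C(Cir, ℂ) | ∫ x, f x ∂μ = ∫ x, f x ∂ν}) ?_
      (isClosed_eq (four_cont μ) (four_cont ν)) hf
    intro g hg
    induction hg using Submodule.span_induction with
    | mem g hg =>
      obtain ⟨n, rfl⟩ := hg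
      exact h n
    | zero => simp
    | add a b _ _ ha hb =>
      simp only [mem_setOf_eq, ContinuousMap.add_apply] at ha hb ⊢
      rw [integral_add (four_int μ a) (four_int μ b), integral_add (four_int ν a) (four_int ν b),
        ha, hb]
    | smul c a _ ha =>
      simp only [mem_setOf_eq, ContinuousMap.smul_apply] at ha ⊢
      rw [integral_smul, integral_smul, ha]
  refine ext_of_forall_integral_eq_of_IsFiniteMeasure fun f => ?_
  have := key ⟨fun x => (f x : ℂ), Complex.continuous_ofReal.comp f.continuous⟩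
  simp only [ContinuousMap.coe_mk, integral_complex_ofReal] at this
  exact_mod_cast this

lemma four_arg {u : ℂ} (hu : ‖u‖ = 1) : evec (u.arg : Cir) = u := by
  rw [evec_coe]
  have := Complex.norm_mul_exp_arg_mul_I u
  rw [hu] at this
  simpa using this

/-- the same for measures on the unit circle of the plane -/
lemma four_unit {μ ν : Measure ℂ} [IsFiniteMeasure μ] [IsFiniteMeasure ν]
    (hμ : ∀ᵐ u ∂μ, ‖u‖ = 1) (hν : ∀ᵐ u ∂ν, ‖u‖ = 1)
    (h : ∀ n : ℤ, ∫ u, u ^ n ∂μ = ∫ u, u ^ n ∂ν) : μ = ν := by
  have ha : Measurable fun u : ℂ => (u.arg : Cir) :=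
    AddCircle.measurable_mk'.comp Complex.measurable_arg
  have h1 : ∀ (κ : Measure ℂ), (∀ᵐ u ∂κ, ‖u‖ = 1) →
      (κ.map fun u : ℂ => (u.arg : Cir)).map evec = κ := fun κ hκ => by
    rw [Measure.map_map measurable_evec ha]
    refine (Measure.map_congr ?_).trans Measure.map_id
    filter_upwards [hκ] with u hu
    exact four_arg hu
  have h2 : ∀ (κ : Measure ℂ), (∀ᵐ u ∂κ, ‖u‖ = 1) → ∀ n : ℤ,
      ∫ x, fourier n x ∂(κ.map fun u : ℂ => (u.arg : Cir)) = ∫ u, u ^ n ∂κ := fun κ hκ n => by
    rw [integral_map ha.aemeasurable (map_continuous (fourier n)).aestronglyMeasurable]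
    refine integral_congr_ae ?_
    filter_upwards [hκ] with u hu
    rw [← evec_zpow, four_arg hu]
  rw [← h1 μ hμ, ← h1 ν hν, four_circle (μ := μ.map fun u : ℂ => (u.arg : Cir))
    (ν := ν.map fun u : ℂ => (u.arg : Cir)) fun n => by rw [h2 μ hμ, h2 ν hν, h]]

lemma four_nu {n : ℤ} (hn : n ≠ 0) : ∫ u, u ^ n ∂nu = 0 := by
  have h1 := mode_eq (-n) (fun _ => 1) aestronglyMeasurable_const
  have h2 := congrFun (fourierCoeff_fourier (T := 2 * Real.pi) 0) (-n)
  rw [Pi.single_eq_of_ne (neg_ne_zero.2 hn)] at h2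
  simp only [mode, neg_neg, one_mul] at h1
  rw [h1, ← h2]
  congr 1
  funext x
  exact fourier_zero.symm

/-- a law whose even direction modes vanish is absolutely continuous -/
theorem absCont_of_even_modes (m : Measure ℂ) [IsProbabilityMeasure m] (l : Measure (ℂ × ℂ))
    [IsProbabilityMeasure l] (h1 : ∀ᵐ p ∂l, ‖p.2‖ = 1) (h2 : l.map Prod.fst = m)
    (h3 : ∀ j : ℤ, j ≠ 0 → ∀ ψ, BddM ψ → ∫ p, ψ p.1 * p.2 ^ (2 * j) ∂l = 0) :
    l ≪ m.prod nu := by
  have hf : Measurable fun p : ℂ × ℂ => (p.1, -p.2) := measurable_fst.prodMk measurable_snd.neg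
  have key : ((2 : ℝ≥0) • m).prod nu = l + l.map fun p : ℂ × ℂ => (p.1, -p.2) := by
    refine Measure.prod_eq fun s t hs ht => ?_
    have hs' : MeasurableSet (Prod.fst ⁻¹' s : Set (ℂ × ℂ)) := measurable_fst hs
    have hng : Measurable fun p : ℂ × ℂ => -p.2 := measurable_snd.neg
    have hl : ∀ᵐ p ∂l.restrict (Prod.fst ⁻¹' s), ‖p.2‖ = 1 := ae_restrict_of_ae h1
    have hms : l (Prod.fst ⁻¹' s) = m s := by rw [← h2, Measure.map_apply measurable_fst hs]
    have hm1 : MeasurableSet {u : ℂ | ‖u‖ = 1} :=
      measurableSet_eq_fun measurable_norm measurable_const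
    have hint : ∀ (n : ℤ) (κ : Measure ℂ) [IsFiniteMeasure κ], (∀ᵐ u ∂κ, ‖u‖ = 1) →
        Integrable (fun u => u ^ n) κ := fun n κ _ hκ =>
      Integrable.of_bound (measurable_id.pow_const n).aestronglyMeasurable 1 (by
        filter_upwards [hκ] with u hu
        rw [norm_zpow, hu, one_zpow])
    have a1 : ∀ᵐ u ∂(l.restrict (Prod.fst ⁻¹' s)).map Prod.snd, ‖u‖ = 1 :=
      (ae_map_iff measurable_snd.aemeasurable hm1).2 hl
    have a2 : ∀ᵐ u ∂(l.restrict (Prod.fst ⁻¹' s)).map fun p : ℂ × ℂ => -p.2, ‖u‖ = 1 :=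
      (ae_map_iff hng.aemeasurable hm1).2 (by simpa only [norm_neg] using hl)
    have e : (l.restrict (Prod.fst ⁻¹' s)).map Prod.snd +
        (l.restrict (Prod.fst ⁻¹' s)).map (fun p : ℂ × ℂ => -p.2) =
        (2 * (m s).toNNReal : ℝ≥0) • nu := by
      refine four_unit (ae_add_measure_iff.2 ⟨a1, a2⟩) (Measure.ae_smul_measure ae_norm _)
        fun n => ?_
      have hp : Measurable fun u : ℂ => u ^ n := measurable_id.pow_const n
      rw [integral_add_measure (hint n _ a1) (hint n _ a2),
        integral_map measurable_snd.aemeasurable hp.aestronglyMeasurable,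
        integral_map hng.aemeasurable hp.aestronglyMeasurable,
        integral_smul_nnreal_measure]
      obtain ⟨j, rfl | rfl⟩ := Int.even_or_odd' n
      · simp only [(even_two_mul j).neg_zpow]
        by_cases hj : j = 0
        · subst hj
          simp [Measure.real, hms, NNReal.smul_def, two_mul]
          rfl
        · have h4 := h3 j hj (s.indicator fun _ => 1) ⟨measurable_const.indicator hs, 1,
            fun x => by by_cases hx : x ∈ s <;> simp [hx]⟩
          have h5 : ∫ p in Prod.fst ⁻¹' s, p.2 ^ (2 * j) ∂l = 0 := by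
            rw [← integral_indicator hs', ← h4]
            refine integral_congr_ae (Eventually.of_forall fun p => ?_)
            by_cases hx : p.1 ∈ s <;> simp [hx]
          rw [h5, four_nu (by omega)]
          simp
      · simp only [(odd_two_mul_add_one j).neg_zpow]
        rw [integral_neg, four_nu (by omega)]
        simp
    have e2 := congrArg (fun κ : Measure ℂ => κ t) e
    simp only [Measure.add_apply, Measure.map_apply measurable_snd ht, Measure.map_apply hng ht,
      Measure.restrict_apply (measurable_snd ht), Measure.restrict_apply (hng ht)] at e2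
    rw [Measure.add_apply, Measure.map_apply hf (hs.prod ht)]
    convert e2 using 2
    · congr 1
      ext p
      exact and_comm
    · congr 1
      ext p
      exact and_comm
    · simp [ENNReal.coe_toNNReal (measure_ne_top m s)]
  refine (Measure.absolutelyContinuous_of_le (Measure.le_add_right le_rfl)).trans
    (key ▸ ?_ : l + l.map (fun p : ℂ × ℂ => (p.1, -p.2)) ≪ m.prod nu)
  exact Measure.AbsolutelyContinuous.prod Measure.smul_absolutelyContinuous
    Measure.AbsolutelyContinuous.rfl

/-- a bounded function all of whose direction modes vanish is zero -/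
theorem ae_zero_of_modes (m : Measure ℂ) [IsProbabilityMeasure m] {h : ℂ × ℂ → ℝ}
    (hm : Measurable h) (hb : ∃ M, ∀ p, |h p| ≤ M)
    (h3 : ∀ k : ℤ, ∀ ψ, BddM ψ → ∫ p, (h p : ℂ) * (ψ p.1 * p.2 ^ k) ∂(m.prod nu) = 0) :
    ∀ᵐ p ∂(m.prod nu), h p = 0 := by
  obtain ⟨M, hM⟩ := hb
  have hu : ∀ᵐ p ∂(m.prod nu), ‖p.2‖ = 1 := Measure.quasiMeasurePreserving_snd.ae ae_norm
  have hc : Measurable fun p => (h p : ℂ) := Complex.measurable_ofReal.comp hm
  have hint : ∀ k : ℤ, Integrable (fun p : ℂ × ℂ => (h p : ℂ) * p.2 ^ k) (m.prod nu) := fun k =>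
    Integrable.of_bound (hc.mul (measurable_snd.pow_const k)).aestronglyMeasurable M (by
      filter_upwards [hu] with p hp
      rw [norm_mul, norm_zpow, hp, one_zpow, mul_one, Complex.norm_real]
      exact hM p)
  have hk : ∀ k : ℤ, ∀ᵐ x ∂m, ∫ u, (h (x, u) : ℂ) * u ^ k ∂nu = 0 := by
    intro k
    refine (hint k).integral_prod_left.ae_eq_zero_of_forall_setIntegral_eq_zero fun s hs _ => ?_
    have h4 := h3 k (s.indicator fun _ => 1) ⟨measurable_const.indicator hs, 1,
      fun x => by by_cases hx : x ∈ s <;> simp [hx]⟩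
    have h6 := setIntegral_prod (s := s) (t := univ) _ (hint k).integrableOn
    rw [Measure.restrict_univ] at h6
    refine h6.symm.trans ?_
    rw [← integral_indicator (hs.prod MeasurableSet.univ), ← h4]
    refine integral_congr_ae (Eventually.of_forall fun p => ?_)
    by_cases hx : p.1 ∈ s <;> simp [hx, indicator, mem_prod]
  refine (Measure.ae_prod_iff_ae_ae (measurableSet_eq_fun hm measurable_const)).2 ?_
  filter_upwards [ae_all_iff.2 hk] with x hx
  have h5 := ae_zero_of_mode (fun u => (h (x, u) : ℂ))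
    (MemLp.of_bound (hc.comp measurable_prodMk_left).aestronglyMeasurable M
      (Eventually.of_forall fun u => by
        rw [Complex.norm_real]
        exact hM _)) fun k => hx (-k)
  filter_upwards [h5] with u hu
  exact Complex.ofReal_eq_zero.1 hu

end Vale.Agent.P099
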