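import Vale.Agent.N099X.Liou
import Vale.Agent.N099X.Dens
import Vale.Agent.N099X.Four

set_option linter.all false

open MeasureTheory Set Filter Topology
open scoped ComplexConjugate NNReal ENNReal

namespace Vale.Agent.P099

lemma stat_green (T : Triangle) {φ : ℂ → ℂ} (hφ : T.Test (fun i => T.om i ^ (-(1 : ℤ))) φ) :
    (∫ x in T.table, dzb φ x).re = 0 := by
  have hc : ContDiff ℝ 1 (fun x => (1 : ℂ) * conj (φ x)) :=
    contDiff_const.mul ((Complex.conjCLE.toContinuousLinearMap).contDiff.comp hφ.1)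
  have h := T.green1 _ hc fun i y hy => by
    have h1 := hφ.2 i y hy
    simp only [zpow_neg, zpow_one] at h1
    rw [one_mul, Complex.conj_conj]
    change conj (φ y) = T.om i * φ y
    conv_rhs => rw [h1]
    rw [← mul_assoc, mul_inv_cancel₀ (T.om_ne i), one_mul]
  have e : ∀ x, dz (fun x => (1 : ℂ) * conj (φ x)) x = conj (dzb φ x) := fun x => by
    rw [dz_mul_conj (differentiableAt_const _) (hφ.1.differentiable one_ne_zero x)]
    simp [dz]
  simp only [e] at h
  rwa [integral_conj, Complex.conj_re] at h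

lemma stat_bound (T : Triangle) {ψ : ℂ → ℂ} (hψ : Continuous ψ) :
    ∃ K, ∀ x ∈ T.table, ‖ψ x‖ ≤ K := by
  obtain ⟨K, hK⟩ := T.isBounded_table.isCompact_closure.exists_bound_of_continuousOn hψ.continuousOn
  exact ⟨K, fun x hx => hK x (subset_closure hx)⟩

/-- a weakly stationary law with uniform position is absolutely continuous -/
theorem Triangle.absCont_of_weak (T : Triangle) (hT : T.IsIrrational) {l : Measure (ℂ × ℂ)}
    [IsProbabilityMeasure l] (h1 : ∀ᵐ p ∂l, ‖p.2‖ = 1)
    (hm : l.map Prod.fst = ProbabilityTheory.cond volume T.table)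
    (hw : ∀ k : ℤ, 1 ≤ k → ∀ φ, T.Test (fun i => T.om i ^ (-k)) φ →
      ∫ p, (dz φ p.1 * p.2 ^ (k + 1) + dzb φ p.1 * p.2 ^ (k - 1)).re ∂l = 0) :
    l ≪ T.mu := by
  have hs := T.isOpen_table.measurableSet
  haveI : IsFiniteMeasure (volume.restrict T.table) :=
    ⟨by rw [Measure.restrict_apply_univ]; exact T.volume_table_lt_top⟩
  have hC : l.map Prod.fst ≤ (volume T.table)⁻¹.toNNReal • volume.restrict T.table := by
    refine le_of_eq ?_
    rw [hm, ProbabilityTheory.cond, ENNReal.smul_def,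
      ENNReal.coe_toNNReal (ENNReal.inv_ne_top.2 T.volume_table_pos.ne')]
  have hmem : ∀ᵐ p ∂l, p.1 ∈ T.table :=
    ae_of_ae_map measurable_fst.aemeasurable
      ((Measure.absolutelyContinuous_of_le_smul (c := (((volume T.table)⁻¹.toNNReal : ℝ≥0) : ℝ≥0∞))
        hC).ae_le (ae_restrict_mem hs))
  have hint : ∀ (k : ℤ) {ψ : ℂ → ℂ}, Continuous ψ →
      Integrable (fun p : ℂ × ℂ => ψ p.1 * p.2 ^ k) l := fun k ψ hψ => by
    obtain ⟨K, hK⟩ := stat_bound T hψ
    refine Integrable.of_bound ((hψ.measurable.comp measurable_fst).mul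
      (measurable_snd.pow_const k)).aestronglyMeasurable K ?_
    filter_upwards [hmem, h1] with p hp hu
    rw [norm_mul, norm_zpow, hu, one_zpow, mul_one]
    exact hK _ hp
  have step : ∀ k : ℤ, 1 ≤ k → (∀ φ, T.Test (fun i => T.om i ^ (-k)) φ →
      (∫ p, dzb φ p.1 * p.2 ^ (k - 1) ∂l).re = 0) → ∀ ψ : ℂ → ℂ, Measurable ψ →
      (∃ K, ∀ x ∈ T.table, ‖ψ x‖ ≤ K) → ∫ p, ψ p.1 * p.2 ^ (k + 1) ∂l = 0 := by
    intro k hk h2
    have hb : ∀ᵐ p ∂l, ‖p.2 ^ (k + 1)‖ ≤ 1 := by
      filter_upwards [h1] with p hu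
      rw [norm_zpow, hu, one_zpow]
    obtain ⟨w, hwb, hd⟩ := exists_density l (volume.restrict T.table) measurable_fst hC
      (measurable_snd.pow_const (k + 1)) hb
    have hd' : ∀ ψ : ℂ → ℂ, Measurable ψ → (∃ K, ∀ x ∈ T.table, ‖ψ x‖ ≤ K) →
        ∫ p, ψ p.1 * p.2 ^ (k + 1) ∂l = ∫ x in T.table, w x * ψ x := fun ψ hψ ⟨K, hK⟩ => by
      rw [← hd ψ hψ ⟨K, (ae_restrict_mem hs).mono hK⟩]
      exact integral_congr_ae (Eventually.of_forall fun p => mul_comm _ _)
    have key : ∀ φ, T.Test (fun i => T.om i ^ (-k)) φ →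
        (∫ x in T.table, w x * dz φ x).re = 0 := by
      intro φ hφ
      have hc1 := continuous_dz hφ.1
      have i1 := hint (k + 1) hc1
      have i2 := hint (k - 1) (continuous_dzb hφ.1)
      have h3 : (∫ p, (dz φ p.1 * p.2 ^ (k + 1) + dzb φ p.1 * p.2 ^ (k - 1)) ∂l).re = 0 := by
        rw [← hw k hk φ hφ]
        exact (integral_re (i1.add i2)).symm
      rwa [integral_add i1 i2, Complex.add_re, h2 φ hφ, add_zero,
        hd' _ hc1.measurable (stat_bound T hc1)] at h3
    have e : ∀ i, conj (T.om i ^ (-k)) * T.om i = T.om i ^ (k + 1) := by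
      intro i
      rw [map_zpow₀, T.conj_om, inv_zpow', neg_neg, zpow_add_one₀ (T.om_ne i)]
    have h0 := T.liouville (c := fun i => T.om i ^ (-k))
      (fun i => by rw [norm_zpow, T.norm_om, one_zpow]) (by
        simp only [e]
        exact T.exists_om_ne hT (by omega)) hwb key
    intro ψ hψ hK
    rw [hd' ψ hψ hK]
    refine integral_eq_zero_of_ae ?_
    filter_upwards [h0] with x hx
    simp [hx]
  have key : ∀ (n : ℕ) (ψ : ℂ → ℂ), Measurable ψ → (∃ K, ∀ x ∈ T.table, ‖ψ x‖ ≤ K) →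
      ∫ p, ψ p.1 * p.2 ^ (2 * ((n : ℤ) + 1)) ∂l = 0 := by
    intro n
    induction n with
    | zero =>
      refine step 1 le_rfl fun φ hφ => ?_
      have hc := (continuous_dzb hφ.1).measurable
      simp only [sub_self, zpow_zero, mul_one]
      rw [← integral_map measurable_fst.aemeasurable hc.aestronglyMeasurable, hm,
        ProbabilityTheory.cond, integral_smul_measure, Complex.smul_re, stat_green T hφ, smul_zero]
    | succ n ih =>
      have e : 2 * (((n + 1 : ℕ) : ℤ) + 1) = 2 * ((n : ℤ) + 1) + 1 + 1 := by push_cast; ring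
      rw [e]
      refine step _ (by omega) fun φ hφ => ?_
      have hc := continuous_dzb hφ.1
      rw [add_sub_cancel_right, ih _ hc.measurable (stat_bound T hc), Complex.zero_re]
  have : IsProbabilityMeasure (ProbabilityTheory.cond volume T.table) :=
    hm ▸ Measure.isProbabilityMeasure_map measurable_fst.aemeasurable
  refine absCont_of_even_modes _ l h1 hm fun j hj ψ hψ => ?_
  obtain ⟨hψ, K, hK⟩ := hψ
  rcases lt_or_gt_of_ne hj with h | h
  · have h2 := congrArg conj (key (-j - 1).toNat (fun x => conj (ψ x))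
      (Complex.continuous_conj.measurable.comp hψ) ⟨K, fun x _ => by simpa using hK x⟩)
    rw [map_zero, ← integral_conj] at h2
    rw [← h2]
    refine integral_congr_ae ?_
    filter_upwards [h1] with p hp
    rw [map_mul, Complex.conj_conj, map_zpow₀, ← Complex.inv_eq_conj hp, inv_zpow',
      show -(2 * ((((-j - 1).toNat : ℕ) : ℤ) + 1)) = 2 * j by omega]
  · have h2 := key (j - 1).toNat ψ hψ ⟨K, fun x _ => hK x⟩
    rwa [show 2 * ((((j - 1).toNat : ℕ) : ℤ) + 1) = 2 * j by omega] at h2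

end Vale.Agent.P099
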