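import Vale.Agent.N099X.Port
import Vale.Agent.N099X.Stat
import Vale.Agent.N099X.Law

set_option linter.all false

open MeasureTheory Set Filter Topology
open scoped ComplexConjugate NNReal ENNReal

namespace Vale.Agent.P099

/-- a trajectory that equidistributes in the table equidistributes in phase space -/
theorem Triangle.IsTrajectory.equidistributed {T : Triangle} (hT : T.IsIrrational)
    {γ : ℝ → ℂ × ℂ} (hγ : T.IsTrajectory γ) (hu : ∀ s, ‖(γ s).2‖ = 1)
    (h : ∀ f : ℂ → ℝ, Continuous f → Tendsto (fun t : ℝ => t⁻¹ * ∫ s in (0 : ℝ)..t, f (γ s).1)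
      atTop (𝓝 (⨍ x in T.table, f x))) (F : ℂ × ℂ → ℝ) (hF : Continuous F) :
    Tendsto (fun t : ℝ => t⁻¹ * ∫ s in (0 : ℝ)..t, F (γ s)) atTop (𝓝 (∫ p, F p ∂T.mu)) := by
  rw [tendsto_iff_ultrafilter]
  intro U hU
  obtain ⟨l, hl0, hl1, hl⟩ := hγ.exists_limit_law hu U hU
  have hcond : IsProbabilityMeasure (ProbabilityTheory.cond (volume : Measure ℂ) T.table) :=
    ProbabilityTheory.cond_isProbabilityMeasure_of_finite T.volume_table_pos.ne'
      T.volume_table_lt_top.ne
  have hm : l.map Prod.fst = ProbabilityTheory.cond volume T.table := by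
    have : IsProbabilityMeasure (l.map Prod.fst) :=
      Measure.isProbabilityMeasure_map measurable_fst.aemeasurable
    apply ext_of_forall_integral_eq_of_IsFiniteMeasure
    intro f
    rw [integral_map measurable_fst.aemeasurable f.continuous.aestronglyMeasurable]
    have h1 := hl (fun p => f p.1) (f.continuous.comp continuous_fst)
    have h2 := (h f f.continuous).mono_left hU
    rw [tendsto_nhds_unique h1 h2, average_eq', Measure.restrict_apply_univ]
    rfl
  have hac : l ≪ T.mu := by
    refine T.absCont_of_weak hT (hl1.mono fun p hp => hp.2) hm fun k hk φ hφ => ?_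
    obtain ⟨n, rfl⟩ : ∃ n : ℕ, k = n + 1 := ⟨(k - 1).toNat, by omega⟩
    have e1 : ((n : ℤ) + 1 + 1) = ((n + 2 : ℕ) : ℤ) := by push_cast; ring
    have e2 : ((n : ℤ) + 1 - 1) = ((n : ℕ) : ℤ) := by ring
    have h2 := (hγ.tendsto_transport hu _ hφ).mono_left hU
    rw [e1, e2] at h2 ⊢
    simp only [zpow_natCast] at h2 ⊢
    have hc1 := continuous_dz hφ.1
    have hc2 := continuous_dzb hφ.1
    have h1 := hl (fun p => (dz φ p.1 * p.2 ^ (n + 2) + dzb φ p.1 * p.2 ^ n).re) (by fun_prop)
    exact tendsto_nhds_unique h1 h2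
  have hinv := hγ.limit_invariant hu hU hl hac
  rw [← T.eq_mu_of_absCont hT hinv hac]
  exact hl F hF

end Vale.Agent.P099
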