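import Vale.Agent.N099X.Ens
import Vale.Agent.N099X.Four
import Vale.Agent.N099X.Law

set_option linter.all false

open MeasureTheory Set Filter Topology
open scoped ComplexConjugate NNReal ENNReal

namespace Vale.Agent.P099

lemma uniq_green (T : Triangle) {φ : ℂ → ℂ} (hφ : T.Test (fun i => T.om i ^ (-(1 : ℤ))) φ) :
    (∫ x in T.table, dzb φ x).re = 0 := by
  have hc : ContDiff ℝ 1 (fun x => (1 : ℂ) * conj (φ x)) :=
    contDiff_const.mul ((Complex.conjCLE.toContinuousLinearMap).contDiff.comp hφ.1)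
  have h := T.green1 _ hc fun i y hy => by
    have h1 := hφ.2 i y hy
    simp only [zpow_neg, zpow_one] at h1
    rw [one_mul, Complex.conj_conj]
    change conj (φ y) = T.om i * φ y
    conv_rhs => rw [h1]
    rw [← mul_assoc, mul_inv_cancel₀ (T.om_ne i), one_mul]
  have e : ∀ x, dz (fun x => (1 : ℂ) * conj (φ x)) x = conj (dzb φ x) := fun x => by
    rw [dz_mul_conj (differentiableAt_const _) (hφ.1.differentiable one_ne_zero x)]
    simp [dz]
  simp only [e] at h
  rwa [integral_conj, Complex.conj_re] at h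

/-- unique invariant law with uniform position -/
theorem Triangle.law_unique (T : Triangle) (hT : T.IsIrrational) {l : Measure (ℂ × ℂ)}
    [IsProbabilityMeasure l] (hl : T.IsInvariantLaw l)
    (hm : l.map Prod.fst = ProbabilityTheory.cond volume T.table) : l = T.mu := by
  obtain ⟨Φ, hmeas, hmp, hae⟩ := id hl
  have hE : T.Ens l Φ := by
    refine ⟨hmeas, hae.mono fun p h => h.2.2,
      fun s => (hmp s).quasiMeasurePreserving.ae (hae.mono fun p h => h.1),
      (volume T.table)⁻¹.toNNReal, fun s => le_of_eq ?_⟩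
    have h1 : l.map (fun z => (Φ s z).1) = (l.map (Φ s)).map Prod.fst :=
      (Measure.map_map measurable_fst (hmp s).measurable).symm
    rw [h1, (hmp s).map_eq, hm, ProbabilityTheory.cond, ENNReal.smul_def,
      ENNReal.coe_toNNReal (ENNReal.inv_ne_top.2 T.volume_table_pos.ne')]
  have hH : Measurable fun _ : ℂ × ℂ => (1 : ℝ) := measurable_const
  have hHb : ∃ M, ∀ _ : ℂ × ℂ, |(1 : ℝ)| ≤ M := ⟨1, fun _ => by simp⟩
  have hN : ∀ (k : ℤ) (s : ℝ) (ψ : ℂ → ℂ), Measurable ψ →
      Nm l Φ (fun _ => 1) k s ψ = ∫ p, ψ p.1 * p.2 ^ k ∂l := fun k s ψ hψ => by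
    have hf : Measurable fun p : ℂ × ℂ => ψ p.1 * p.2 ^ k :=
      (hψ.comp measurable_fst).mul (measurable_snd.pow_const k)
    conv_rhs => rw [← (hmp s).map_eq, integral_map (hmp s).aemeasurable hf.aestronglyMeasurable]
    simp only [Nm, Complex.ofReal_one, one_mul]
  have h1 : ∀ (k : ℤ) φ, T.Test (fun i => T.om i ^ (-k)) φ → ∀ a b,
      (Nm l Φ (fun _ => 1) k a φ).re = (Nm l Φ (fun _ => 1) k b φ).re := fun k φ hφ a b => by
    rw [hN k a φ hφ.1.continuous.measurable, hN k b φ hφ.1.continuous.measurable]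
  have key : ∀ (n : ℕ) (s : ℝ), Van l Φ (fun _ => 1) (2 * ((n : ℤ) + 1)) s := by
    intro n
    induction n with
    | zero =>
      intro s
      refine hE.step hT hH hHb (k := 1) (by norm_num) (h1 1) (fun φ hφ s => ?_) s
      have hc := (continuous_dzb hφ.1).measurable
      rw [hN _ s _ hc]
      simp only [sub_self, zpow_zero, mul_one]
      rw [← integral_map measurable_fst.aemeasurable hc.aestronglyMeasurable, hm,
        ProbabilityTheory.cond, integral_smul_measure, Complex.smul_re, uniq_green T hφ, smul_zero]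
    | succ n ih =>
      intro s
      have e : 2 * (((n + 1 : ℕ) : ℤ) + 1) = 2 * ((n : ℤ) + 1) + 1 + 1 := by push_cast; ring
      rw [e]
      refine hE.step hT hH hHb (by omega) (h1 _) (fun φ hφ s => ?_) s
      rw [add_sub_cancel_right, hE.van_cont hH hHb (ih s) (continuous_dzb hφ.1), Complex.zero_re]
  have : IsProbabilityMeasure (ProbabilityTheory.cond volume T.table) :=
    hm ▸ Measure.isProbabilityMeasure_map measurable_fst.aemeasurable
  refine T.eq_mu_of_absCont hT hl (absCont_of_even_modes _ l (hae.mono fun p h => h.1) hm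
    fun j hj ψ hψ => ?_)
  rw [← hN _ 0 ψ hψ.1]
  rcases lt_or_gt_of_ne hj with h | h
  · have := hE.van_neg (key (-j - 1).toNat 0)
    rw [show -(2 * ((((-j - 1).toNat : ℕ) : ℤ) + 1)) = 2 * j by omega] at this
    exact this ψ hψ
  · have := key (j - 1).toNat 0
    rw [show 2 * ((((j - 1).toNat : ℕ) : ℤ) + 1) = 2 * j by omega] at this
    exact this ψ hψ

end Vale.Agent.P099
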