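import Vale.Agent.N099X.Bridge
import Vale.Agent.N099X.Mix
import Vale.Agent.N099X.Uniq
import Vale.Agent.N099X.Orb

/-!
# P099x: the clauses over the phase space `ℂ × ℝ / ℤ`
-/

set_option linter.all false

open MeasureTheory ProbabilityTheory Set Filter Topology Metric

namespace Vale.Agent.N099X

open Vale.Agent.P099

variable {T : Triangle}

theorem erg_wm (hT : T.IsIrrational) {Φ : ℝ → Phase → Phase} (hΦ : Moves T.P (mu T.P) Φ) :
    Erg (mu T.P) Φ ∧ Erg ((mu T.P).prod (mu T.P)) fun t => Prod.map (Φ t) (Φ t) := by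
  obtain ⟨Ψ, hΨ, hb, hu⟩ := T.exists_good_flow
  have h := billiard_lift hΦ
  exact ⟨erg_of (T.ergodic_flow hT h), wm_of (T.weakMixing_of_good hT h hΨ (hu _ h))⟩

theorem mix_autocorr (hT : T.IsIrrational) {Φ : ℝ → Phase → Phase} (hΦ : Moves T.P (mu T.P) Φ) :
    Mix (mu T.P) Φ atTop ↔ ∀ x r, closedBall x r ⊆ Q T.P → Tendsto (fun t =>
      ∫ p in {p | p.1 ∈ closedBall x r ∧ (Φ t p).1 ∈ closedBall x r},
        inner ℝ (vel p.2) (vel (Φ t p).2) ∂mu T.P) atTop (𝓝 0) := by
  rw [mix_iff, T.mixing_iff_autocorr hT (billiard_lift hΦ)]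
  simp only [setIntegral_mu, preimage_setOf_eq, lift_up]
  rfl

theorem mix_currents (hT : T.IsIrrational) {Φ : ℝ → Phase → Phase} (hΦ : Moves T.P (mu T.P) Φ)
    (l : Filter ℝ) : Mix (mu T.P) Φ l ↔ ∀ x r, closedBall x r ⊆ Q T.P → ∀ B, MeasurableSet B →
      Tendsto (fun t => ∫ p in B ∩ {p | (Φ t p).1 ∈ closedBall x r}, vel (Φ t p).2 ∂mu T.P) l
        (𝓝 0) := by
  rw [mix_iff, T.mixing_iff_currents hT (billiard_lift hΦ)]
  simp only [setIntegral_mu, preimage_inter, preimage_setOf_eq, lift_up]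
  constructor
  · intro h x r hD B hB
    have h1 := h x r hD _ (measurable_dn hB)
    rw [preimage_up_dn] at h1
    exact h1
  · intro h x r hD B hB
    exact h x r hD _ (continuous_up.measurable hB)

theorem law_iff (T : Triangle) : T.IsIrrational ↔ ∀ l : Measure Phase, IsProbabilityMeasure l →
    (∃ Φ, Preserves l Φ ∧ Moves T.P l Φ) → l.map Prod.fst = cond volume (Q T.P) →
      l = mu T.P := by
  constructor
  · rintro hT l hl ⟨Φ, h1, h2⟩ hm
    have : IsProbabilityMeasure (l.map up) :=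
      Measure.isProbabilityMeasure_map continuous_up.measurable.aemeasurable
    have h3 := T.law_unique hT (law_lift h1 h2) (by
      rw [Measure.map_map measurable_fst continuous_up.measurable]
      exact hm)
    rw [← map_dn_map_up l, h3, (mp_dn T).map_eq]
  · intro h
    by_contra hT
    obtain ⟨l, hl, ⟨Ψ, a, b, c⟩, hm, hne⟩ := T.exists_law_ne hT
    have ht : ∀ᵐ q ∂l, q.1 ∈ T.table := by
      refine ae_of_ae_map (p := fun x => x ∈ T.table) measurable_fst.aemeasurable ?_
      rw [hm]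
      exact ae_cond_mem T.measurableSet_table
    have h1 := h (l.map dn) (Measure.isProbabilityMeasure_map measurable_dn.aemeasurable)
      ⟨_, law_lower a b c ht⟩ (by
        rw [Measure.map_map measurable_fst measurable_dn]
        exact hm)
    apply hne
    rw [← map_up_map_dn (c.mono fun q hq => hq.1), h1, map_up]

theorem orbit_equi (hT : T.IsIrrational) {γ : ℝ → Phase} (hγ : IsOrbit T.P γ)
    (h : ∀ f : ℂ → ℝ, Continuous f → Tendsto (fun t : ℝ => t⁻¹ * ∫ s in (0 : ℝ)..t, f (γ s).1)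
      atTop (𝓝 (⨍ x in Q T.P, f x))) (F : Phase → ℝ) (hF : Continuous F) :
    Tendsto (fun t : ℝ => t⁻¹ * ∫ s in (0 : ℝ)..t, F (γ s)) atTop (𝓝 (∫ p, F p ∂mu T.P)) := by
  obtain ⟨G, hG⟩ := ContinuousMap.exists_extension isClosedEmbedding_up ⟨F, hF⟩
  have hG' : ∀ p, G (up p) = F p := fun p => congrArg (fun f : C(Phase, ℝ) => f p) hG
  have h1 := (traj_of_orbit hγ).equidistributed hT (fun s => norm_vel _) h G G.continuous
  rw [← map_up, measurableEmbedding_up.integral_map] at h1
  simpa only [hG'] using h1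

end Vale.Agent.N099X
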