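import Vale.Agent.N099X.LiouA

/-!
# P099x: symmetrised mollification, the energy bound
-/

set_option linter.all false

open MeasureTheory Set Filter Topology
open scoped ComplexConjugate NNReal ENNReal

namespace Vale.Agent.P099

lemma liou_int_rho_mul {ε : ℝ} (hε : 0 < ε) (z : ℂ) {G : ℂ → ℝ} (hG : Continuous G) :
    Integrable fun y => rho ε (z - y) * G y := by
  have hc : Continuous fun y => rho ε (z - y) * G y :=
    ((rho_contDiff ε).continuous.comp (continuous_const.sub continuous_id)).mul hG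
  refine hc.integrable_of_hasCompactSupport ?_
  apply HasCompactSupport.intro (isCompact_closedBall z ε)
  intro y hy
  rw [Metric.mem_closedBall, not_le, dist_comm, dist_eq_norm] at hy
  rw [rho_eq_zero hε hy.le, zero_mul]

namespace Triangle

variable (T : Triangle)

lemma liou_int_mul {w : ℂ → ℂ} (hw : BddM w) {f : ℂ → ℂ} (hf : Continuous f) :
    IntegrableOn (fun y => w y * f y) T.table := by
  obtain ⟨hm, K, hK⟩ := hw
  have h1 : IntegrableOn f T.table := by
    rw [T.table_eq_image]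
    exact integrableOn_tri hf
  exact h1.bdd_mul (c := K) hm.aestronglyMeasurable (Eventually.of_forall hK)

/-- the truncated function -/
noncomputable def cutw (χ : ℂ → ℝ) (w : ℂ → ℂ) : ℂ → ℂ :=
  T.table.indicator fun y => w y * χ y

lemma integrable_cutw {w : ℂ → ℂ} (hw : BddM w) {χ : ℂ → ℝ} (hχ : ContDiff ℝ 1 χ) :
    Integrable (T.cutw χ w) := by
  unfold cutw
  rw [integrable_indicator_iff T.measurableSet_table]
  exact T.liou_int_mul hw (Complex.continuous_ofReal.comp hχ.continuous)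

lemma pt_bound {c : Fin 3 → ℂ} (hc : ∀ i, ‖c i‖ = 1) {w : ℂ → ℂ} (hw : BddM w) {M : ℝ}
    (hM : ∀ x, ‖w x‖ ≤ M)
    (h : ∀ φ, T.Test c φ → (∫ x in T.table, w x * dz φ x).re = 0)
    {χ : ℂ → ℝ} (hχ : ContDiff ℝ 1 χ) {r ε : ℝ}
    (hε : 0 < ε) (hr : 2 * (T.Lp * ε) * T.dm < r) (h0 : ∀ k x, ‖x - T.P k‖ < r → χ x = 0)
    {x : ℂ} (hx : x ∈ T.table) :
    ‖dz (T.symW (fun i => conj (c i) * T.om i)
      (conv (fun z => (rho ε z : ℂ)) (T.cutw χ w))) x‖ ≤
      M * ((∫ y, rho ε (x - y) * ‖fderiv ℝ χ y‖) +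
        ∑ i, ∫ y, rho ε (T.R i x - y) * ‖fderiv ℝ χ y‖) := by
  have hM0 : 0 ≤ M := (norm_nonneg _).trans (hM 0)
  have hloc : LocallyIntegrable (T.cutw χ w) := (T.integrable_cutw hw hχ).locallyIntegrable
  have hv : Differentiable ℝ (conv (fun z => (rho ε z : ℂ)) (T.cutw χ w)) :=
    (contDiff_conv hε hloc).differentiable (by simp)
  set K : ℂ → ℂ := conv (kap ε) (T.cutw χ w) with hK
  set D := dz (T.symW (fun i => conj (c i) * T.om i)
      (conv (fun z => (rho ε z : ℂ)) (T.cutw χ w))) x with hD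
  have hom : ∀ i, T.om i * conj (T.om i) = 1 := fun i => by
    rw [Complex.mul_conj, Complex.normSq_eq_norm_sq, T.norm_om]
    simp
  have hDK : D = K x + ∑ i, conj (c i * K (T.R i x)) := by
    rw [hD, T.dz_symW _ hv, dz_conv hε hloc]
    congr 1
    refine Finset.sum_congr rfl fun i _ => ?_
    rw [dz_conv hε hloc, map_mul, map_mul]
    linear_combination (conj (c i) * conj (K (T.R i x))) * hom i
  set χc : ℂ → ℂ := fun y => (χ y : ℂ) with hχc
  have hχc1 : ContDiff ℝ 1 χc := Complex.ofRealCLM.contDiff.comp hχ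
  set G : ℂ → ℝ := fun y => ‖fderiv ℝ χ y‖ with hG
  have hGc : Continuous G := (hχ.continuous_fderiv one_ne_zero).norm
  set q : ℂ → ℝ := fun z => ∫ y, rho ε (z - y) * G y with hq
  set A : ℂ → ℂ := fun z => ∫ y in T.table, w y * (dz χc y * (rho ε (z - y) : ℝ)) with hA
  have hρc : ∀ z, Continuous fun y => ((rho ε (z - y) : ℝ) : ℂ) := fun z =>
    (liou_contDiff_rho_sub ε z).continuous
  have hκc : ∀ z, Continuous fun y => kap ε (z - y) := fun z =>
    (continuous_kap ε).comp (continuous_const.sub continuous_id)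
  have iA : ∀ z, IntegrableOn (fun y => w y * (dz χc y * (rho ε (z - y) : ℝ))) T.table :=
    fun z => T.liou_int_mul hw ((continuous_dz hχc1).mul (hρc z))
  have iB : ∀ z, IntegrableOn (fun y => w y * (χc y * kap ε (z - y))) T.table :=
    fun z => T.liou_int_mul hw (hχc1.continuous.mul (hκc z))
  have hB : ∀ z, ∫ y in T.table, w y * (χc y * kap ε (z - y)) = K z := by
    intro z
    rw [hK, conv, ← integral_indicator T.measurableSet_table]
    congr 1
    funext y
    by_cases hy : y ∈ T.table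
    · simp only [cutw, indicator_of_mem hy, hχc]
      ring
    · simp only [cutw, indicator_of_notMem hy, mul_zero]
  have hAq : ∀ z, ‖A z‖ ≤ M * q z := by
    intro z
    have i1 : Integrable fun y => M * (rho ε (z - y) * G y) :=
      (liou_int_rho_mul hε z hGc).const_mul M
    have b1 : ‖A z‖ ≤ ∫ y in T.table, M * (rho ε (z - y) * G y) := by
      refine norm_integral_le_of_norm_le i1.integrableOn (Eventually.of_forall fun y => ?_)
      rw [norm_mul, norm_mul, Complex.norm_real, Real.norm_of_nonneg (rho_nonneg _ _), mul_comm (rho ε _)]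
      exact mul_le_mul (hM y) (mul_le_mul_of_nonneg_right (liou_norm_dz_le χ hχ y) (rho_nonneg _ _))
        (mul_nonneg (norm_nonneg _) (rho_nonneg _ _)) hM0
    refine b1.trans ((setIntegral_le_integral i1 (Eventually.of_forall fun y => ?_)).trans ?_)
    · exact mul_nonneg hM0 (mul_nonneg (rho_nonneg _ _) (norm_nonneg _))
    · rw [integral_const_mul]
  set F : ℂ → ℂ → ℂ := fun z y =>
    w y * (dz χc y * (rho ε (z - y) : ℝ)) - w y * (χc y * kap ε (z - y)) with hF
  have iF : ∀ z, IntegrableOn (F z) T.table := fun z => (iA z).sub (iB z)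
  have hFi : ∀ z, ∫ y in T.table, F z y = A z - K z := by
    intro z
    simp only [hF]
    rw [integral_sub (iA z) (iB z), hB]
  set a := conj D with ha
  have h1 := h _ (T.test_mol hc hχ hε hr h0 hx a)
  have h2 : ∀ y, w y * dz (fun y => (χ y : ℂ) * (a * (rho ε (x - y) : ℝ) +
      ∑ i, c i * conj a * (rho ε (T.R i x - y) : ℝ))) y =
      a * F x y + ∑ i, c i * conj a * F (T.R i x) y := by
    intro y
    have d0 : ∀ z, DifferentiableAt ℝ (fun y => ((rho ε (z - y) : ℝ) : ℂ)) y := fun z =>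
      (liou_contDiff_rho_sub ε z).differentiable one_ne_zero y
    simp only [Fin.sum_univ_three]
    rw [liou_dz_mul (hχc1.differentiable one_ne_zero y) (((d0 _).const_mul _).fun_add
      ((((d0 _).const_mul _).fun_add ((d0 _).const_mul _)).fun_add ((d0 _).const_mul _))),
      liou_dz_add ((d0 _).const_mul _) ((((d0 _).const_mul _).fun_add
        ((d0 _).const_mul _)).fun_add ((d0 _).const_mul _)),
      liou_dz_add (((d0 _).const_mul _).fun_add ((d0 _).const_mul _)) ((d0 _).const_mul _),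
      liou_dz_add ((d0 _).const_mul _) ((d0 _).const_mul _),
      liou_dz_const_mul _ (d0 _), liou_dz_const_mul _ (d0 _), liou_dz_const_mul _ (d0 _),
      liou_dz_const_mul _ (d0 _), liou_dz_rho_sub, liou_dz_rho_sub, liou_dz_rho_sub,
      liou_dz_rho_sub]
    simp only [hF, hχc]
    ring
  simp only [h2] at h1
  rw [integral_add ((iF x).const_mul a)
    (integrable_finset_sum _ fun i _ => (iF _).const_mul _),
    integral_finset_sum _ (fun i _ => (iF _).const_mul _)] at h1
  simp only [integral_const_mul, hFi] at h1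
  have h3 : ‖D‖ ^ 2 = (a * A x + ∑ i, c i * conj a * A (T.R i x)).re := by
    have e1 : (a * D).re = ‖D‖ ^ 2 := by
      rw [ha, mul_comm, Complex.mul_conj, Complex.normSq_eq_norm_sq]
      norm_cast
    have e2 : (a * D).re = (a * K x + ∑ i, c i * conj a * K (T.R i x)).re := by
      conv_lhs => rw [hDK]
      simp only [Fin.sum_univ_three, mul_add, Complex.add_re]
      have e3 : ∀ i, (a * conj (c i * K (T.R i x))).re = (c i * conj a * K (T.R i x)).re := by
        intro i
        rw [← Complex.conj_re (a * _), map_mul (starRingEnd ℂ) a, Complex.conj_conj (c i * _)]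
        congr 1
        ring
      rw [e3, e3, e3]
    rw [← e1, e2]
    simp only [Fin.sum_univ_three, mul_sub, Complex.add_re, Complex.sub_re] at h1 ⊢
    linarith
  have hq0 : ∀ z, 0 ≤ q z := fun z =>
    integral_nonneg fun y => mul_nonneg (rho_nonneg _ _) (norm_nonneg _)
  have h4 : ‖D‖ ^ 2 ≤ ‖D‖ * (M * (q x + ∑ i, q (T.R i x))) := by
    rw [h3]
    refine (Complex.re_le_norm _).trans ((norm_add_le _ _).trans ?_)
    have e0 : ‖a‖ = ‖D‖ := by rw [ha, RCLike.norm_conj]
    have e1 : ‖a * A x‖ ≤ ‖D‖ * (M * q x) := by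
      rw [norm_mul, e0]
      exact mul_le_mul_of_nonneg_left (hAq x) (norm_nonneg _)
    have e2 : ‖∑ i, c i * conj a * A (T.R i x)‖ ≤ ∑ i, ‖D‖ * (M * q (T.R i x)) := by
      refine (norm_sum_le _ _).trans (Finset.sum_le_sum fun i _ => ?_)
      rw [norm_mul, norm_mul, hc, one_mul, RCLike.norm_conj, e0]
      exact mul_le_mul_of_nonneg_left (hAq _) (norm_nonneg _)
    simp only [Fin.sum_univ_three] at e2 ⊢
    nlinarith [e1, e2]
  have h5 : 0 ≤ M * (q x + ∑ i, q (T.R i x)) :=
    mul_nonneg hM0 (add_nonneg (hq0 _) (Finset.sum_nonneg fun i _ => hq0 _))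
  show ‖D‖ ≤ M * (q x + ∑ i, q (T.R i x))
  by_contra hcon
  rw [not_le] at hcon
  have h6 : 0 < ‖D‖ := h5.trans_lt hcon
  nlinarith

lemma energy_bound {c : Fin 3 → ℂ} (hc : ∀ i, ‖c i‖ = 1) {w : ℂ → ℂ} (hw : BddM w) {M : ℝ}
    (hM : ∀ x, ‖w x‖ ≤ M)
    (h : ∀ φ, T.Test c φ → (∫ x in T.table, w x * dz φ x).re = 0)
    {χ : ℂ → ℝ} (hχ : ContDiff ℝ 1 χ) {r ε : ℝ}
    (hε : 0 < ε) (hr : 2 * (T.Lp * ε) * T.dm < r) (h0 : ∀ k x, ‖x - T.P k‖ < r → χ x = 0)
    {L : ℝ} (hL : ∀ x, ‖fderiv ℝ χ x‖ ≤ L) (hi : Integrable fun x => ‖fderiv ℝ χ x‖ ^ 2) :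
    ∫ x in T.table, ‖dz (T.symW (fun i => conj (c i) * T.om i)
      (conv (fun z => (rho ε z : ℂ)) (T.cutw χ w))) x‖ ^ 2 ≤
      16 * M ^ 2 * ∫ x, ‖fderiv ℝ χ x‖ ^ 2 := by
  have hM0 : 0 ≤ M := (norm_nonneg _).trans (hM 0)
  set G : ℂ → ℝ := fun y => ‖fderiv ℝ χ y‖ with hG
  have hGc : Continuous G := (hχ.continuous_fderiv one_ne_zero).norm
  set q : ℂ → ℝ := fun z => ∫ y, rho ε (z - y) * G y with hq
  set q2 : ℂ → ℝ := fun z => ∫ y, rho ε (z - y) * G y ^ 2 with hq2
  have hρi : Integrable (rho ε) :=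
    (rho_contDiff ε).continuous.integrable_of_hasCompactSupport (hasCompactSupport_rho hε)
  have hq2c : q2 = convolution (fun y => G y ^ 2) (rho ε) (ContinuousLinearMap.mul ℝ ℝ) volume := by
    funext z
    simp only [hq2, convolution_def, ContinuousLinearMap.mul_apply', mul_comm]
  have iq2 : Integrable q2 := by
    rw [hq2c]
    exact hi.integrable_convolution _ hρi
  have Iq2 : ∫ z, q2 z = ∫ y, G y ^ 2 := by
    rw [hq2c, integral_convolution _ hi hρi, integral_rho hε]
    simp [hG]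
  have hqq : ∀ z, q z ^ 2 ≤ q2 z := by
    intro z
    have h1 := weighted_cs (k := fun y => rho ε (z - y)) (g := G) (hρi.comp_sub_left z)
      (fun y => rho_nonneg _ _) hGc.measurable (C := L)
      (fun y => by rw [abs_of_nonneg (norm_nonneg _)]; exact hL y)
    rw [integral_sub_left_eq_self (fun z => rho ε z) (volume : Measure ℂ) z, integral_rho hε,
      one_mul] at h1
    exact h1
  have iR : ∀ i, Integrable fun x => q2 (T.R i x) := fun i =>
    ((T.measurePreserving_R i).integrable_comp iq2.aestronglyMeasurable).2 iq2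
  have IR : ∀ i, ∫ x, q2 (T.R i x) = ∫ y, G y ^ 2 := by
    intro i
    rw [← Iq2]
    conv_rhs => rw [← (T.measurePreserving_R i).map_eq]
    rw [integral_map (T.continuous_R i).measurable.aemeasurable]
    rw [(T.measurePreserving_R i).map_eq]
    exact iq2.aestronglyMeasurable
  have hq20 : ∀ z, 0 ≤ q2 z := fun z => (sq_nonneg _).trans (hqq z)
  have i1 : Integrable fun x => 4 * M ^ 2 * (q2 x + q2 (T.R 0 x) + q2 (T.R 1 x) + q2 (T.R 2 x)) :=
    (((iq2.add (iR 0)).add (iR 1)).add (iR 2)).const_mul _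
  have b1 : ∫ x in T.table, ‖dz (T.symW (fun i => conj (c i) * T.om i)
      (conv (fun z => (rho ε z : ℂ)) (T.cutw χ w))) x‖ ^ 2 ≤
      ∫ x in T.table, 4 * M ^ 2 * (q2 x + q2 (T.R 0 x) + q2 (T.R 1 x) + q2 (T.R 2 x)) := by
    refine integral_mono_of_nonneg (Eventually.of_forall fun x => sq_nonneg _) i1.integrableOn ?_
    filter_upwards [ae_restrict_mem T.measurableSet_table] with x hx
    have h1 := T.pt_bound hc hw hM h hχ hε hr h0 hx
    rw [Fin.sum_univ_three] at h1
    have h2 := pow_le_pow_left₀ (norm_nonneg _) h1 2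
    refine h2.trans ?_
    show (M * (q x + (q (T.R 0 x) + q (T.R 1 x) + q (T.R 2 x)))) ^ 2 ≤ _
    have c0 := hqq x
    have c1 := hqq (T.R 0 x)
    have c2 := hqq (T.R 1 x)
    have c3 := hqq (T.R 2 x)
    generalize q x = a0 at *
    generalize q (T.R 0 x) = a1 at *
    generalize q (T.R 1 x) = a2 at *
    generalize q (T.R 2 x) = a3 at *
    have h3 : (a0 + (a1 + a2 + a3)) ^ 2 ≤
        4 * (q2 x + q2 (T.R 0 x) + q2 (T.R 1 x) + q2 (T.R 2 x)) := by
      nlinarith [sq_nonneg (a0 - a1), sq_nonneg (a0 - a2), sq_nonneg (a0 - a3), sq_nonneg (a1 - a2),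
        sq_nonneg (a1 - a3), sq_nonneg (a2 - a3)]
    rw [mul_pow]
    nlinarith [mul_le_mul_of_nonneg_left h3 (sq_nonneg M)]
  refine b1.trans ((setIntegral_le_integral i1 (Eventually.of_forall fun x => ?_)).trans ?_)
  · have := hq20 x
    have := hq20 (T.R 0 x)
    have := hq20 (T.R 1 x)
    have := hq20 (T.R 2 x)
    show 0 ≤ 4 * M ^ 2 * (q2 x + q2 (T.R 0 x) + q2 (T.R 1 x) + q2 (T.R 2 x))
    positivity
  · have j1 : Integrable fun x => q2 x + q2 (T.R 0 x) := iq2.add (iR 0)
    have j2 : Integrable fun x => q2 x + q2 (T.R 0 x) + q2 (T.R 1 x) := j1.add (iR 1)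
    rw [integral_const_mul, integral_add j2 (iR 2),
      integral_add j1 (iR 1), integral_add iq2 (iR 0), Iq2, IR, IR, IR]
    apply le_of_eq
    ring

end Triangle

end Vale.Agent.P099
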