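import Vale.Agent.N099X.Base

set_option linter.all false

open MeasureTheory Set Filter Topology
open scoped ComplexConjugate NNReal ENNReal

namespace Vale.Agent.P099

lemma poin_int (T : Triangle) {f : ℂ → ℝ} (hf : Continuous f) : IntegrableOn f T.table := by
  rw [T.table_eq_image]
  exact integrableOn_tri hf

lemma poin_dz_le {f : ℂ → ℂ} {x : ℂ} {D : ℝ} (h : ∀ u : ℂ, ‖u‖ = 1 → ‖fderiv ℝ f x u‖ ≤ D) :
    ‖dz f x‖ ≤ D ∧ ‖dzb f x‖ ≤ D := by
  have h1 := h 1 norm_one
  have h2 := h Complex.I Complex.norm_I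
  have h3 : ‖Complex.I * fderiv ℝ f x Complex.I‖ ≤ D := by
    rwa [norm_mul, Complex.norm_I, one_mul]
  unfold dz dzb
  rw [norm_div, norm_div, Complex.norm_two]
  have h4 := norm_sub_le (fderiv ℝ f x 1) (Complex.I * fderiv ℝ f x Complex.I)
  have h5 := norm_add_le (fderiv ℝ f x 1) (Complex.I * fderiv ℝ f x Complex.I)
  constructor <;> linarith

lemma poin_dz_mul {f : ℂ → ℂ} {x : ℂ} (p : ℂ) (hf : DifferentiableAt ℝ f x) :
    dz (fun y => f y * (y - p)) x = dz f x * (x - p) + f x := by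
  have h1 : HasFDerivAt (fun y : ℂ => y - p) (ContinuousLinearMap.id ℝ ℂ) x :=
    (hasFDerivAt_id x).sub_const p
  have h2 : HasFDerivAt (fun y => f y * (y - p))
      (f x • ContinuousLinearMap.id ℝ ℂ + (x - p) • fderiv ℝ f x) x := hf.hasFDerivAt.mul h1
  unfold dz
  rw [h2.fderiv]
  simp only [add_apply, smul_apply, smul_eq_mul, ContinuousLinearMap.id_apply]
  linear_combination (-(f x) / 2) * Complex.I_mul_I

lemma poin_real (T : Triangle) (j : Fin 3) (r : ℝ) :
    (r : ℂ) * T.d j = T.d j / conj (T.d j) * conj ((r : ℂ) * T.d j) := by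
  have h : conj (T.d j) ≠ 0 := by simpa using T.d_ne j
  rw [map_mul, Complex.conj_ofReal]
  field_simp

lemma poin_side (T : Triangle) (i : Fin 3) {l : ℂ → ℂ} (hl : ContDiff ℝ 1 l)
    (h0 : ∀ y ∈ segment ℝ (T.P (i + 1)) (T.P (i + 2)), l y = 0) {D : ℂ → ℝ} (hD : Continuous D)
    (hb : ∀ x u : ℂ, ‖u‖ = 1 → ‖fderiv ℝ l x u‖ ≤ D x) :
    ∫ x in T.table, ‖l x‖ ^ 2 ≤ 4 * T.dm ^ 2 * ∫ x in T.table, D x ^ 2 := by
  have hg : ContDiff ℝ 1 fun y => l y * conj (l y) := hl.mul (Complex.conjCLE.contDiff.comp hl)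
  have hh : ContDiff ℝ 1 fun y => l y * conj (l y) * (y - T.P i) :=
    hg.mul (contDiff_id.sub contDiff_const)
  have h1 := T.green1 _ hh (by
    intro j y hy
    have hc : ∀ a b : Fin 3, a = b ∨ a = b + 1 ∨ a = b + 2 := by decide
    rcases hc i j with rfl | rfl | rfl
    · simp [h0 y hy]
    · obtain ⟨a, b, -, -, hab, rfl⟩ := hy
      have e : a • T.P (j + 1) + b • T.P (j + 2) - T.P (j + 1) = (b : ℂ) * T.d j := by
        have : a = 1 - b := by linarith
        simp only [this, Triangle.d, Complex.real_smul]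
        push_cast
        ring
      rw [e, Complex.mul_conj, ← mul_assoc, ← Complex.ofReal_mul]
      exact poin_real T j _
    · obtain ⟨a, b, -, -, hab, rfl⟩ := hy
      have e : a • T.P (j + 1) + b • T.P (j + 2) - T.P (j + 2) = ((-a : ℝ) : ℂ) * T.d j := by
        have : b = 1 - a := by linarith
        simp only [this, Triangle.d, Complex.real_smul]
        push_cast
        ring
      rw [e, Complex.mul_conj, ← mul_assoc, ← Complex.ofReal_mul]
      exact poin_real T j _)
  have hc := continuous_dz hh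
  have hi : IntegrableOn (dz fun y => l y * conj (l y) * (y - T.P i)) T.table := by
    rw [T.table_eq_image]
    exact integrableOn_tri hc
  have h2 : ∫ x in T.table, (dz (fun y => l y * conj (l y) * (y - T.P i)) x).re = 0 :=
    (integral_re hi).trans h1
  have i1 : IntegrableOn (fun x => (dz (fun y => l y * conj (l y) * (y - T.P i)) x).re) T.table :=
    poin_int T (Complex.continuous_re.comp hc)
  have i2 : IntegrableOn (fun x => D x ^ 2) T.table := poin_int T (hD.pow 2)
  have i3 := poin_int T (hl.continuous.norm.pow 2)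
  have h3 : ∫ x in T.table, ‖l x‖ ^ 2 ≤ ∫ x in T.table,
      (2 * (dz (fun y => l y * conj (l y) * (y - T.P i)) x).re + 4 * T.dm ^ 2 * D x ^ 2) := by
    refine setIntegral_mono_on i3 ((i1.const_mul 2).add (i2.const_mul _))
      T.isOpen_table.measurableSet fun x hx => ?_
    have hd : DifferentiableAt ℝ l x := hl.differentiable one_ne_zero x
    rw [poin_dz_mul _ (hg.differentiable one_ne_zero x), dz_mul_conj hd hd, Complex.add_re,
      Complex.mul_conj, Complex.ofReal_re, Complex.normSq_eq_norm_sq]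
    obtain ⟨a1, a2⟩ := poin_dz_le (hb x)
    have a3 : ‖x - T.P i‖ ≤ T.dm := T.norm_sub_le_dm (fun j => ((T.mem_table_iff x).1 hx j).le)
      (fun j => by rw [T.lam_P]; split_ifs <;> norm_num)
    have a4 : ‖dz l x * conj (l x) + l x * conj (dzb l x)‖ ≤ 2 * (D x * ‖l x‖) := by
      refine (norm_add_le _ _).trans ?_
      rw [norm_mul, norm_mul, RCLike.norm_conj, RCLike.norm_conj]
      nlinarith [norm_nonneg (l x)]
    have a5 : ‖(dz l x * conj (l x) + l x * conj (dzb l x)) * (x - T.P i)‖ ≤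
        2 * (D x * ‖l x‖) * T.dm := by
      rw [norm_mul]
      exact mul_le_mul a4 a3 (norm_nonneg _) ((norm_nonneg _).trans a4)
    have a6 := neg_le_of_abs_le ((Complex.abs_re_le_norm _).trans a5)
    nlinarith [sq_nonneg (‖l x‖ - 2 * T.dm * D x)]
  rw [integral_add (i1.const_mul 2) (i2.const_mul _), integral_const_mul, integral_const_mul,
    h2] at h3
  linarith

lemma poin_line (T : Triangle) {e : Fin 3 → ℂ} (he : ∀ i, ‖e i‖ = 1) {W : ℂ → ℂ}
    (hW : ContDiff ℝ 2 W) (hB : T.Bc e W) (i : Fin 3) :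
    ∫ x in T.table, ‖W x - e i * conj (W x)‖ ^ 2 ≤ 64 * T.dm ^ 2 * ∫ x in T.table, ‖dz W x‖ ^ 2 := by
  have hW1 : ContDiff ℝ 1 W := hW.of_le (by norm_num)
  have c1 := (continuous_dz hW1).norm
  have c2 := (continuous_dzb hW1).norm
  have hl : ContDiff ℝ 1 fun x => W x - e i * conj (W x) :=
    hW1.sub (contDiff_const.mul (Complex.conjCLE.contDiff.comp hW1))
  have h1 := poin_side T i hl (fun y hy => sub_eq_zero.2 (hB i y hy))
    (D := fun x => 2 * (‖dz W x‖ + ‖dzb W x‖)) (continuous_const.mul (c1.add c2)) (by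
      intro x u hu
      have hd := (hW1.differentiable one_ne_zero x).hasFDerivAt
      have a1 : HasFDerivAt (fun x => conj (W x))
          ((Complex.conjCLE.toContinuousLinearMap).comp (fderiv ℝ W x)) x :=
        (Complex.conjCLE.toContinuousLinearMap).hasFDerivAt.comp x hd
      have a2 : HasFDerivAt (fun x => W x - e i * conj (W x)) (fderiv ℝ W x -
          e i • (Complex.conjCLE.toContinuousLinearMap).comp (fderiv ℝ W x)) x :=
        hd.sub (a1.const_mul (e i))
      have a3 : fderiv ℝ (fun x => W x - e i * conj (W x)) x u =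
          fderiv ℝ W x u - e i * conj (fderiv ℝ W x u) := by
        rw [a2.fderiv]
        rfl
      have a4 : ‖fderiv ℝ W x u‖ ≤ ‖dz W x‖ + ‖dzb W x‖ := by
        rw [fderiv_eq_dz]
        refine (norm_add_le _ _).trans ?_
        rw [norm_mul, norm_mul, RCLike.norm_conj, hu, mul_one, mul_one]
      rw [a3]
      refine (norm_sub_le _ _).trans ?_
      rw [norm_mul, he, RCLike.norm_conj]
      linarith)
  have i1 : IntegrableOn (fun x => ‖dz W x‖ ^ 2) T.table := poin_int T (c1.pow 2)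
  have i2 : IntegrableOn (fun x => ‖dzb W x‖ ^ 2) T.table := poin_int T (c2.pow 2)
  have h2 := T.green2 W hW fun j => ⟨e j, hB j⟩
  rw [integral_sub i1 i2] at h2
  have h3 : ∫ x in T.table, (2 * (‖dz W x‖ + ‖dzb W x‖)) ^ 2 ≤
      ∫ x in T.table, (8 * ‖dz W x‖ ^ 2 + 8 * ‖dzb W x‖ ^ 2) := by
    refine integral_mono (poin_int T ((continuous_const.mul (c1.add c2)).pow 2))
      ((i1.const_mul 8).add (i2.const_mul 8)) fun x => ?_
    have := sq_nonneg (‖dz W x‖ - ‖dzb W x‖)
    simp only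
    nlinarith
  rw [integral_add (i1.const_mul 8) (i2.const_mul 8), integral_const_mul, integral_const_mul] at h3
  have h4 : ∫ x in T.table, (2 * (‖dz W x‖ + ‖dzb W x‖)) ^ 2 ≤
      16 * ∫ x in T.table, ‖dz W x‖ ^ 2 := by linarith
  calc _ ≤ _ := h1
    _ ≤ 4 * T.dm ^ 2 * (16 * ∫ x in T.table, ‖dz W x‖ ^ 2) :=
      mul_le_mul_of_nonneg_left h4 (by positivity)
    _ = _ := by ring

/-- Poincare inequality with line boundary conditions -/
theorem Triangle.poincare (T : Triangle) {e : Fin 3 → ℂ} (he : ∀ i, ‖e i‖ = 1)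
    (hne : ∃ i j, e i ≠ e j) : ∃ C : ℝ, 0 ≤ C ∧ ∀ W : ℂ → ℂ, ContDiff ℝ 2 W → T.Bc e W →
      ∫ x in T.table, ‖W x‖ ^ 2 ≤ C * ∫ x in T.table, ‖dz W x‖ ^ 2 := by
  obtain ⟨i, j, hij⟩ := hne
  have hp : 0 < ‖e j - e i‖ ^ 2 := pow_pos (norm_pos_iff.2 (sub_ne_zero.2 hij.symm)) 2
  refine ⟨256 * T.dm ^ 2 / ‖e j - e i‖ ^ 2, by positivity, fun W hW hB => ?_⟩
  have h1 := poin_line T he hW hB i
  have h2 := poin_line T he hW hB j
  have c : ∀ k, Continuous fun x => ‖W x - e k * conj (W x)‖ ^ 2 := fun k =>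
    (hW.continuous.sub (continuous_const.mul (Complex.continuous_conj.comp hW.continuous))).norm.pow 2
  have i1 := poin_int T (c i)
  have i2 := poin_int T (c j)
  have h3 : ∫ x in T.table, ‖e j - e i‖ ^ 2 * ‖W x‖ ^ 2 ≤ ∫ x in T.table,
      (2 * ‖W x - e i * conj (W x)‖ ^ 2 + 2 * ‖W x - e j * conj (W x)‖ ^ 2) := by
    refine integral_mono ((poin_int T (hW.continuous.norm.pow 2)).const_mul _)
      ((i1.const_mul 2).add (i2.const_mul 2)) fun x => ?_
    have a1 : ‖e j - e i‖ * ‖W x‖ ≤ ‖W x - e i * conj (W x)‖ + ‖W x - e j * conj (W x)‖ := by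
      refine le_trans (le_of_eq ?_) (norm_sub_le _ _)
      rw [← RCLike.norm_conj (W x), ← norm_mul]
      congr 1
      ring
    have a2 := pow_le_pow_left₀ (by positivity) a1 2
    have a3 := sq_nonneg (‖W x - e i * conj (W x)‖ - ‖W x - e j * conj (W x)‖)
    simp only
    nlinarith
  rw [integral_add (i1.const_mul 2) (i2.const_mul 2), integral_const_mul, integral_const_mul,
    integral_const_mul] at h3
  rw [div_mul_eq_mul_div, le_div_iff₀ hp]
  linarith

end Vale.Agent.P099
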