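import Vale.Agent.N099X.Cut
import Vale.Agent.N099X.Poin
import Vale.Agent.N099X.LiouB

/-!
# P099x: a Liouville theorem for weak solutions with line boundary conditions
-/

set_option linter.all false

open MeasureTheory Set Filter Topology
open scoped ComplexConjugate NNReal ENNReal

namespace Vale.Agent.P099

lemma liou_ae_tendsto {g : ℂ → ℂ} (hg : LocallyIntegrable g) :
    ∀ᵐ x : ℂ, Tendsto (fun ε : ℝ => conv (fun z => (rho ε z : ℂ)) g x) (𝓝[>] 0) (𝓝 (g x)) := by
  obtain ⟨M, hM0, hM⟩ := exists_rho_bound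
  filter_upwards [(Besicovitch.vitaliFamily (volume : Measure ℂ)).ae_tendsto_average_norm_sub hg]
    with x h0
  have hlim := h0.comp (Besicovitch.tendsto_filterAt (volume : Measure ℂ) x)
  have key := tendsto_integral_smul_of_tendsto_average_norm_sub
    (μ := (volume : Measure ℂ)) (a := fun ε : ℝ => Metric.closedBall x ε) (l := 𝓝[>] 0)
    (f := g) (c := g x) (g := fun ε y => rho ε (x - y))
    (M * volume.real (Metric.ball (0 : ℂ) 1)) hlim ?_ ?_ ?_ ?_
  · simpa only [conv, Complex.real_smul] using key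
  · filter_upwards with ε using hg.integrableOn_isCompact (isCompact_closedBall _ _)
  · refine (tendsto_const_nhds (x := (1 : ℝ))).congr' ?_
    filter_upwards [self_mem_nhdsWithin] with ε hε
    have h1 := integral_sub_left_eq_self (fun z => rho ε z) (volume : Measure ℂ) x
    rw [h1, integral_rho hε]
  · filter_upwards [self_mem_nhdsWithin] with ε hε y hy
    rw [Metric.mem_closedBall]
    by_contra hlt
    apply hy
    apply rho_eq_zero hε
    rw [not_le, dist_comm, dist_eq_norm] at hlt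
    exact hlt.le
  · filter_upwards [self_mem_nhdsWithin] with ε hε y
    have hε' : (0 : ℝ) < ε := hε
    rw [abs_of_nonneg (rho_nonneg _ _), Measure.addHaar_real_closedBall _ _ hε'.le,
      Complex.finrank_real_complex]
    have hv : 0 < volume.real (Metric.ball (0 : ℂ) 1) :=
      ENNReal.toReal_pos (Metric.measure_ball_pos _ _ one_pos).ne' measure_ball_lt_top.ne
    have h2 : M * volume.real (Metric.ball (0 : ℂ) 1) /
        (ε ^ 2 * volume.real (Metric.ball (0 : ℂ) 1)) = M * ε⁻¹ ^ 2 := by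
      field_simp
    rw [h2]
    exact hM ε hε' _

lemma liou_norm_conv_le {g : ℂ → ℂ} {M ε : ℝ} (hε : 0 < ε) (hM : ∀ x, ‖g x‖ ≤ M) (x : ℂ) :
    ‖conv (fun z => (rho ε z : ℂ)) g x‖ ≤ M := by
  have i1 : Integrable fun y => rho ε (x - y) * M := liou_int_rho_mul hε x continuous_const
  have h1 : ‖conv (fun z => (rho ε z : ℂ)) g x‖ ≤ ∫ y, rho ε (x - y) * M := by
    refine norm_integral_le_of_norm_le i1 (Eventually.of_forall fun y => ?_)
    rw [norm_mul, Complex.norm_real, Real.norm_of_nonneg (rho_nonneg _ _)]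
    exact mul_le_mul_of_nonneg_left (hM y) (rho_nonneg _ _)
  rw [integral_mul_const, integral_sub_left_eq_self (fun z => rho ε z) (volume : Measure ℂ) x,
    integral_rho hε, one_mul] at h1
  exact h1

namespace Triangle

variable (T : Triangle)

lemma cut_bound {c : Fin 3 → ℂ} (hc : ∀ i, ‖c i‖ = 1) {C : ℝ} (hC0 : 0 ≤ C)
    (hC : ∀ W : ℂ → ℂ, ContDiff ℝ 2 W → T.Bc (fun i => conj (c i) * T.om i) W →
      ∫ x in T.table, ‖W x‖ ^ 2 ≤ C * ∫ x in T.table, ‖dz W x‖ ^ 2)
    {w : ℂ → ℂ} (hw : BddM w) {M : ℝ} (hM : ∀ x, ‖w x‖ ≤ M)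
    (h : ∀ φ, T.Test c φ → (∫ x in T.table, w x * dz φ x).re = 0)
    {χ : ℂ → ℝ} (hχ : ContDiff ℝ 1 χ) {r : ℝ} (hr0 : 0 < r)
    (h0 : ∀ k x, ‖x - T.P k‖ < r → χ x = 0) (h1 : ∀ x, |χ x| ≤ 1)
    {L : ℝ} (hL : ∀ x, ‖fderiv ℝ χ x‖ ≤ L) (hi : Integrable fun x => ‖fderiv ℝ χ x‖ ^ 2) :
    ∫ x in T.table, ‖w x * χ x‖ ^ 2 ≤ C * (16 * M ^ 2 * ∫ x, ‖fderiv ℝ χ x‖ ^ 2) := by
  have hM0 : 0 ≤ M := (norm_nonneg _).trans (hM 0)
  set e : Fin 3 → ℂ := fun i => conj (c i) * T.om i with he
  have hen : ∀ i, ‖e i‖ = 1 := fun i => by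
    simp only [he]
    rw [norm_mul, RCLike.norm_conj, hc, T.norm_om, one_mul]
  set g := T.cutw χ w with hg
  have hloc : LocallyIntegrable g := (T.integrable_cutw hw hχ).locallyIntegrable
  have hgM : ∀ x, ‖g x‖ ≤ M := by
    intro x
    by_cases hx : x ∈ T.table
    · simp only [hg, cutw, indicator_of_mem hx]
      rw [norm_mul, Complex.norm_real, Real.norm_eq_abs]
      exact (mul_le_mul (hM x) (h1 x) (abs_nonneg _) hM0).trans_eq (mul_one M)
    · simp only [hg, cutw, indicator_of_notMem hx, norm_zero]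
      exact hM0
  have hgs : ∀ z, g z ≠ 0 → z ∈ T.table ∧ ∀ k, r ≤ ‖z - T.P k‖ := by
    intro z hz
    by_cases hx : z ∈ T.table
    · refine ⟨hx, fun k => ?_⟩
      by_contra hk
      rw [not_le] at hk
      apply hz
      simp only [hg, cutw, indicator_of_mem hx, h0 k z hk]
      simp
    · exact absurd (by simp only [hg, cutw, indicator_of_notMem hx]) hz
  set v : ℝ → ℂ → ℂ := fun ε => conv (fun z => (rho ε z : ℂ)) g with hv
  have hdm := T.dm_pos
  have hLp := T.Lp_pos
  have hev : ∀ᶠ ε in 𝓝[>] (0 : ℝ), 0 < ε ∧ 2 * (T.Lp * ε) * T.dm < r := by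
    refine Eventually.and self_mem_nhdsWithin (mem_nhdsWithin_of_mem_nhds ?_)
    have hc : Continuous fun ε : ℝ => 2 * (T.Lp * ε) * T.dm := by fun_prop
    exact hc.continuousAt.eventually_lt continuousAt_const (by simpa using hr0)
  have hlim : Tendsto (fun ε => ∫ x in T.table, ‖T.symW e (v ε) x‖ ^ 2) (𝓝[>] 0)
      (𝓝 (∫ x in T.table, ‖w x * χ x‖ ^ 2)) := by
    refine tendsto_integral_filter_of_dominated_convergence (fun _ => (4 * M) ^ 2) ?_ ?_
      (integrable_const _) ?_
    · filter_upwards [hev] with ε hε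
      exact ((T.contDiff_symW e (contDiff_conv hε.1 hloc)).continuous.norm.pow 2).aestronglyMeasurable
    · filter_upwards [hev] with ε hε
      refine Eventually.of_forall fun x => ?_
      rw [Real.norm_of_nonneg (sq_nonneg _)]
      refine pow_le_pow_left₀ (norm_nonneg _) ?_ 2
      have b : ∀ i, ‖e i * conj (v ε (T.R i x))‖ ≤ M := fun i => by
        rw [norm_mul, hen, one_mul, RCLike.norm_conj]
        exact liou_norm_conv_le hε.1 hgM _
      have b0 : ‖v ε x‖ ≤ M := liou_norm_conv_le hε.1 hgM _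
      rw [symW, Fin.sum_univ_three]
      have t1 := norm_add_le (v ε x) (e 0 * conj (v ε (T.R 0 x)) + e 1 * conj (v ε (T.R 1 x)) +
        e 2 * conj (v ε (T.R 2 x)))
      have t2 := norm_add_le (e 0 * conj (v ε (T.R 0 x)) + e 1 * conj (v ε (T.R 1 x)))
        (e 2 * conj (v ε (T.R 2 x)))
      have t3 := norm_add_le (e 0 * conj (v ε (T.R 0 x))) (e 1 * conj (v ε (T.R 1 x)))
      linarith [b 0, b 1, b 2]
    · have a0 := liou_ae_tendsto hloc
      have a1 : ∀ᵐ x : ℂ, ∀ i, Tendsto (fun ε => v ε (T.R i x)) (𝓝[>] 0) (𝓝 (g (T.R i x))) :=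
        ae_all_iff.2 fun i => (T.measurePreserving_R i).quasiMeasurePreserving.ae a0
      filter_upwards [ae_restrict_of_ae a0, ae_restrict_of_ae a1,
        ae_restrict_mem T.measurableSet_table] with x hx0 hx1 hx
      have hgR : ∀ i, g (T.R i x) = 0 := fun i => by
        simp only [hg, cutw]
        exact indicator_of_notMem (R_not_mem_table ((T.mem_table_iff x).1 hx i).le) _
      have hgx : g x = w x * χ x := by
        simp only [hg, cutw, indicator_of_mem hx]
      have t1 : Tendsto (fun ε => T.symW e (v ε) x) (𝓝[>] 0)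
          (𝓝 (g x + ∑ i, e i * conj (g (T.R i x)))) := by
        unfold symW
        refine hx0.add (tendsto_finset_sum _ fun i _ => Tendsto.const_mul _ ?_)
        exact (Complex.continuous_conj.tendsto _).comp (hx1 i)
      simp only [hgR, map_zero, mul_zero, Finset.sum_const_zero, add_zero, hgx] at t1
      exact t1.norm.pow 2
  refine le_of_tendsto hlim ?_
  filter_upwards [hev] with ε hε
  refine (hC _ (T.contDiff_symW e ((contDiff_conv hε.1 hloc).of_le (by norm_cast)))
    (T.bc_symW hen fun i j hij y hy => T.conv_R_eq_zero hε.1 hε.2 hgs hij hy)).trans ?_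
  exact mul_le_mul_of_nonneg_left (T.energy_bound hc hw hM h hχ hε.1 hε.2 h0 hL hi) hC0

end Triangle

/-- bounded weak solutions of `dz w = 0` with line boundary conditions vanish -/
theorem Triangle.liouville (T : Triangle) {c : Fin 3 → ℂ} (hc : ∀ i, ‖c i‖ = 1)
    (hne : ∃ i j, conj (c i) * T.om i ≠ conj (c j) * T.om j) {w : ℂ → ℂ} (hw : BddM w)
    (h : ∀ φ, T.Test c φ → (∫ x in T.table, w x * dz φ x).re = 0) :
    ∀ᵐ x ∂(volume.restrict T.table), w x = 0 := by
  obtain ⟨C, hC0, hC⟩ := T.poincare (e := fun i => conj (c i) * T.om i) (fun i => by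
    rw [norm_mul, RCLike.norm_conj, hc, T.norm_om, one_mul]) hne
  obtain ⟨M, hM⟩ := hw.2
  have hM0 : 0 ≤ M := (norm_nonneg _).trans (hM 0)
  have key : ∀ δ : ℝ, 0 < δ → ∀ᵐ x ∂(volume.restrict T.table),
      (∀ k, δ ≤ ‖x - T.P k‖) → w x = 0 := by
    intro δ hδ
    set S : Set ℂ := {x | ∀ k, δ ≤ ‖x - T.P k‖} with hS
    have hSm : MeasurableSet S := by
      have : S = ⋂ k, {x | δ ≤ ‖x - T.P k‖} := by
        ext x
        simp [hS]
      rw [this]
      exact MeasurableSet.iInter fun k =>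
        (isClosed_le continuous_const (by fun_prop)).measurableSet
    set f : ℂ → ℝ := S.indicator fun x => ‖w x‖ ^ 2 with hf
    have hf0 : ∀ x, 0 ≤ f x := fun x => indicator_nonneg (fun y _ => sq_nonneg _) x
    have hfi : Integrable f (volume.restrict T.table) := by
      refine Integrable.indicator ?_ hSm
      refine Integrable.of_bound (C := M ^ 2) (hw.1.norm.pow_const 2).aestronglyMeasurable
        (Eventually.of_forall fun x => ?_)
      rw [Real.norm_of_nonneg (sq_nonneg _)]
      exact pow_le_pow_left₀ (norm_nonneg _) (hM x) 2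
    have h1 : ∀ η : ℝ, 0 < η → ∫ x in T.table, f x ≤ C * (16 * M ^ 2 * η) := by
      intro η hη
      obtain ⟨χ, hχ, ⟨r, hr, h0⟩, hone, hb, ⟨L, hL⟩, hi, hI⟩ := T.exists_chi hδ hη
      have b1 := T.cut_bound hc hC0 hC hw hM h hχ hr h0 hb hL hi
      have b2 : ∫ x in T.table, f x ≤ ∫ x in T.table, ‖w x * χ x‖ ^ 2 := by
        refine integral_mono hfi ?_ fun x => ?_
        · refine Integrable.of_bound (C := M ^ 2)
            ((hw.1.mul (Complex.continuous_ofReal.comp hχ.continuous).measurable).norm.pow_const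
              2).aestronglyMeasurable (Eventually.of_forall fun x => ?_)
          rw [Real.norm_of_nonneg (sq_nonneg _)]
          refine pow_le_pow_left₀ (norm_nonneg _) ?_ 2
          rw [norm_mul, Complex.norm_real, Real.norm_eq_abs]
          exact (mul_le_mul (hM x) (hb x) (abs_nonneg _) hM0).trans_eq (mul_one M)
        · by_cases hx : x ∈ S
          · simp only [hf, indicator_of_mem hx, hone x hx]
            simp
          · simp only [hf, indicator_of_notMem hx]
            exact sq_nonneg _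
      refine b2.trans (b1.trans (mul_le_mul_of_nonneg_left ?_ hC0))
      exact mul_le_mul_of_nonneg_left hI (by positivity)
    have h2 : ∫ x in T.table, f x = 0 := by
      refine le_antisymm ?_ (integral_nonneg hf0)
      have t1 : Tendsto (fun η : ℝ => C * (16 * M ^ 2 * η)) (𝓝[>] 0)
          (𝓝 (C * (16 * M ^ 2 * 0))) :=
        ((by fun_prop : Continuous fun η : ℝ => C * (16 * M ^ 2 * η)).tendsto 0).mono_left
          nhdsWithin_le_nhds
      rw [mul_zero, mul_zero] at t1
      refine ge_of_tendsto t1 ?_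
      filter_upwards [self_mem_nhdsWithin] with η hη using h1 η hη
    rw [integral_eq_zero_iff_of_nonneg hf0 hfi] at h2
    filter_upwards [h2] with x hx hxS
    have hx' : x ∈ S := hxS
    simp only [hf, indicator_of_mem hx', Pi.zero_apply] at hx
    simpa using hx
  have key2 : ∀ᵐ x ∂(volume.restrict T.table), ∀ n : ℕ,
      (∀ k, 1 / ((n : ℝ) + 1) ≤ ‖x - T.P k‖) → w x = 0 :=
    ae_all_iff.2 fun n => key _ (by positivity)
  filter_upwards [key2, ae_restrict_mem T.measurableSet_table] with x hx hxT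
  have hpos : ∀ k, 0 < ‖x - T.P k‖ := by
    intro k
    rw [norm_pos_iff, sub_ne_zero]
    rintro rfl
    have h1 := (T.mem_table_iff _).1 hxT (k + 1)
    have hk : ∀ k : Fin 3, ¬ k + 1 = k := by decide
    rw [T.lam_P, if_neg (hk k)] at h1
    exact lt_irrefl _ h1
  have hev : ∀ᶠ n : ℕ in atTop, ∀ k, 1 / ((n : ℝ) + 1) ≤ ‖x - T.P k‖ :=
    eventually_all.2 fun k =>
      (tendsto_one_div_add_atTop_nhds_zero_nat.eventually (ge_mem_nhds (hpos k)))
  obtain ⟨n, hn⟩ := hev.exists
  exact hx n hn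

end Vale.Agent.P099
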