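import Vale.Agent.N099X.Base

/-!
# P099x: symmetrised mollification, first part
-/

set_option linter.all false

open MeasureTheory Set Filter Topology
open scoped ComplexConjugate NNReal ENNReal

namespace Vale.Agent.P099

lemma liou_dz_eq {φ : ℂ → ℂ} {x A B : ℂ} (h : ∀ u, fderiv ℝ φ x u = A * u + B * conj u) :
    dz φ x = A := by
  rw [dz, h, h]
  simp only [map_one, mul_one, Complex.conj_I]
  linear_combination ((B - A) / 2) * Complex.I_mul_I

lemma liou_dz_of {φ : ℂ → ℂ} {x A B : ℂ} {L : ℂ →L[ℝ] ℂ} (hL : HasFDerivAt φ L x)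
    (h : ∀ u, L u = A * u + B * conj u) : dz φ x = A :=
  liou_dz_eq (B := B) fun u => by rw [hL.fderiv, h]

lemma liou_norm_dz_le (χ : ℂ → ℝ) (hχ : ContDiff ℝ 1 χ) (x : ℂ) :
    ‖dz (fun y => (χ y : ℂ)) x‖ ≤ ‖fderiv ℝ χ x‖ := by
  have h1 : HasFDerivAt (fun y => (χ y : ℂ)) (Complex.ofRealCLM.comp (fderiv ℝ χ x)) x :=
    Complex.ofRealCLM.hasFDerivAt.comp x (hχ.differentiable one_ne_zero x).hasFDerivAt
  rw [dz, h1.fderiv]
  simp only [ContinuousLinearMap.coe_comp, Function.comp_apply, Complex.ofRealCLM_apply]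
  have a1 : ‖fderiv ℝ χ x 1‖ ≤ ‖fderiv ℝ χ x‖ := by
    simpa using (fderiv ℝ χ x).le_opNorm 1
  have a2 : ‖fderiv ℝ χ x Complex.I‖ ≤ ‖fderiv ℝ χ x‖ := by
    simpa using (fderiv ℝ χ x).le_opNorm Complex.I
  rw [norm_div, Complex.norm_ofNat, div_le_iff₀ (by norm_num : (0 : ℝ) < 2)]
  refine (norm_sub_le _ _).trans ?_
  rw [norm_mul, Complex.norm_I, one_mul, Complex.norm_real, Complex.norm_real]
  linarith

lemma liou_dz_mul {f g : ℂ → ℂ} {x : ℂ} (hf : DifferentiableAt ℝ f x)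
    (hg : DifferentiableAt ℝ g x) :
    dz (fun y => f y * g y) x = dz f x * g x + f x * dz g x := by
  have h2 : HasFDerivAt (fun y => f y * g y) (f x • fderiv ℝ g x + g x • fderiv ℝ f x) x :=
    hf.hasFDerivAt.mul hg.hasFDerivAt
  unfold dz
  rw [h2.fderiv]
  simp only [ContinuousLinearMap.add_apply, ContinuousLinearMap.smul_apply, smul_eq_mul]
  ring

lemma liou_dz_add {f g : ℂ → ℂ} {x : ℂ} (hf : DifferentiableAt ℝ f x)
    (hg : DifferentiableAt ℝ g x) :
    dz (fun y => f y + g y) x = dz f x + dz g x := by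
  have h2 : HasFDerivAt (fun y => f y + g y) (fderiv ℝ f x + fderiv ℝ g x) x :=
    hf.hasFDerivAt.add hg.hasFDerivAt
  unfold dz
  rw [h2.fderiv]
  simp only [ContinuousLinearMap.add_apply]
  ring

lemma liou_dz_const_mul (a : ℂ) {g : ℂ → ℂ} {x : ℂ} (hg : DifferentiableAt ℝ g x) :
    dz (fun y => a * g y) x = a * dz g x := by
  rw [liou_dz_mul (differentiableAt_const a) hg]
  have : dz (fun _ : ℂ => a) x = 0 := by
    unfold dz
    simp
  rw [this, zero_mul, zero_add]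

lemma liou_contDiff_rho_sub (ε : ℝ) (x : ℂ) :
    ContDiff ℝ 1 fun y : ℂ => ((rho ε (x - y) : ℝ) : ℂ) :=
  ((rhoC_contDiff ε).of_le (by exact_mod_cast le_top)).comp (contDiff_const.sub contDiff_id)

lemma liou_dz_rho_sub (ε : ℝ) (x y : ℂ) :
    dz (fun y : ℂ => ((rho ε (x - y) : ℝ) : ℂ)) y = - kap ε (x - y) := by
  have h1 : HasFDerivAt (fun z => (rho ε z : ℂ)) (fderiv ℝ (fun z => (rho ε z : ℂ)) (x - y))
      (x - y) :=
    (((rhoC_contDiff ε).differentiable (by simp)).differentiableAt).hasFDerivAt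
  have h2 : HasFDerivAt (fun y : ℂ => x - y) (-ContinuousLinearMap.id ℝ ℂ) y :=
    (hasFDerivAt_id y).const_sub x
  refine liou_dz_of (B := - conj (kap ε (x - y))) (h1.comp y h2) fun u => ?_
  simp only [ContinuousLinearMap.coe_comp, Function.comp_apply, ContinuousLinearMap.neg_apply,
    ContinuousLinearMap.id_apply, fderiv_rhoC, map_neg]
  ring

namespace Triangle

variable (T : Triangle)

lemma liou_R_eq (i : Fin 3) (x : ℂ) :
    T.R i x = T.P (i + 1) + T.om i * conj (x - T.P (i + 1)) := by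
  rw [R, refl_om]

lemma liou_contDiff_R (i : Fin 3) {n : WithTop ℕ∞} : ContDiff ℝ n (T.R i) := by
  have : T.R i = fun x => T.P (i + 1) + T.om i * Complex.conjCLE (x - T.P (i + 1)) := by
    funext x
    rw [liou_R_eq]
    rfl
  rw [this]
  exact contDiff_const.add (contDiff_const.mul
    (Complex.conjCLE.contDiff.comp (contDiff_id.sub contDiff_const)))

lemma liou_fderiv_R (i : Fin 3) (x : ℂ) :
    HasFDerivAt (T.R i) (T.om i • (Complex.conjCLE : ℂ →L[ℝ] ℂ)) x := by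
  have : T.R i = fun x => T.P (i + 1) + T.om i * Complex.conjCLE (x - T.P (i + 1)) := by
    funext x
    rw [liou_R_eq]
    rfl
  rw [this]
  have h1 : HasFDerivAt (fun x : ℂ => x - T.P (i + 1)) (ContinuousLinearMap.id ℝ ℂ) x :=
    (hasFDerivAt_id x).sub_const _
  have h2 := ((Complex.conjCLE : ℂ →L[ℝ] ℂ).hasFDerivAt.comp x h1)
  have h3 := (h2.const_mul (T.om i)).const_add (T.P (i + 1))
  simpa using h3

lemma liou_dz_conj_R {v : ℂ → ℂ} (hv : Differentiable ℝ v) (i : Fin 3) (x : ℂ) :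
    dz (fun y => conj (v (T.R i y))) x = conj (T.om i * dz v (T.R i x)) := by
  have h1 := (hv (T.R i x)).hasFDerivAt.comp x (T.liou_fderiv_R i x)
  have h2 := (Complex.conjCLE : ℂ →L[ℝ] ℂ).hasFDerivAt.comp x h1
  refine liou_dz_of (B := conj (dzb v (T.R i x) * conj (T.om i))) h2 fun u => ?_
  have e1 : ((Complex.conjCLE : ℂ →L[ℝ] ℂ).comp ((fderiv ℝ v (T.R i x)).comp
      (T.om i • (Complex.conjCLE : ℂ →L[ℝ] ℂ)))) u =
      conj (fderiv ℝ v (T.R i x) (T.om i * conj u)) := rfl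
  rw [e1, fderiv_eq_dz]
  simp only [map_add, map_mul, Complex.conj_conj]
  ring

lemma liou_near {i j : Fin 3} (hij : i ≠ j) {z : ℂ} {a : ℝ} (hi : |T.lam i z| ≤ a)
    (hj : |T.lam j z| ≤ a) : ∃ k, ‖z - T.P k‖ ≤ 2 * a * T.dm := by
  have hk : ∃ k : Fin 3, (i = k + 1 ∧ j = k + 2) ∨ (i = k + 2 ∧ j = k + 1) := by
    clear hi hj
    revert i j
    decide
  obtain ⟨k, hk⟩ := hk
  have hP : ∀ m n, ‖T.P m - T.P n‖ ≤ T.dm := fun m n =>
    T.norm_sub_le_dm (fun l => by rw [lam_P]; split_ifs <;> norm_num)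
      (fun l => by rw [lam_P]; split_ifs <;> norm_num)
  have ha : 0 ≤ a := (abs_nonneg _).trans hi
  have h12 : |T.lam (k + 1) z| ≤ a ∧ |T.lam (k + 2) z| ≤ a := by
    rcases hk with ⟨rfl, rfl⟩ | ⟨rfl, rfl⟩
    · exact ⟨hi, hj⟩
    · exact ⟨hj, hi⟩
  refine ⟨k, ?_⟩
  rw [T.sub_P_eq k z]
  refine (norm_add_le _ _).trans ?_
  rw [norm_smul, norm_smul, Real.norm_eq_abs, Real.norm_eq_abs]
  have b1 := mul_le_mul h12.1 (hP (k + 1) k) (norm_nonneg _) ha
  have b2 := mul_le_mul h12.2 (hP (k + 2) k) (norm_nonneg _) ha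
  linarith

/-- the symmetrised function -/
noncomputable def symW (e : Fin 3 → ℂ) (v : ℂ → ℂ) (x : ℂ) : ℂ :=
  v x + ∑ i, e i * conj (v (T.R i x))

lemma contDiff_symW (e : Fin 3 → ℂ) {v : ℂ → ℂ} {n : WithTop ℕ∞} (hv : ContDiff ℝ n v) :
    ContDiff ℝ n (T.symW e v) := by
  unfold symW
  refine hv.add (ContDiff.sum fun i _ => contDiff_const.mul ?_)
  exact Complex.conjCLE.contDiff.comp (hv.comp (T.liou_contDiff_R i))

lemma dz_symW (e : Fin 3 → ℂ) {v : ℂ → ℂ} (hv : Differentiable ℝ v) (x : ℂ) :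
    dz (T.symW e v) x = dz v x + ∑ i, e i * conj (T.om i * dz v (T.R i x)) := by
  have hd : ∀ i, DifferentiableAt ℝ (fun y => conj (v (T.R i y))) x := fun i =>
    Complex.conjCLE.differentiableAt.comp x ((hv _).comp x (T.liou_fderiv_R i x).differentiableAt)
  have h1 : T.symW e v = fun y => v y + (e 0 * conj (v (T.R 0 y)) + e 1 * conj (v (T.R 1 y)) +
      e 2 * conj (v (T.R 2 y))) := by
    funext y
    rw [symW, Fin.sum_univ_three]
  rw [h1, liou_dz_add (hv x) ((((hd 0).const_mul _).fun_add ((hd 1).const_mul _)).fun_add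
    ((hd 2).const_mul _)), liou_dz_add (((hd 0).const_mul _).fun_add ((hd 1).const_mul _))
    ((hd 2).const_mul _), liou_dz_add ((hd 0).const_mul _) ((hd 1).const_mul _),
    liou_dz_const_mul _ (hd 0), liou_dz_const_mul _ (hd 1), liou_dz_const_mul _ (hd 2),
    T.liou_dz_conj_R hv, T.liou_dz_conj_R hv, T.liou_dz_conj_R hv, Fin.sum_univ_three]

lemma bc_symW {e : Fin 3 → ℂ} (he : ∀ i, ‖e i‖ = 1) {v : ℂ → ℂ}
    (h : ∀ i j, i ≠ j → ∀ y ∈ segment ℝ (T.P (j + 1)) (T.P (j + 2)), v (T.R i y) = 0) :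
    T.Bc e (T.symW e v) := by
  intro j y hy
  have h1 : T.symW e v y = v y + e j * conj (v y) := by
    rw [symW, Finset.sum_eq_single j, T.R_of_lam_eq_zero (T.mem_segment_lam hy).1]
    · intro i _ hi
      rw [h i j hi y hy, map_zero, mul_zero]
    · intro hj
      exact absurd (Finset.mem_univ j) hj
  have h2 : e j * conj (e j) = 1 := by
    rw [Complex.mul_conj, Complex.normSq_eq_norm_sq, he]
    simp
  rw [h1]
  simp only [map_add, map_mul, Complex.conj_conj]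
  linear_combination (-v y) * h2

/-- the mollification of a function living in the table away from the vertices vanishes at the
mirror images of boundary points -/
lemma conv_R_eq_zero {g : ℂ → ℂ} {r ε : ℝ} (hε : 0 < ε) (hr : 2 * (T.Lp * ε) * T.dm < r)
    (hg : ∀ z, g z ≠ 0 → z ∈ T.table ∧ ∀ k, r ≤ ‖z - T.P k‖) {i j : Fin 3} (hij : i ≠ j) {y : ℂ}
    (hy : y ∈ segment ℝ (T.P (j + 1)) (T.P (j + 2))) :
    conv (fun z => (rho ε z : ℂ)) g (T.R i y) = 0 := by
  have h1 : ∀ z, ((rho ε (T.R i y - z) : ℝ) : ℂ) * g z = 0 := by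
    intro z
    by_cases hz : g z = 0
    · rw [hz, mul_zero]
    by_cases hρ : ε ≤ ‖T.R i y - z‖
    · rw [rho_eq_zero hε hρ]
      simp
    exfalso
    rw [not_le] at hρ
    obtain ⟨hzt, hzr⟩ := hg z hz
    obtain ⟨hy0, hy1⟩ := T.mem_segment_lam hy
    have hz0 := (T.mem_table_iff z).1 hzt
    have hL := T.Lp_pos
    have hRi : T.lam i (T.R i y) ≤ 0 := by
      rw [T.lam_R]
      linarith [hy1 i]
    have a1 : |T.lam i z| ≤ T.Lp * ε := by
      have b1 := T.abs_lam_sub_le i z (T.R i y)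
      have b2 : T.Lp * ‖T.R i y - z‖ ≤ T.Lp * ε := mul_le_mul_of_nonneg_left hρ.le hL.le
      rw [abs_of_pos (hz0 i)]
      have b3 := neg_abs_le (T.lam i (T.R i y) - T.lam i z)
      linarith
    have a2 : |T.lam j z| ≤ T.Lp * ε := by
      have b0 := T.norm_R_sub_le i (hz0 i).le hRi
      rw [T.R_R] at b0
      have b1 := T.abs_lam_sub_le j z y
      have b2 : T.Lp * ‖y - z‖ ≤ T.Lp * ε := mul_le_mul_of_nonneg_left (b0.trans hρ.le) hL.le
      rw [hy0, zero_sub, abs_neg] at b1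
      linarith
    obtain ⟨k, hk⟩ := T.liou_near hij a1 a2
    linarith [hzr k]
  simp only [conv, h1, integral_zero]

/-- the test functions -/
lemma test_mol {c : Fin 3 → ℂ} (hc : ∀ i, ‖c i‖ = 1) {χ : ℂ → ℝ} (hχ : ContDiff ℝ 1 χ) {r ε : ℝ}
    (hε : 0 < ε) (hr : 2 * (T.Lp * ε) * T.dm < r) (h0 : ∀ k x, ‖x - T.P k‖ < r → χ x = 0)
    {x : ℂ} (hx : x ∈ T.table) (a : ℂ) :
    T.Test c fun y => (χ y : ℂ) * (a * (rho ε (x - y) : ℝ) +
      ∑ i, c i * conj a * (rho ε (T.R i x - y) : ℝ)) := by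
  refine ⟨(Complex.ofRealCLM.contDiff.comp hχ).mul
    ((contDiff_const.mul (liou_contDiff_rho_sub ε x)).add
      (ContDiff.sum fun i _ => contDiff_const.mul (liou_contDiff_rho_sub ε _))), ?_⟩
  intro j y hy
  by_cases hχ0 : χ y = 0
  · simp [hχ0]
  obtain ⟨hy0, hy1⟩ := T.mem_segment_lam hy
  have hx0 := (T.mem_table_iff x).1 hx
  have hL := T.Lp_pos
  have h1 : ∀ i, i ≠ j → rho ε (T.R i x - y) = 0 := by
    intro i hi
    apply rho_eq_zero hε
    by_contra hρ
    rw [not_le] at hρ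
    have a1 : |T.lam i y| ≤ T.Lp * ε := by
      have b1 := T.abs_lam_sub_le i y (T.R i x)
      have b2 : T.Lp * ‖T.R i x - y‖ ≤ T.Lp * ε := mul_le_mul_of_nonneg_left hρ.le hL.le
      rw [abs_of_nonneg (hy1 i)]
      have b3 := neg_abs_le (T.lam i (T.R i x) - T.lam i y)
      rw [T.lam_R] at b1 b3
      linarith [hx0 i]
    have a2 : |T.lam j y| ≤ T.Lp * ε := by
      rw [hy0, abs_zero]
      positivity
    obtain ⟨k, hk⟩ := T.liou_near hi a1 a2
    exact hχ0 (h0 k y (hk.trans_lt hr))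
  have h2 : rho ε (T.R j x - y) = rho ε (x - y) := by
    apply rho_radial
    conv_lhs => rw [← T.R_of_lam_eq_zero hy0]
    exact T.norm_R_sub_R j x y
  have h3 : ∑ i, c i * conj a * ((rho ε (T.R i x - y) : ℝ) : ℂ) =
      c j * conj a * ((rho ε (x - y) : ℝ) : ℂ) := by
    rw [Finset.sum_eq_single j, h2]
    · intro i _ hi
      rw [h1 i hi]
      simp
    · intro hj
      exact absurd (Finset.mem_univ j) hj
  have h4 : c j * conj (c j) = 1 := by
    rw [Complex.mul_conj, Complex.normSq_eq_norm_sq, hc]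
    simp
  simp only [h3, map_add, map_mul, Complex.conj_conj, Complex.conj_ofReal]
  linear_combination (-(χ y : ℂ) * a * ((rho ε (x - y) : ℝ) : ℂ)) * h4

end Triangle

end Vale.Agent.P099
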