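import Vale.Agent.N099X.Base

set_option linter.all false

open MeasureTheory Set Filter Topology
open scoped ComplexConjugate NNReal ENNReal

namespace Vale.Agent.P099

/-- the time `r` map agrees near `δ 0` with a continuous map -/
def LocGood (T : Triangle) (δ : ℝ → ℂ × ℂ) (r : ℝ) : Prop :=
  ∃ S : ℂ × ℂ → ℂ × ℂ, Continuous S ∧
    ∀ᶠ p in 𝓝 (δ 0), ∀ γ : ℝ → ℂ × ℂ, T.IsTrajectory γ → γ 0 = p → γ r = S p

lemma Loc_step {T : Triangle} {δ : ℝ → ℂ × ℂ} (hδ : T.IsTrajectory δ) {r r' : ℝ}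
    (h : LocGood T δ r) (F : ℂ × ℂ → ℂ × ℂ) (hF : Continuous F)
    (hU : ∀ᶠ p in 𝓝 (δ r), ∀ γ : ℝ → ℂ × ℂ, T.IsTrajectory γ → γ 0 = p → γ (r' - r) = F p) :
    LocGood T δ r' := by
  obtain ⟨S, hS, hev⟩ := h
  have h0 : δ r = S (δ 0) := hev.self_of_nhds δ hδ rfl
  rw [h0] at hU
  refine ⟨F ∘ S, hF.comp hS, ?_⟩
  filter_upwards [hev, (hS.tendsto (δ 0)).eventually hU] with p h1 h2 γ hγ hp
  have h3 := h2 (fun s => γ (s + r)) (Triangle.IsTrajectory.shift T hγ r)
    (by show γ (0 + r) = S p; rw [zero_add]; exact h1 γ hγ hp)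
  have h4 : γ (r' - r + r) = F (S p) := h3
  rw [sub_add_cancel] at h4
  exact h4

lemma Loc_free {T : Triangle} {δ : ℝ → ℂ × ℂ} (hδ : T.IsTrajectory δ) {r r' : ℝ}
    (h : LocGood T δ r) (hr : r ≤ r') (h1 : (δ r).1 ∈ T.table)
    (h2 : (δ r).1 + (r' - r) • (δ r).2 ∈ T.table) : LocGood T δ r' := by
  have c1 : Continuous (fun p : ℂ × ℂ => p.1 + (r' - r) • p.2) := by fun_prop
  refine Loc_step hδ h (fun p => (p.1 + (r' - r) • p.2, p.2)) (by fun_prop) ?_
  filter_upwards [(continuous_fst.tendsto (δ r)).eventually (T.isOpen_table.mem_nhds h1),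
    (c1.tendsto (δ r)).eventually (T.isOpen_table.mem_nhds h2)] with p a1 a2 γ hγ hp
  subst hp
  exact Triangle.IsTrajectory.free T hγ a1 (sub_nonneg.2 hr) a2

lemma Loc_bounce {T : Triangle} {δ : ℝ → ℂ × ℂ} (hδ : T.IsTrajectory δ) {r r' : ℝ} {i : Fin 3}
    (h : LocGood T δ r) (h1 : (δ r).1 ∈ T.table) (hE : T.E i (δ r))
    (hh : T.hitT i (δ r) < r' - r)
    (h2 : T.R i ((δ r).1 + (r' - r) • (δ r).2) ∈ T.table) : LocGood T δ r' := by
  have c0 : Continuous (fun p : ℂ × ℂ => p.1 + (r' - r) • p.2) := by fun_prop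
  have c1 : Continuous (fun p : ℂ × ℂ => T.R i (p.1 + (r' - r) • p.2)) :=
    (T.continuous_R i).comp c0
  have c2 : Continuous (fun p : ℂ × ℂ => T.ell i p.2) := by
    unfold Triangle.ell cr
    fun_prop
  have c3 : ContinuousAt (T.hitT i) (δ r) := by
    unfold Triangle.hitT
    exact ContinuousAt.div (((T.continuous_lam i).comp continuous_fst).neg.continuousAt)
      c2.continuousAt hE.1.ne
  have c4 : ∀ j, ContinuousAt (fun p : ℂ × ℂ => T.lam j (p.1 + T.hitT i p • p.2)) (δ r) :=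
    fun j => (T.continuous_lam j).continuousAt.comp
      (continuousAt_fst.add (c3.smul continuousAt_snd))
  have e4 : ∀ᶠ p in 𝓝 (δ r), ∀ j, j ≠ i → 0 < T.lam j (p.1 + T.hitT i p • p.2) := by
    rw [eventually_all]
    intro j
    by_cases hj : j = i
    · exact Eventually.of_forall fun p hp => absurd hj hp
    · filter_upwards [(c4 j).eventually (lt_mem_nhds (hE.2 j hj))] with p hp _
      exact hp
  refine Loc_step hδ h (fun p => (T.R i (p.1 + (r' - r) • p.2), T.refl i p.2))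
    (c1.prodMk ((T.continuous_refl i).comp continuous_snd)) ?_
  filter_upwards [(continuous_fst.tendsto (δ r)).eventually (T.isOpen_table.mem_nhds h1),
    (c1.tendsto (δ r)).eventually (T.isOpen_table.mem_nhds h2),
    (c2.tendsto (δ r)).eventually (gt_mem_nhds hE.1), e4,
    c3.eventually (gt_mem_nhds hh)] with p a1 a2 a3 a4 a5 γ hγ hp
  subst hp
  exact Triangle.IsTrajectory.bounce T hγ a1 ⟨a3, a4⟩ a5 a2

lemma Loc_ind {T : Triangle} {δ : ℝ → ℂ × ℂ} (hδ : T.IsTrajectory δ) (h0 : (δ 0).1 ∈ T.table)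
    {s : ℝ} (hs : 0 ≤ s)
    (hQ : ∀ r, 0 ≤ r → r < s →
      ((δ r).1 ∈ T.table → LocGood T δ r) ∧ ∀ᶠ q in 𝓝[>] r, (δ q).1 ∈ T.table) :
    ∃ b, s < b ∧ ∀ r, s ≤ r → r < b →
      ((δ r).1 ∈ T.table → LocGood T δ r) ∧ ∀ᶠ q in 𝓝[>] r, (δ q).1 ∈ T.table := by
  rcases hδ s with ⟨hT, hE⟩ | ⟨i, u, hS, hL, hR⟩
  · have c1 : Continuous (fun q : ℝ => (δ s).1 + (q - s) • (δ s).2) := by fun_prop
    have e1 : ∀ᶠ q in 𝓝 s, (δ s).1 + (q - s) • (δ s).2 ∈ T.table :=
      (c1.tendsto s).eventually (T.isOpen_table.mem_nhds (by simpa using hT))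
    obtain ⟨a, b, hab, hI⟩ := mem_nhds_iff_exists_Ioo_subset.1 (hE.and e1)
    have hin : ∀ q ∈ Ioo a b, (δ q).1 ∈ T.table := by
      intro q hq
      rw [(hI hq).1]
      exact (hI hq).2
    have hG : LocGood T δ s := by
      rcases hs.eq_or_lt with h | h
      · subst h
        exact ⟨id, continuous_id, Eventually.of_forall fun p γ _ hp => hp⟩
      · obtain ⟨r, hr1, hr2⟩ := exists_between (max_lt h hab.1)
        have hr : r ∈ Ioo a b := ⟨(le_max_right _ _).trans_lt hr1, hr2.trans hab.2⟩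
        refine Loc_free hδ ((hQ r ((le_max_left _ _).trans hr1.le) hr2).1 (hin r hr)) hr2.le
          (hin r hr) ?_
        rw [(hI hr).1]
        have : (δ s).1 + (r - s) • (δ s).2 + (s - r) • (δ s).2 = (δ s).1 := by
          simp only [sub_smul]
          ring
        simpa only [this] using hT
    refine ⟨b, hab.2, fun r hr1 hr2 => ⟨fun _ => ?_, ?_⟩⟩
    · exact Loc_free hδ hG hr1 hT (hI ⟨hab.1.trans_le hr1, hr2⟩).2
    · filter_upwards [Ioo_mem_nhdsGT hr2] with q hq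
      exact hin q ⟨(hab.1.trans_le hr1).trans hq.1, hq.2⟩
  · have hs0 : 0 < s := by
      rcases hs.eq_or_lt with h | h
      · subst h
        exact absurd hS (T.not_mem_side_of_mem_table h0 i)
      · exact h
    obtain ⟨hx0, hxj⟩ := (T.mem_side_iff' i _).1 hS
    obtain ⟨a, ha, hI⟩ := (mem_nhdsLT_iff_exists_Ioo_subset' hs0).1 hL
    have ha' : a < s := ha
    obtain ⟨r0, hr1, hr2⟩ := exists_between (max_lt hs0 ha')
    obtain ⟨r, hrT, hr⟩ := (((hQ r0 ((le_max_left _ _).trans hr1.le) hr2).2).and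
      (Ioo_mem_nhdsGT hr2)).exists
    have hr0 : 0 ≤ r := ((le_max_left _ _).trans hr1.le).trans hr.1.le
    have hδr : δ r = ((δ s).1 + (r - s) • u, u) :=
      hI ⟨((le_max_right _ _).trans_lt hr1).trans hr.1, hr.2⟩
    have hG := (hQ r hr0 hr.2).1 hrT
    have hell : T.ell i u < 0 := by
      have h1 := (T.mem_table_iff _).1 hrT i
      rw [hδr, T.lam_add_smul, hx0, zero_add] at h1
      by_contra hcon
      have := mul_nonpos_of_nonpos_of_nonneg (sub_nonpos.2 hr.2.le) (not_lt.1 hcon)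
      linarith
    have hhit : T.hitT i (δ r) = s - r := by
      rw [hδr, Triangle.hitT, T.lam_add_smul, hx0, zero_add, div_eq_iff hell.ne]
      ring
    have hEr : T.E i (δ r) := by
      refine ⟨by rw [hδr]; exact hell, fun j hj => ?_⟩
      rw [hhit, hδr]
      have : (δ s).1 + (r - s) • u + (s - r) • u = (δ s).1 := by
        simp only [sub_smul]
        ring
      simpa only [this] using hxj j hj
    have e1 : ∀ᶠ q in 𝓝[>] s, (δ s).1 + (q - s) • T.refl i u ∈ T.table := by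
      simp only [T.mem_table_iff]
      rw [eventually_all]
      intro j
      by_cases hj : j = i
      · filter_upwards [self_mem_nhdsWithin] with q hq
        rw [hj, T.lam_add_smul, hx0, zero_add, T.ell_refl]
        exact mul_pos (sub_pos.2 hq) (neg_pos.2 hell)
      · have c1 : Continuous (fun q : ℝ => T.lam j ((δ s).1 + (q - s) • T.refl i u)) :=
          (T.continuous_lam j).comp (by fun_prop)
        exact nhdsWithin_le_nhds ((c1.tendsto s).eventually
          (lt_mem_nhds (by simpa using hxj j hj)))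
    obtain ⟨b, hb, hJ⟩ := (mem_nhdsGT_iff_exists_Ioo_subset' (lt_add_one s)).1 (hR.and e1)
    have hb' : s < b := hb
    have hin : ∀ q ∈ Ioo s b, (δ q).1 ∈ T.table := by
      intro q hq
      rw [(hJ hq).1]
      exact (hJ hq).2
    refine ⟨b, hb', fun q hq1 hq2 => ⟨fun hqT => ?_, ?_⟩⟩
    · have hq : s < q := by
        rcases hq1.eq_or_lt with h | h
        · subst h
          exact absurd hS (T.not_mem_side_of_mem_table hqT i)
        · exact h
      refine Loc_bounce hδ hG hrT hEr (by rw [hhit]; linarith) ?_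
      rw [hδr]
      have : (δ s).1 + (r - s) • u + (q - r) • u = (δ s).1 + (q - s) • u := by
        simp only [sub_smul]
        ring
      show T.R i ((δ s).1 + (r - s) • u + (q - r) • u) ∈ T.table
      rw [this, T.R_add, T.R_of_lam_eq_zero hx0, T.refl_smul]
      exact (hJ ⟨hq, hq2⟩).2
    · filter_upwards [Ioo_mem_nhdsGT hq2] with q' hq'
      exact hin q' ⟨hq1.trans_lt hq'.1, hq'.2⟩

/-- the time `t` map is continuous near a trajectory that is in the open table at times `0`, `t` -/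
theorem Triangle.IsTrajectory.locally {T : Triangle} {δ : ℝ → ℂ × ℂ} (hδ : T.IsTrajectory δ)
    {t : ℝ} (ht : 0 ≤ t) (h0 : (δ 0).1 ∈ T.table) (h1 : (δ t).1 ∈ T.table) :
    ∃ (O : Set (ℂ × ℂ)) (S : ℂ × ℂ → ℂ × ℂ), IsOpen O ∧ δ 0 ∈ O ∧ Continuous S ∧
      ∀ γ : ℝ → ℂ × ℂ, T.IsTrajectory γ → γ 0 ∈ O → γ t = S (γ 0) := by
  have key : ((δ t).1 ∈ T.table → LocGood T δ t) ∧ ∀ᶠ q in 𝓝[>] t, (δ q).1 ∈ T.table := by
    by_contra hcon
    let B : Set ℝ := {r | 0 ≤ r ∧
      ¬ (((δ r).1 ∈ T.table → LocGood T δ r) ∧ ∀ᶠ q in 𝓝[>] r, (δ q).1 ∈ T.table)}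
    have hne : B.Nonempty := ⟨t, ht, hcon⟩
    have hbd : BddBelow B := ⟨0, fun r hr => hr.1⟩
    have hs : 0 ≤ sInf B := le_csInf hne fun r hr => hr.1
    obtain ⟨b, hb, hW⟩ := Loc_ind hδ h0 hs (fun r hr0 hr => by
      by_contra h
      exact absurd (csInf_le hbd ⟨hr0, h⟩) (not_le.2 hr))
    have : b ≤ sInf B := le_csInf hne fun r hr => by
      by_contra h
      exact hr.2 (hW r (csInf_le hbd hr) (not_le.1 h))
    exact absurd this (not_le.2 hb)
  obtain ⟨S, hS, hev⟩ := key.1 h1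
  obtain ⟨O, hO1, hO2, hO3⟩ := eventually_nhds_iff.1 hev
  exact ⟨O, S, hO2, hO3, hS, fun γ hγ h => hO1 _ h γ hγ rfl⟩

end Vale.Agent.P099
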