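import Vale.Agent.N099X.Loc
import Vale.Agent.N099X.Emp

set_option linter.all false

open MeasureTheory Set Filter Topology
open scoped ComplexConjugate NNReal ENNReal

namespace Vale.Agent.P099

lemma port_ii {γ : ℝ → ℂ × ℂ} (hm : Measurable γ) {a : ℂ × ℂ → ℝ} (ha : Continuous a)
    (h : ∀ p, a p ∈ Icc (0 : ℝ) 1) (x y : ℝ) : IntervalIntegrable (fun s => a (γ s)) volume x y := by
  refine (intervalIntegrable_const (c := (1 : ℝ))).mono_fun
    (ha.measurable.comp hm).aestronglyMeasurable (Eventually.of_forall fun s => ?_)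
  simp only [norm_one]
  rw [Real.norm_of_nonneg (h _).1]
  exact (h _).2

/-- comparison of two limits of time averages -/
lemma port_le {γ : ℝ → ℂ × ℂ} (hm : Measurable γ) {U : Filter ℝ} [U.NeBot] (hU : U ≤ atTop)
    {l : Measure (ℂ × ℂ)}
    (hl : ∀ F : ℂ × ℂ → ℝ, Continuous F →
      Tendsto (fun t : ℝ => t⁻¹ * ∫ s in (0 : ℝ)..t, F (γ s)) U (𝓝 (∫ p, F p ∂l)))
    {t : ℝ} (ht : 0 ≤ t) {a b : ℂ × ℂ → ℝ} (ha : Continuous a) (hb : Continuous b)
    (ha1 : ∀ p, a p ∈ Icc (0 : ℝ) 1) (hb1 : ∀ p, b p ∈ Icc (0 : ℝ) 1)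
    (hab : ∀ s, a (γ s) ≤ b (γ (s + t))) : ∫ p, a p ∂l ≤ ∫ p, b p ∂l := by
  have h0 : Tendsto (fun x : ℝ => x⁻¹ * t) U (𝓝 0) := by
    have := (tendsto_inv_atTop_zero.mono_left hU).mul_const t
    rwa [zero_mul] at this
  have h1 := (hl b hb).add h0
  rw [add_zero] at h1
  refine le_of_tendsto_of_tendsto (hl a ha) h1 ?_
  filter_upwards [hU (eventually_gt_atTop 0)] with x hx
  have hx : 0 < x := hx
  rw [← mul_add]
  refine mul_le_mul_of_nonneg_left ?_ (inv_nonneg.2 hx.le)
  have h2 : ∫ s in (0 : ℝ)..x, a (γ s) ≤ ∫ s in (0 : ℝ)..x, b (γ (s + t)) :=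
    intervalIntegral.integral_mono_on hx.le (port_ii hm ha ha1 _ _)
      (port_ii (hm.comp (measurable_add_const t)) hb hb1 _ _) fun s _ => hab s
  have h3 : ∫ s in (0 : ℝ)..x, b (γ (s + t)) = ∫ s in t..(x + t), b (γ s) := by
    rw [intervalIntegral.integral_comp_add_right (fun s => b (γ s)), zero_add]
  have h4 := intervalIntegral.integral_add_adjacent_intervals (port_ii hm hb hb1 0 t)
    (port_ii hm hb hb1 t (x + t))
  have h5 := intervalIntegral.integral_add_adjacent_intervals (port_ii hm hb hb1 0 x)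
    (port_ii hm hb hb1 x (x + t))
  have h6 : 0 ≤ ∫ s in (0 : ℝ)..t, b (γ s) :=
    intervalIntegral.integral_nonneg ht fun s _ => (hb1 _).1
  have h7 : ∫ s in x..(x + t), b (γ s) ≤ ∫ s in x..(x + t), (1 : ℝ) :=
    intervalIntegral.integral_mono_on (by linarith) (port_ii hm hb hb1 _ _)
      intervalIntegrable_const fun s _ => (hb1 _).2
  rw [intervalIntegral.integral_const, smul_eq_mul, mul_one] at h7
  linarith

lemma port_int {l : Measure (ℂ × ℂ)} [IsProbabilityMeasure l] {a : ℂ × ℂ → ℝ}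
    (ha : Continuous a) (h : ∀ p, a p ∈ Icc (0 : ℝ) 1) : Integrable a l :=
  Integrable.of_bound ha.aestronglyMeasurable 1 (Eventually.of_forall fun p => by
    rw [Real.norm_of_nonneg (h _).1]
    exact (h _).2)

/-- an absolutely continuous limit of empirical laws is invariant -/
theorem Triangle.IsTrajectory.limit_invariant {T : Triangle} {γ : ℝ → ℂ × ℂ}
    (hγ : T.IsTrajectory γ) (hu : ∀ s, ‖(γ s).2‖ = 1) {U : Filter ℝ} [U.NeBot] (hU : U ≤ atTop)
    {l : Measure (ℂ × ℂ)} [IsProbabilityMeasure l]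
    (hl : ∀ F : ℂ × ℂ → ℝ, Continuous F →
      Tendsto (fun t : ℝ => t⁻¹ * ∫ s in (0 : ℝ)..t, F (γ s)) U (𝓝 (∫ p, F p ∂l)))
    (hac : l ≪ T.mu) : T.IsInvariantLaw l := by
  obtain ⟨Ψ, hΨ, hb, -⟩ := T.exists_good_flow
  have hm : Measurable γ := hγ.measurable hu
  have hpos : ∀ t, 0 ≤ t → l.map (Ψ t) = l := by
    intro t ht
    have hmt : Measurable (Ψ t) := (hΨ.mp t).measurable
    haveI : IsProbabilityMeasure (l.map (Ψ t)) := Measure.isProbabilityMeasure_map hmt.aemeasurable
    have key : ∀ C V : Set (ℂ × ℂ), IsClosed C → IsOpen V → C ⊆ V → l.map (Ψ t) C ≤ l V := by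
      intro C V hC hV hCV
      obtain ⟨f, hf0, hf1, hf⟩ := exists_continuous_zero_one_of_isClosed hV.isClosed_compl hC
        (disjoint_compl_left_iff_subset.2 hCV)
      let b : ℂ × ℂ → ℝ := fun p => min 1 (2 * f p)
      have hbc : Continuous b := continuous_const.min (continuous_const.mul f.continuous)
      have hb1 : ∀ p, b p ∈ Icc (0 : ℝ) 1 := fun p =>
        ⟨le_min zero_le_one (mul_nonneg zero_le_two (hf p).1), min_le_left _ _⟩
      have hbV : ∫ p, b p ∂l ≤ l.real V := by
        rw [← integral_indicator_one hV.measurableSet]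
        refine integral_mono (port_int hbc hb1)
          ((integrable_const (1 : ℝ)).indicator hV.measurableSet) fun p => ?_
        by_cases hp : p ∈ V
        · rw [indicator_of_mem hp]
          exact (hb1 p).2
        · rw [indicator_of_notMem hp]
          have : f p = 0 := hf0 hp
          simp [b, this]
      let W : Set (ℂ × ℂ) := {q | ∃ (O : Set (ℂ × ℂ)) (S : ℂ × ℂ → ℂ × ℂ), IsOpen O ∧
        Continuous S ∧ (∀ δ : ℝ → ℂ × ℂ, T.IsTrajectory δ → δ 0 ∈ O → δ t = S (δ 0)) ∧
        q ∈ O ∧ 1 / 2 < f (S q)}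
      have hW : IsOpen W := by
        rw [isOpen_iff_forall_mem_open]
        rintro q ⟨O, S, hO, hS, hd, h1, h2⟩
        exact ⟨O ∩ {q | 1 / 2 < f (S q)}, fun r hr => ⟨O, S, hO, hS, hd, hr.1, hr.2⟩,
          hO.inter (isOpen_lt continuous_const (f.continuous.comp hS)), h1, h2⟩
      have h1 : l.map (Ψ t) C ≤ l W := by
        rw [Measure.map_apply hmt hC.measurableSet]
        refine measure_mono_ae ?_
        filter_upwards [hac.ae_le hb, hac.ae_le T.ae_mem_table,
          hac.ae_le ((hΨ.mp t).quasiMeasurePreserving.ae T.ae_mem_table)] with p hp h0 h1 hpC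
        obtain ⟨O, S, hO, hp0, hS, hd⟩ := hp.2.locally ht (by rw [hp.1]; exact h0) h1
        have h2 := hd _ hp.2 hp0
        simp only [hp.1] at hp0 h2
        refine ⟨O, S, hO, hS, hd, hp0, ?_⟩
        have h3 : f (Ψ t p) = 1 := hf1 hpC
        rw [← h2, h3]
        norm_num
      refine h1.trans ?_
      rw [hW.measure_eq_iSup_isClosed l]
      refine iSup_le fun K => iSup_le fun hKW => iSup_le fun hK => ?_
      obtain ⟨a, ha0, ha1, ha⟩ := exists_continuous_zero_one_of_isClosed hW.isClosed_compl hK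
        (disjoint_compl_left_iff_subset.2 hKW)
      have h2 : l.real K ≤ ∫ p, a p ∂l := by
        rw [← integral_indicator_one hK.measurableSet]
        refine integral_mono ((integrable_const (1 : ℝ)).indicator hK.measurableSet)
          (port_int a.continuous ha) fun p => ?_
        by_cases hp : p ∈ K
        · rw [indicator_of_mem hp]
          exact (ha1 hp).ge
        · rw [indicator_of_notMem hp]
          exact (ha p).1
      have h3 : ∫ p, a p ∂l ≤ ∫ p, b p ∂l := by
        refine port_le hm hU hl ht a.continuous hbc ha hb1 fun s => ?_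
        by_cases hs : γ s ∈ W
        · obtain ⟨O, S, -, -, hd, h4, h5⟩ := hs
          have h6 := hd _ (Triangle.IsTrajectory.shift T hγ s) (by rwa [zero_add])
          simp only [zero_add] at h6
          rw [add_comm s t, h6]
          exact (ha _).2.trans (le_min le_rfl (by linarith))
        · have : a (γ s) = 0 := ha0 hs
          rw [this]
          exact (hb1 _).1
      exact (ENNReal.toReal_le_toReal (measure_ne_top l K) (measure_ne_top l V)).1
        (h2.trans (h3.trans hbV))
    refine Measure.eq_of_le_of_isProbabilityMeasure (Measure.le_iff.2 fun A _ => ?_)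
    rw [Set.measure_eq_iInf_isOpen A l]
    refine le_iInf fun V => le_iInf fun hAV => le_iInf fun hV => (measure_mono hAV).trans ?_
    rw [hV.measure_eq_iSup_isClosed (l.map (Ψ t))]
    exact iSup_le fun C => iSup_le fun hCV => iSup_le fun hC => key C V hC hV hCV
  refine ⟨Ψ, hΨ.meas, fun t => ⟨(hΨ.mp t).measurable, ?_⟩, ?_⟩
  · rcases le_total 0 t with ht | ht
    · exact hpos t ht
    · conv_lhs => rw [← hpos (-t) (neg_nonneg.2 ht)]
      rw [Measure.map_map (hΨ.mp t).measurable (hΨ.mp (-t)).measurable]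
      conv_rhs => rw [← Measure.map_id (μ := l)]
      refine Measure.map_congr ?_
      filter_upwards [hac.ae_le (hΨ.add t (-t)), hac.ae_le hΨ.zero] with p h1 h2
      have h1 : Ψ (t + -t) p = Ψ t (Ψ (-t) p) := h1
      have h2 : Ψ 0 p = p := h2
      rw [add_neg_cancel, h2] at h1
      exact h1.symm
  · have h1 : ∀ᵐ p ∂T.mu, ‖p.2‖ = 1 := Measure.quasiMeasurePreserving_snd.ae ae_norm
    filter_upwards [hac.ae_le h1, hac.ae_le hb] with p h1 h2
    exact ⟨h1, h2⟩

end Vale.Agent.P099
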