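import Mathlib.Analysis.SpecialFunctions.Complex.Circle
import Mathlib.Geometry.Euclidean.Angle.Unoriented.Affine
import Mathlib.MeasureTheory.Integral.IntervalIntegral.Periodic
import Mathlib.MeasureTheory.Measure.Lebesgue.Complex
import Mathlib.NumberTheory.Real.Irrational
import Mathlib.Probability.ConditionalProbability

open MeasureTheory ProbabilityTheory Set Filter Topology

namespace Vale.Agent.N099X

/-- Phase space: a point of the plane `ℂ` and a direction angle in `ℝ / ℤ`. -/
abbrev Phase : Type := ℂ × UnitAddCircle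

/-- The unit velocity `exp (2 π i θ)`. -/
noncomputable def vel (θ : UnitAddCircle) : ℂ := AddCircle.toCircle θ

variable (P : Fin 3 → ℂ)

/-- The open triangle with vertices `P 0`, `P 1`, `P 2`. -/
def Q : Set ℂ := interior (convexHull ℝ (range P))

/-- Some angle of the triangle is an irrational multiple of `π`. -/
def Irr : Prop :=
  ∃ i, Irrational (EuclideanGeometry.angle (P (i + 1)) (P i) (P (i + 2)) / Real.pi)

/-- Normalized area times uniform direction. -/
noncomputable def mu : Measure Phase := (cond volume (Q P)).prod volume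

/-- Reflection at a wall parallel to `d`: tangential velocity kept, normal velocity reversed. -/
def Specular (d : ℂ) (θ θ' : UnitAddCircle) : Prop :=
  inner ℝ (vel θ') d = inner ℝ (vel θ) d ∧
    inner ℝ (vel θ') (Complex.I * d) = -inner ℝ (vel θ) (Complex.I * d)

/-- A billiard trajectory, for all times: at time `t` it arrives along a straight line in direction
`θ` and leaves in direction `θ'`; nothing happens inside `Q`, it reflects at the open sides. -/
def IsOrbit (γ : ℝ → Phase) : Prop :=
  ∀ t, ∃ θ θ', (∀ᶠ s in 𝓝[<] t, γ s = ((γ t).1 + (s - t) • vel θ, θ)) ∧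
    (∀ᶠ s in 𝓝[>] t, γ s = ((γ t).1 + (s - t) • vel θ', θ')) ∧
    ((γ t).1 ∈ Q P ∧ θ = (γ t).2 ∧ θ' = (γ t).2 ∨
      ∃ i, (γ t).1 ∈ openSegment ℝ (P (i + 1)) (P (i + 2)) ∧ Specular (P (i + 2) - P (i + 1)) θ θ')

/-- Under `Φ`, `m`-almost every phase point moves along a billiard trajectory. -/
def Moves (m : Measure Phase) (Φ : ℝ → Phase → Phase) : Prop :=
  ∀ᵐ p ∂m, Φ 0 p = p ∧ IsOrbit P fun t => Φ t p

variable {X : Type} [MeasurableSpace X] (m : Measure X) (Φ : ℝ → X → X)

/-- `Φ` is jointly measurable and every `Φ t` preserves `m`. -/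
def Preserves : Prop :=
  Measurable (Function.uncurry Φ) ∧ ∀ t, MeasurePreserving (Φ t) m m

/-- Ergodicity. -/
def Erg : Prop :=
  ∀ A, MeasurableSet A → (∀ t, m (symmDiff (Φ t ⁻¹' A) A) = 0) → m A = 0 ∨ m A = 1

/-- Mixing along the filter of times `l`; mixing is the case `l = atTop`. -/
def Mix (l : Filter ℝ) : Prop :=
  ∀ A B, MeasurableSet A → MeasurableSet B →
    Tendsto (fun t => m (Φ t ⁻¹' A ∩ B)) l (𝓝 (m A * m B))

end Vale.Agent.N099X
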