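import Vale.Agent.N099X.Ens
import Vale.Agent.N099X.Four

set_option linter.all false

open MeasureTheory Set Filter Topology
open scoped ComplexConjugate NNReal ENNReal

namespace Vale.Agent.P099

namespace Triangle

variable (T : Triangle)

theorem ens_flow {Ψ : ℝ → ℂ × ℂ → ℂ × ℂ} (hΨ : PFlow T.mu Ψ) (hb : T.IsBilliardFlow Ψ) :
    T.Ens T.mu Ψ := by
  have h1 : ∀ᵐ p ∂T.mu, ‖p.2‖ = 1 := Measure.quasiMeasurePreserving_snd.ae ae_norm
  refine ⟨hΨ.meas, hb.mono fun p hp => hp.2,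
    fun s => (hΨ.mp s).quasiMeasurePreserving.ae h1,
    ⟨((volume T.table)⁻¹).toNNReal, fun s => le_of_eq ?_⟩⟩
  have h2 : T.mu.map (fun z => (Ψ s z).1) = (T.mu.map (Ψ s)).map Prod.fst :=
    (Measure.map_map measurable_fst (hΨ.mp s).measurable).symm
  rw [h2, (hΨ.mp s).map_eq, mu, Measure.map_fst_prod, measure_univ, one_smul, ENNReal.smul_def,
    ENNReal.coe_toNNReal (ENNReal.inv_ne_top.2 T.volume_table_pos.ne')]
  rfl

/-- if the modes `0` and `1` vanish at all times then the weight vanishes -/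
theorem zero_of_van01 (hT : T.IsIrrational) {Ψ : ℝ → ℂ × ℂ → ℂ × ℂ} (hΨ : PFlow T.mu Ψ)
    (hb : T.IsBilliardFlow Ψ) {h : ℂ × ℂ → ℝ} (hm : Measurable h) (hM : ∃ M, ∀ p, |h p| ≤ M)
    (h0 : ∀ s, Van T.mu Ψ h 0 s) (h1 : ∀ s, Van T.mu Ψ h 1 s) : ∀ᵐ p ∂T.mu, h p = 0 := by
  have hE := T.ens_flow hΨ hb
  have key : ∀ n : ℕ, (∀ s, Van T.mu Ψ h n s) ∧ ∀ s, Van T.mu Ψ h ((n : ℤ) + 1) s := by
    intro n
    induction n with
    | zero =>
      rw [Nat.cast_zero, zero_add]
      exact ⟨h0, h1⟩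
    | succ n ih =>
      rw [Nat.cast_succ]
      have hk : (n : ℤ) + 1 + 1 ≠ 0 := by omega
      refine ⟨ih.2, fun s => Ens.step hT hE hm hM hk ?_ ?_ s⟩
      · intro φ hφ a b
        rw [hE.van_cont hm hM (ih.2 a) hφ.1.continuous, hE.van_cont hm hM (ih.2 b) hφ.1.continuous]
      · intro φ hφ s
        rw [add_sub_cancel_right, hE.van_cont hm hM (ih.1 s) (continuous_dzb hφ.1),
          Complex.zero_re]
  have all : ∀ k : ℤ, Van T.mu Ψ h k 0 := by
    intro k
    obtain ⟨n, rfl | rfl⟩ := Int.eq_nat_or_neg k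
    · exact (key n).1 0
    · exact hE.van_neg ((key n).1 0)
  have : IsProbabilityMeasure (ProbabilityTheory.cond volume T.table) :=
    ProbabilityTheory.cond_isProbabilityMeasure_of_finite T.volume_table_pos.ne'
      T.volume_table_lt_top.ne
  refine ae_zero_of_modes (ProbabilityTheory.cond volume T.table) hm hM fun k ψ hψ => ?_
  refine Eq.trans (integral_congr_ae ?_) (all k ψ hψ)
  filter_upwards [hΨ.zero] with p hp
  rw [hp]

theorem Zero_int {w ψ : ℂ → ℂ} (hw : BddM w) (hψ : BddM ψ) :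
    Integrable (fun x => w x * ψ x) (volume.restrict T.table) := by
  have : IsFiniteMeasure (volume.restrict T.table) := ⟨by
    rw [Measure.restrict_apply_univ]; exact T.volume_table_lt_top⟩
  obtain ⟨m1, K, hK⟩ := hw
  obtain ⟨m2, L, hL⟩ := hψ
  refine Integrable.of_bound (m1.mul m2).aestronglyMeasurable (K * L)
    (Eventually.of_forall fun x => ?_)
  rw [norm_mul]
  exact mul_le_mul (hK x) (hL x) (norm_nonneg _) ((norm_nonneg _).trans (hK x))

theorem Zero_shift {Ψ : ℝ → ℂ × ℂ → ℂ × ℂ} (hΨ : PFlow T.mu Ψ)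
    (hb : T.IsBilliardFlow Ψ) {h : ℂ × ℂ → ℝ} (hm : Measurable h) (hM : ∃ M, ∀ p, |h p| ≤ M)
    (t s : ℝ) (k : ℤ) {ψ : ℂ → ℂ} (hψ : BddM ψ) :
    Nm T.mu Ψ (fun p => h (Ψ (-t) p) - h p) k s ψ =
      Nm T.mu Ψ h k (s + t) ψ - Nm T.mu Ψ h k s ψ := by
  have hE := T.ens_flow hΨ hb
  obtain ⟨M, hM⟩ := hM
  obtain ⟨m2, L, hL⟩ := hψ
  have mF : Measurable fun p => ψ (Ψ s p).1 * (Ψ s p).2 ^ k :=
    (m2.comp (hΨ.mp s).measurable.fst).mul ((hΨ.mp s).measurable.snd.pow_const k)
  have mG : ∀ g : ℂ × ℂ → ℝ, Measurable g →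
      Measurable fun p => (g p : ℂ) * (ψ (Ψ s p).1 * (Ψ s p).2 ^ k) := fun g hg =>
    (Complex.measurable_ofReal.comp hg).mul mF
  have iG : ∀ g : ℂ × ℂ → ℝ, Measurable g → (∀ p, |g p| ≤ M) →
      Integrable (fun p => (g p : ℂ) * (ψ (Ψ s p).1 * (Ψ s p).2 ^ k)) T.mu := by
    intro g hg hgM
    refine Integrable.of_bound (mG g hg).aestronglyMeasurable (M * L) ?_
    filter_upwards [hE.unit s] with p hp
    rw [norm_mul, norm_mul, norm_zpow, hp, one_zpow, mul_one, Complex.norm_real, Real.norm_eq_abs]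
    exact mul_le_mul (hgM p) (hL _) (norm_nonneg _) ((abs_nonneg _).trans (hgM p))
  have mh : Measurable fun p => h (Ψ (-t) p) := hm.comp (hΨ.mp (-t)).measurable
  have e1 : ∫ p, (h (Ψ (-t) p) : ℂ) * (ψ (Ψ s p).1 * (Ψ s p).2 ^ k) ∂T.mu =
      Nm T.mu Ψ h k (s + t) ψ := by
    have e2 := integral_map (μ := T.mu) (hΨ.mp t).measurable.aemeasurable
      (mG _ mh).aestronglyMeasurable
    rw [(hΨ.mp t).map_eq] at e2
    refine e2.trans (integral_congr_ae ?_)
    filter_upwards [hΨ.add (-t) t, hΨ.add s t, hΨ.zero] with p p1 p2 p3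
    rw [← p1, ← p2, neg_add_cancel, p3]
  rw [← e1, Nm, Nm, ← integral_sub (iG _ mh fun p => hM _) (iG _ hm hM)]
  refine integral_congr_ae (Eventually.of_forall fun p => ?_)
  simp only [Complex.ofReal_sub, sub_mul]

/-- if the current vanishes on all discs at all times then the weight is constant -/
theorem const_of_discs (hT : T.IsIrrational) {Ψ : ℝ → ℂ × ℂ → ℂ × ℂ} (hΨ : PFlow T.mu Ψ)
    (hb : T.IsBilliardFlow Ψ) {h : ℂ × ℂ → ℝ} (hm : Measurable h) (hM : ∃ M, ∀ p, |h p| ≤ M)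
    (h1 : ∀ s x r, Metric.closedBall x r ⊆ T.table →
      ∫ p in Ψ s ⁻¹' (Metric.closedBall x r ×ˢ univ), (h p : ℂ) * (Ψ s p).2 ∂T.mu = 0) :
    ∃ c, ∀ᵐ p ∂T.mu, h p = c := by
  have hE := T.ens_flow hΨ hb
  have v1 : ∀ s, Van T.mu Ψ h 1 s := by
    intro s
    obtain ⟨w, hw, H⟩ := hE.density hm hM 1 s
    have z : ∀ᵐ x ∂(volume.restrict T.table), w x = 0 := by
      refine ae_zero_of_discs T.isOpen_table hw fun x r hr => ?_
      have mB : MeasurableSet (Metric.closedBall x r) := Metric.isClosed_closedBall.measurableSet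
      have e := H ((Metric.closedBall x r).indicator fun _ => 1) (measurable_const.indicator mB)
        ⟨1, fun y _ => by
          by_cases hy : y ∈ Metric.closedBall x r
          · rw [indicator_of_mem hy, norm_one]
          · rw [indicator_of_notMem hy, norm_zero]; exact zero_le_one⟩
      have e1 : ∫ y in T.table, w y * (Metric.closedBall x r).indicator (fun _ => (1 : ℂ)) y =
          ∫ y in Metric.closedBall x r, w y := by
        rw [← inter_eq_self_of_subset_left hr, ← Measure.restrict_restrict mB,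
          ← integral_indicator mB, inter_eq_self_of_subset_left hr]
        refine integral_congr_ae (Eventually.of_forall fun y => ?_)
        by_cases hy : y ∈ Metric.closedBall x r
        · simp only [indicator_of_mem hy, mul_one]
        · simp only [indicator_of_notMem hy, mul_zero]
      rw [← e1, ← e, ← h1 s x r hr,
        ← integral_indicator ((hΨ.mp s).measurable (mB.prod MeasurableSet.univ))]
      refine integral_congr_ae (Eventually.of_forall fun p => ?_)
      by_cases hy : (Ψ s p).1 ∈ Metric.closedBall x r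
      · have hy' : p ∈ Ψ s ⁻¹' (Metric.closedBall x r ×ˢ univ) := ⟨hy, mem_univ _⟩
        simp only [indicator_of_mem hy, indicator_of_mem hy', one_mul, zpow_one]
      · have hy' : p ∉ Ψ s ⁻¹' (Metric.closedBall x r ×ˢ univ) := fun h => hy h.1
        simp only [indicator_of_notMem hy, indicator_of_notMem hy', zero_mul, mul_zero]
    intro ψ hψ
    obtain ⟨K, hK⟩ := hψ.2
    rw [H ψ hψ.1 ⟨K, fun x _ => hK x⟩]
    refine integral_eq_zero_of_ae ?_
    filter_upwards [z] with x hx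
    simp only [hx, zero_mul, Pi.zero_apply]
  have v2 : ∀ (φ : ℂ → ℝ), ContDiff ℝ 1 φ → ∀ a b, Nm T.mu Ψ h 0 b (fun x => φ x) =
      Nm T.mu Ψ h 0 a (fun x => φ x) := by
    intro φ hφ a b
    have hc : ContDiff ℝ 1 fun x => (φ x : ℂ) := Complex.ofRealCLM.contDiff.comp hφ
    have e := hE.transport hm hM 0 (φ := fun x => (φ x : ℂ))
      ⟨hc, fun i y _ => by simp⟩ a b
    have e0 : ∀ s, (Nm T.mu Ψ h (0 + 1) s (dz fun x => (φ x : ℂ)) +
        Nm T.mu Ψ h (0 - 1) s (dzb fun x => (φ x : ℂ))).re = 0 := by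
      intro s
      rw [zero_add, zero_sub, hE.van_cont hm hM (v1 s) (continuous_dz hc),
        hE.van_cont hm hM (hE.van_neg (v1 s)) (continuous_dzb hc), add_zero, Complex.zero_re]
    simp only [e0, intervalIntegral.integral_zero] at e
    have e1 : ∀ s, (Nm T.mu Ψ h 0 s fun x => (φ x : ℂ)).im = 0 := by
      intro s
      have : Nm T.mu Ψ h 0 s (fun x => (φ x : ℂ)) =
          ((∫ p, h p * φ (Ψ s p).1 ∂T.mu : ℝ) : ℂ) := by
        rw [← integral_complex_ofReal]
        refine integral_congr_ae (Eventually.of_forall fun p => ?_)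
        simp only [zpow_zero, mul_one, Complex.ofReal_mul]
      rw [this, Complex.ofReal_im]
    exact Complex.ext (sub_eq_zero.1 e) ((e1 b).trans (e1 a).symm)
  have v3 : ∀ a b ψ, BddM ψ → Nm T.mu Ψ h 0 b ψ = Nm T.mu Ψ h 0 a ψ := by
    intro a b
    obtain ⟨w, hw, H⟩ := hE.density hm hM 0 a
    obtain ⟨w', hw', H'⟩ := hE.density hm hM 0 b
    have hd : BddM fun x => w' x - w x := by
      obtain ⟨K, hK⟩ := hw.2
      obtain ⟨K', hK'⟩ := hw'.2
      exact ⟨hw'.1.sub hw.1, K' + K, fun x => (norm_sub_le _ _).trans (add_le_add (hK' x) (hK x))⟩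
    have z := ae_zero_of_real_tests T.isOpen_table T.volume_table_lt_top hd (by
      intro φ hφ hs
      obtain ⟨K, hK⟩ := hφ.continuous.bounded_above_of_compact_support hs
      have hb : BddM fun x => (φ x : ℂ) :=
        ⟨Complex.measurable_ofReal.comp hφ.continuous.measurable, K, fun x => by
          rw [Complex.norm_real]; exact hK x⟩
      have e := v2 φ hφ a b
      rw [H _ hb.1 ⟨K, fun x _ => by rw [Complex.norm_real]; exact hK x⟩,
        H' _ hb.1 ⟨K, fun x _ => by rw [Complex.norm_real]; exact hK x⟩, ← sub_eq_zero,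
        ← integral_sub (T.Zero_int hw' hb) (T.Zero_int hw hb)] at e
      rw [← e]
      exact integral_congr_ae (Eventually.of_forall fun x => sub_mul _ _ _))
    intro ψ hψ
    obtain ⟨K, hK⟩ := hψ.2
    rw [H ψ hψ.1 ⟨K, fun x _ => hK x⟩, H' ψ hψ.1 ⟨K, fun x _ => hK x⟩]
    refine integral_congr_ae ?_
    filter_upwards [z] with x hx
    rw [sub_eq_zero.1 hx]
  refine T.ergodic_fun hT hb hm hM fun s => ?_
  obtain ⟨M, hM'⟩ := id hM
  have z := T.zero_of_van01 hT hΨ hb (h := fun p => h (Ψ (-(-s)) p) - h p)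
    ((hm.comp (hΨ.mp _).measurable).sub hm)
    ⟨M + M, fun p => (abs_sub _ _).trans (add_le_add (hM' _) (hM' _))⟩
    (fun a ψ hψ => by rw [T.Zero_shift hΨ hb hm hM (-s) a 0 hψ, v3 a _ ψ hψ, sub_self])
    (fun a ψ hψ => by
      rw [T.Zero_shift hΨ hb hm hM (-s) a 1 hψ, v1 _ ψ hψ, v1 _ ψ hψ, sub_self])
  filter_upwards [z] with p hp
  rwa [neg_neg, sub_eq_zero] at hp

end Triangle

end Vale.Agent.P099
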